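import Vale.Agent.P312.CM

/-!
The simulation algorithm written with natural numbers only, and the proof that it is good.
-/

namespace Vale.Agent.P312

variable {A : Type} {α : Type} [Code A α]

/-- The number with base `B` digits `f 0, …, f (n - 1)`. -/
def build (N B n : ℕ) (f : ℕ → ℕ) : ℕ := loop N n 0 (fun i acc => acc * B + f (n - 1 - i))

@[fun_prop]
theorem good_build {N B n : α → ℕ} {f : α → ℕ → ℕ} (hN : Good A N) (hB : Good A B) (hn : Good A n)
    (hf : Good A (fun q : α × ℕ => f q.1 q.2)) :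
    Good A (fun a => build (N a) (B a) (n a) (f a)) := by
  unfold build
  refine good_loop hN hn (Good.const 0) (Good.add (by fun_prop) ?_)
  exact hf.comp (f := fun q : α × ℕ × ℕ => (q.1, n q.1 - 1 - q.2.1)) (by fun_prop)

def bmax (n : ℕ) (f : ℕ → ℕ) : ℕ := loop 2 n 0 (fun i y => max y (f i))

@[fun_prop]
theorem good_bmax {n : α → ℕ} {f : α → ℕ → ℕ} (hn : Good A n)
    (hf : Good A (fun q : α × ℕ => f q.1 q.2)) : Good A (fun a => bmax (n a) (f a)) := by
  unfold bmax
  refine good_loop (Good.const 2) hn (Good.const 0) (good_max (by fun_prop) ?_)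
  exact hf.comp (f := fun q : α × ℕ × ℕ => (q.1, q.2.1)) (by fun_prop)

def prodm (p n : ℕ) (f : ℕ → ℕ) : ℕ := loop (p - 1) n 1 (fun l acc => acc * f l)

@[fun_prop]
theorem good_prodm {p n : α → ℕ} {f : α → ℕ → ℕ} (hp : Good A p) (hn : Good A n)
    (hf : Good A (fun q : α × ℕ => f q.1 q.2)) : Good A (fun a => prodm (p a) (n a) (f a)) := by
  unfold prodm
  refine good_loop (by fun_prop) hn (Good.const 1) (Good.mul (by fun_prop) ?_)
  exact hf.comp (f := fun q : α × ℕ × ℕ => (q.1, q.2.1)) (by fun_prop)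

def summ (p n : ℕ) (f : ℕ → ℕ) : ℕ := loop (p - 1) n 0 (fun l acc => acc + f l)

@[fun_prop]
theorem good_summ {p n : α → ℕ} {f : α → ℕ → ℕ} (hp : Good A p) (hn : Good A n)
    (hf : Good A (fun q : α × ℕ => f q.1 q.2)) : Good A (fun a => summ (p a) (n a) (f a)) := by
  unfold summ
  refine good_loop (by fun_prop) hn (Good.const 0) (Good.add (by fun_prop) ?_)
  exact hf.comp (f := fun q : α × ℕ × ℕ => (q.1, q.2.1)) (by fun_prop)

def mleN (N p n : ℕ) (z : ℕ → ℕ) (k : ℕ) (f : ℕ → ℕ) : ℕ :=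
  summ p (powm (N + 1) 2 n) (fun a =>
    prodm p n (fun l => if dig 2 a l = 1 then z l else k + (p - 1) * z l) * f a)

@[fun_prop]
theorem good_mleN {N p n k : α → ℕ} {z f : α → ℕ → ℕ} (hN : Good A N) (hp : Good A p)
    (hn : Good A n) (hk : Good A k) (hz : Good A (fun q : α × ℕ => z q.1 q.2))
    (hf : Good A (fun q : α × ℕ => f q.1 q.2)) :
    Good A (fun a => mleN (N a) (p a) (n a) (z a) (k a) (f a)) := by
  unfold mleN
  have hz' : Good A (fun q : (α × ℕ) × ℕ => z q.1.1 q.2) :=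
    hz.comp (f := fun q : (α × ℕ) × ℕ => (q.1.1, q.2)) (by fun_prop)
  refine good_summ hp (by fun_prop) (Good.mul (good_prodm (by fun_prop) (by fun_prop) ?_) hf)
  exact Good.ite_eq (by fun_prop) (by fun_prop) hz' (Good.add (by fun_prop)
    (Good.mul (by fun_prop) hz'))

/-- Numeric tables of a one-tape machine. -/
structure Tab (A : Type) where
  nq : ℕ
  gb : ℕ
  q0 : ℕ
  bl : ℕ
  tQ : ℕ → ℕ
  tW : ℕ → ℕ
  tM : ℕ → ℕ
  tH : ℕ → ℕ
  sy : Inp A → ℕ → ℕ

class Tab.IsGood (T : Tab A) : Prop where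
  tQ : Good A T.tQ
  tW : Good A T.tW
  tM : Good A T.tM
  tH : Good A T.tH
  sy : Good A (fun x : Inp A × ℕ => T.sy x.1 x.2)

section
variable {T : Tab A} [hT : T.IsGood]

@[fun_prop] theorem good_tQ {f : α → ℕ} (h : Good A f) : Good A (fun a => T.tQ (f a)) :=
  hT.tQ.comp h
@[fun_prop] theorem good_tW {f : α → ℕ} (h : Good A f) : Good A (fun a => T.tW (f a)) :=
  hT.tW.comp h
@[fun_prop] theorem good_tM {f : α → ℕ} (h : Good A f) : Good A (fun a => T.tM (f a)) :=
  hT.tM.comp h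
@[fun_prop] theorem good_tH {f : α → ℕ} (h : Good A f) : Good A (fun a => T.tH (f a)) :=
  hT.tH.comp h
@[fun_prop] theorem good_sy {w : α → Inp A} {f : α → ℕ} (hw : Good A w) (h : Good A f) :
    Good A (fun a => T.sy (w a) (f a)) := hT.sy.comp (hw.prodMk h)
end

/-- Parameters `(N, a, ρ, p, o)`. -/
abbrev Par := ℕ × ℕ × ℕ × ℕ × ℕ

namespace Par
def N (P : Par) : ℕ := P.1
def a (P : Par) : ℕ := P.2.1
def ρ (P : Par) : ℕ := P.2.2.1
def p (P : Par) : ℕ := P.2.2.2.1
def o (P : Par) : ℕ := P.2.2.2.2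
def b (P : Par) : ℕ := P.a * P.a
def tm (P : Par) : ℕ := P.a * P.a * P.a * P.a * P.a
def m (P : Par) : ℕ := (P.a + 1) * P.a * P.a
def z0 (P : Par) : ℕ := P.b * (P.m * P.tm)
def Z (P : Par) : ℕ := P.z0 + P.o
def ng (P : Par) : ℕ := P.a * P.ρ
def D (P : Par) : ℕ := (P.a + 1) * (2 * P.a + 5) + 1
end Par

section
variable {P : α → Par}
@[fun_prop] theorem good_N (h : Good A P) : Good A (fun x => (P x).N) := by
  unfold Par.N; fun_prop
@[fun_prop] theorem good_a (h : Good A P) : Good A (fun x => (P x).a) := by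
  unfold Par.a; fun_prop
@[fun_prop] theorem good_ρ (h : Good A P) : Good A (fun x => (P x).ρ) := by
  unfold Par.ρ; fun_prop
@[fun_prop] theorem good_p (h : Good A P) : Good A (fun x => (P x).p) := by
  unfold Par.p; fun_prop
@[fun_prop] theorem good_o (h : Good A P) : Good A (fun x => (P x).o) := by
  unfold Par.o; fun_prop
@[fun_prop] theorem good_b (h : Good A P) : Good A (fun x => (P x).b) := by
  unfold Par.b; fun_prop
@[fun_prop] theorem good_tm (h : Good A P) : Good A (fun x => (P x).tm) := by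
  unfold Par.tm; fun_prop
@[fun_prop] theorem good_m (h : Good A P) : Good A (fun x => (P x).m) := by
  unfold Par.m; fun_prop
@[fun_prop] theorem good_z0 (h : Good A P) : Good A (fun x => (P x).z0) := by
  unfold Par.z0; fun_prop
@[fun_prop] theorem good_Z (h : Good A P) : Good A (fun x => (P x).Z) := by
  unfold Par.Z; fun_prop
@[fun_prop] theorem good_ng (h : Good A P) : Good A (fun x => (P x).ng) := by
  unfold Par.ng; fun_prop
@[fun_prop] theorem good_D (h : Good A P) : Good A (fun x => (P x).D) := by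
  unfold Par.D; fun_prop
end

namespace Tab
variable (T : Tab A)

def B (P : Par) : ℕ := (2 * P.Z + 1) * T.nq
def bb (P : Par) : ℕ := T.nq * P.b
def nx (P : Par) : ℕ := T.gb * P.b
def L (P : Par) : ℕ := P.p * (P.a + 3) + T.B P
def r0 (P : Par) : ℕ := P.Z * T.nq + T.q0

def key (P : Par) (y : ℕ × ℕ) : ℕ := y.2 % T.nq * T.gb + dig T.gb y.1 (y.2 / T.nq % P.b)

/-- One step of the machine inside block `β`, on the pair (content, record). -/
def istep (P : Par) (β : ℕ) (y : ℕ × ℕ) : ℕ × ℕ :=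
  if T.tH (y.2 % T.nq) = 0 then
    (if y.2 / T.bb P = β then
      (build P.N T.gb P.b (fun l => if l = y.2 / T.nq % P.b then T.tW (T.key P y) else dig T.gb y.1 l),
        (y.2 / T.nq + T.tM (T.key P y) - 1) * T.nq + T.tQ (T.key P y))
    else y)
  else y

def ep (P : Par) (x r : ℕ) : ℕ × ℕ := loop P.N P.tm (x, r) (fun _ y => T.istep P (r / T.bb P) y)

def recd (P : Par) (v r : ℕ) : ℕ :=
  dig (T.B P) (dig (powm (P.N + 1) 2 P.ng) v (r / P.a)) (r % P.a)

def sq (P : Par) (v u γ t : ℕ) : ℕ :=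
  if P.a - 1 + t < γ * P.a then T.recd P v (P.a - 1 + t) else dig (T.B P) u (t - (γ - 1) * P.a)

def updN (P : Par) (β x v u γ n : ℕ) : ℕ :=
  loop P.N n x (fun t y => if T.sq P v u γ t / T.bb P = β then (T.ep P y (T.sq P v u γ t)).1 else y)

def upd (P : Par) (β x v : ℕ) : ℕ := T.updN P β x v 0 (P.a + 1) (P.a * P.a)

def chk (P : Par) (γ j x v u : ℕ) : ℕ :=
  if dig (T.B P) u 0 = T.recd P v (γ * P.a - 1) then
    (if (T.ep P (T.updN P (dig (T.B P) u j / T.bb P) x v u γ ((γ - 1) * P.a + j))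
      (dig (T.B P) u j)).2 = dig (T.B P) u (j + 1) then 1 else 0)
  else 0

def x0 (w : Inp A) (P : Par) (β : ℕ) : ℕ :=
  build P.N T.gb P.b (fun l => if β * P.b + l < P.Z then T.bl else T.sy w (β * P.b + l - P.Z))

def e0 (P : Par) : ℕ := build P.N (T.B P) P.a (fun _ => T.r0 P)

def get (P : Par) (σ : ℕ × ℕ) (row col : ℕ) : ℕ :=
  if row < 2 then dig P.p σ.1 (row * T.nx P + col) else dig P.p σ.2 ((row - 2) * P.ng + col)

def zVN (P : Par) (σ : ℕ × ℕ) (i l : ℕ) : ℕ :=
  T.get P σ (3 + (i * P.a + l / P.ng) % (P.a + 1)) (l % P.ng)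

def zXN (P : Par) (σ : ℕ × ℕ) (i l : ℕ) : ℕ :=
  if l < T.nx P then T.get P σ (i % 2) l else T.zVN P σ i (l - T.nx P)

def valXN (P : Par) (σ : ℕ × ℕ) (i β m col : ℕ) : ℕ :=
  (P.p - 1) * (powm (P.p - 1 + 1) m (P.p - 1 - (T.nx P + (P.a + 1) * P.ng)) *
    mleN P.N P.p (T.nx P + (P.a + 1) * P.ng) (T.zXN P σ (i - 1)) m
      (fun a => dig 2 (T.upd P β (a % powm (P.N + 1) 2 (T.nx P)) (shr a 2 (T.nx P))) col))

def valEN (P : Par) (σ : ℕ × ℕ) (g k u m col : ℕ) : ℕ :=
  powm (P.p - 1 + 1) k (P.p - 1 - P.a * ((g - (g - 1) / P.a * P.a) * P.ng)) *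
    dig 2 (u / T.B P) col *
      (powm (P.p - 1 + 1) m (P.p - 1 - P.a) * prodm P.p P.a (fun j => T.get P σ 2 j))

def valCN (P : Par) (σ : ℕ × ℕ) (g k u j m col : ℕ) : ℕ :=
  if col = j then
    (P.p - 1) * (powm (P.p - 1 + 1) m (P.p - 1 - T.nx P) *
      mleN P.N P.p (T.nx P) (T.get P σ ((g - 1) / P.a % 2)) m
        (fun x => mleN P.N P.p ((g - (g - 1) / P.a * P.a) * P.ng) (T.zVN P σ ((g - 1) / P.a)) k
          (fun v => T.chk P (g - (g - 1) / P.a * P.a) j x v u)))
  else 0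

def valN (w : Inp A) (P : Par) (c : Ctx) (σ : ℕ × ℕ) (col : ℕ) : ℕ :=
  if c.1 = 1 then dig 2 (T.x0 w P c.2.2.1) col
  else if c.1 = 2 then T.valXN P σ c.2.1 c.2.2.1 c.2.2.2.2.2 col
  else if c.1 = 3 then dig 2 (T.e0 P) col
  else if c.1 = 4 then T.valEN P σ c.2.1 c.2.2.1 c.2.2.2.1 c.2.2.2.2.2 col
  else if c.1 = 5 then T.valCN P σ c.2.1 c.2.2.1 c.2.2.2.1 c.2.2.2.2.1 c.2.2.2.2.2 col
  else 0

def leafN (w : Inp A) (P : Par) (c : Ctx) (σ : ℕ × ℕ) : ℕ × ℕ :=
  if rowOf P.a c < 2 then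
    (build P.N P.p (2 * T.nx P) (fun l => (dig P.p σ.1 l +
      if l / T.nx P = rowOf P.a c then T.valN w P c σ (l % T.nx P) else 0) % P.p), σ.2)
  else
    (σ.1, build P.N P.p ((P.a + 2) * P.ng) (fun l => (dig P.p σ.2 l +
      if l / P.ng = rowOf P.a c - 2 then T.valN w P c σ (l % P.ng) else 0) % P.p))

def decode (P : Par) (x : ℕ) : Ctx :=
  loop P.N P.D (7, (P.a + 1) * P.a, 0, 0, 0, 0)
    (fun i c => cstep P.p P.a (T.B P) (T.bb P) c (dig (T.L P) x (P.D - 1 - i)))

def final (w : Inp A) (P : Par) : ℕ × ℕ :=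
  loop P.N (powm (P.N + 1) (T.L P) P.D) (0, 0) (fun x σ => T.leafN w P (T.decode P x) σ)

def outp (P : Par) (σ : ℕ × ℕ) : ℕ :=
  T.tH (dig (T.B P) (build P.N 2 P.ng (fun e => T.get P σ (3 + (P.a + 1) * P.a % (P.a + 1)) e))
    (P.a - 1) % T.nq)

/-- Zero exactly when the parameters are admissible. -/
def bad (P : Par) : ℕ :=
  (1 - P.a) + (1 - P.ρ) + (2 - P.p) +
  bmax P.p (fun d => if 2 ≤ d then (if P.p % d = 0 then 1 else 0) else 0) +
  (T.nx P + (P.a + 1) * P.ng - (P.p - 1)) + (P.a * (P.a * P.ng) - (P.p - 1)) +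
  (1 - shr P.N 2 (T.nx P + (P.a + 1) * P.ng)) + (T.B P - powm (P.N + 1) 2 P.ρ) +
  (1 - shr P.N P.p (2 * T.nx P)) + (1 - shr P.N P.p ((P.a + 2) * P.ng)) +
  (1 - shr P.N (T.L P) P.D)

def res1 (w : Inp A) (P : Par) : ℕ := if T.bad P = 0 then T.outp P (T.final w P) else 0

def res (w : Inp A) (N : ℕ) : ℕ :=
  bmax N (fun a => bmax N (fun ρ => bmax N (fun p => bmax N (fun o => T.res1 w (N, a, ρ, p, o)))))

end Tab

section
variable {T : Tab A} {P : α → Par}

@[fun_prop] theorem good_B (h : Good A P) : Good A (fun x => T.B (P x)) := by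
  unfold Tab.B; fun_prop
@[fun_prop] theorem good_bb (h : Good A P) : Good A (fun x => T.bb (P x)) := by
  unfold Tab.bb; fun_prop
@[fun_prop] theorem good_nx (h : Good A P) : Good A (fun x => T.nx (P x)) := by
  unfold Tab.nx; fun_prop
@[fun_prop] theorem good_L (h : Good A P) : Good A (fun x => T.L (P x)) := by
  unfold Tab.L; fun_prop
@[fun_prop] theorem good_r0 (h : Good A P) : Good A (fun x => T.r0 (P x)) := by
  unfold Tab.r0; fun_prop
@[fun_prop] theorem good_key {y : α → ℕ × ℕ} (h : Good A P) (hy : Good A y) :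
    Good A (fun x => T.key (P x) (y x)) := by
  unfold Tab.key; fun_prop

variable [T.IsGood]

@[fun_prop] theorem good_istep {β : α → ℕ} {y : α → ℕ × ℕ} (h : Good A P) (hβ : Good A β)
    (hy : Good A y) : Good A (fun x => T.istep (P x) (β x) (y x)) := by
  unfold Tab.istep; fun_prop

@[fun_prop] theorem good_ep {x r : α → ℕ} (h : Good A P) (hx : Good A x) (hr : Good A r) :
    Good A (fun a => T.ep (P a) (x a) (r a)) := by
  unfold Tab.ep; fun_prop

omit [T.IsGood] in
@[fun_prop] theorem good_recd {v r : α → ℕ} (h : Good A P) (hv : Good A v) (hr : Good A r) :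
    Good A (fun a => T.recd (P a) (v a) (r a)) := by
  unfold Tab.recd; fun_prop

omit [T.IsGood] in
@[fun_prop] theorem good_sq {v u γ t : α → ℕ} (h : Good A P) (hv : Good A v) (hu : Good A u)
    (hγ : Good A γ) (ht : Good A t) : Good A (fun a => T.sq (P a) (v a) (u a) (γ a) (t a)) := by
  unfold Tab.sq; fun_prop

@[fun_prop] theorem good_updN {β x v u γ n : α → ℕ} (h : Good A P) (hβ : Good A β) (hx : Good A x)
    (hv : Good A v) (hu : Good A u) (hγ : Good A γ) (hn : Good A n) :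
    Good A (fun a => T.updN (P a) (β a) (x a) (v a) (u a) (γ a) (n a)) := by
  unfold Tab.updN; fun_prop

@[fun_prop] theorem good_upd {β x v : α → ℕ} (h : Good A P) (hβ : Good A β) (hx : Good A x)
    (hv : Good A v) : Good A (fun a => T.upd (P a) (β a) (x a) (v a)) := by
  unfold Tab.upd; fun_prop

@[fun_prop] theorem good_chk {γ j x v u : α → ℕ} (h : Good A P) (hγ : Good A γ) (hj : Good A j)
    (hx : Good A x) (hv : Good A v) (hu : Good A u) :
    Good A (fun a => T.chk (P a) (γ a) (j a) (x a) (v a) (u a)) := by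
  unfold Tab.chk; fun_prop

@[fun_prop] theorem good_x0 {w : α → Inp A} {β : α → ℕ} (hw : Good A w) (h : Good A P)
    (hβ : Good A β) : Good A (fun a => T.x0 (w a) (P a) (β a)) := by
  unfold Tab.x0; fun_prop

omit [T.IsGood] in
@[fun_prop] theorem good_e0 (h : Good A P) : Good A (fun a => T.e0 (P a)) := by
  unfold Tab.e0; fun_prop

omit [T.IsGood] in
@[fun_prop] theorem good_get {σ : α → ℕ × ℕ} {r c : α → ℕ} (h : Good A P) (hσ : Good A σ)
    (hr : Good A r) (hc : Good A c) : Good A (fun a => T.get (P a) (σ a) (r a) (c a)) := by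
  unfold Tab.get; fun_prop

omit [T.IsGood] in
@[fun_prop] theorem good_zVN {σ : α → ℕ × ℕ} {r c : α → ℕ} (h : Good A P) (hσ : Good A σ)
    (hr : Good A r) (hc : Good A c) : Good A (fun a => T.zVN (P a) (σ a) (r a) (c a)) := by
  unfold Tab.zVN; fun_prop

omit [T.IsGood] in
@[fun_prop] theorem good_zXN {σ : α → ℕ × ℕ} {r c : α → ℕ} (h : Good A P) (hσ : Good A σ)
    (hr : Good A r) (hc : Good A c) : Good A (fun a => T.zXN (P a) (σ a) (r a) (c a)) := by
  unfold Tab.zXN; fun_prop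

@[fun_prop] theorem good_valXN {σ : α → ℕ × ℕ} {i β m c : α → ℕ} (h : Good A P) (hσ : Good A σ)
    (hi : Good A i) (hβ : Good A β) (hm : Good A m) (hc : Good A c) :
    Good A (fun a => T.valXN (P a) (σ a) (i a) (β a) (m a) (c a)) := by
  unfold Tab.valXN; fun_prop

omit [T.IsGood] in
@[fun_prop] theorem good_valEN {σ : α → ℕ × ℕ} {g k u m c : α → ℕ} (h : Good A P) (hσ : Good A σ)
    (hg : Good A g) (hk : Good A k) (hu : Good A u) (hm : Good A m) (hc : Good A c) :
    Good A (fun a => T.valEN (P a) (σ a) (g a) (k a) (u a) (m a) (c a)) := by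
  unfold Tab.valEN; fun_prop

@[fun_prop] theorem good_valCN {σ : α → ℕ × ℕ} {g k u j m c : α → ℕ} (h : Good A P)
    (hσ : Good A σ) (hg : Good A g) (hk : Good A k) (hu : Good A u) (hj : Good A j)
    (hm : Good A m) (hc : Good A c) :
    Good A (fun a => T.valCN (P a) (σ a) (g a) (k a) (u a) (j a) (m a) (c a)) := by
  unfold Tab.valCN; fun_prop

@[fun_prop] theorem good_valN {w : α → Inp A} {c : α → Ctx} {σ : α → ℕ × ℕ} {col : α → ℕ}
    (hw : Good A w) (h : Good A P) (hc : Good A c) (hσ : Good A σ) (hcol : Good A col) :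
    Good A (fun a => T.valN (w a) (P a) (c a) (σ a) (col a)) := by
  unfold Tab.valN; fun_prop

@[fun_prop] theorem good_rowOf {G : α → ℕ} {c : α → Ctx} (hG : Good A G) (hc : Good A c) :
    Good A (fun a => rowOf (G a) (c a)) := by
  unfold rowOf; fun_prop

@[fun_prop] theorem good_cstep {p G B bb d : α → ℕ} {c : α → Ctx} (hp : Good A p) (hG : Good A G)
    (hB : Good A B) (hbb : Good A bb) (hc : Good A c) (hd : Good A d) :
    Good A (fun a => cstep (p a) (G a) (B a) (bb a) (c a) (d a)) := by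
  unfold cstep; fun_prop

@[fun_prop] theorem good_leafN {w : α → Inp A} {c : α → Ctx} {σ : α → ℕ × ℕ}
    (hw : Good A w) (h : Good A P) (hc : Good A c) (hσ : Good A σ) :
    Good A (fun a => T.leafN (w a) (P a) (c a) (σ a)) := by
  unfold Tab.leafN; fun_prop

omit [T.IsGood] in
@[fun_prop] theorem good_decode {x : α → ℕ} (h : Good A P) (hx : Good A x) :
    Good A (fun a => T.decode (P a) (x a)) := by
  unfold Tab.decode; fun_prop

@[fun_prop] theorem good_final {w : α → Inp A} (hw : Good A w) (h : Good A P) :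
    Good A (fun a => T.final (w a) (P a)) := by
  unfold Tab.final; fun_prop

@[fun_prop] theorem good_outp {σ : α → ℕ × ℕ} (h : Good A P) (hσ : Good A σ) :
    Good A (fun a => T.outp (P a) (σ a)) := by
  unfold Tab.outp; fun_prop

omit [T.IsGood] in
@[fun_prop] theorem good_bad (h : Good A P) : Good A (fun a => T.bad (P a)) := by
  unfold Tab.bad; fun_prop

@[fun_prop] theorem good_res1 {w : α → Inp A} (hw : Good A w) (h : Good A P) :
    Good A (fun a => T.res1 (w a) (P a)) := by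
  unfold Tab.res1; fun_prop

theorem good_res : Good A (fun x : Inp A × ℕ => T.res x.1 x.2) := by
  unfold Tab.res; fun_prop

end

end Vale.Agent.P312
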