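import Vale.Agent.P312.Good

/-!
Arithmetic, conditionals, bounded loops and finite tables are good.
-/

namespace Vale.Agent.P312

open Function

variable {A : Type} {α β γ : Type} [Code A α] [Code A β] [Code A γ]

def lp {β : Type} (n : ℕ) (x : β) (f : ℕ → β → β) : β := Nat.rec x f n

@[simp] theorem lp_zero {β : Type} (x : β) (f : ℕ → β → β) : lp 0 x f = x := rfl
theorem lp_succ {β : Type} (n : ℕ) (x : β) (f : ℕ → β → β) : lp (n + 1) x f = f n (lp n x f) := rfl

theorem Good.succ' {f : α → ℕ} (h : Good A f) : Good A (fun a => f a + 1) := Good.succ.comp h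
theorem Good.pred' {f : α → ℕ} (h : Good A f) : Good A (fun a => f a - 1) := Good.pred.comp h

theorem Good.congr {f g : α → β} (h : Good A f) (e : ∀ a, f a = g a) : Good A g := by
  rw [← funext e]; exact h

theorem good_lp {n : α → ℕ} {x : α → β} {f : α → ℕ → β → β} (hn : Good A n) (hx : Good A x)
    (hf : Good A (fun p : α × ℕ × β => f p.1 p.2.1 p.2.2)) {B : α → ℕ} (hB : PB A B)
    (hb : ∀ (w : List A) a, ok w a → ∀ i ≤ n a, enc A (lp i (x a) (f a)) ≤ B a) :
    Good A (fun a => lp (n a) (x a) (f a)) := by
  let F : α × ℕ × β → α × ℕ × β := fun p => (p.1, p.2.1 + 1, f p.1 p.2.1 p.2.2)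
  have hF : Good A F :=
    Good.fst'.prodMk ((Good.succ' (Good.fst Good.snd')).prodMk hf)
  have e : ∀ a i, F^[i] (a, 0, x a) = (a, i, lp i (x a) (f a)) := by
    intro a i
    induction i with
    | zero => rfl
    | succ i ih => rw [iterate_succ_apply', ih]; rfl
  have := Good.iter (n := n) (x := fun a => (a, 0, x a)) hF hn
    (Good.id.prodMk ((Good.const 0).prodMk hx)) (B := fun a => pr (enc A a) (pr (n a) (B a)))
    (PB.enc.pr (hn.pbn.pr hB)) (fun w a ha i hi => by
      rw [e]
      exact pr_mono le_rfl (pr_mono hi (hb w a ha i hi)))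
  exact (Good.snd (Good.snd this)).congr fun a => by rw [e]

@[fun_prop]
theorem Good.add {f g : α → ℕ} (hf : Good A f) (hg : Good A g) : Good A (fun a => f a + g a) := by
  have e : ∀ x i : ℕ, lp i x (fun _ y => y + 1) = x + i := by
    intro x i; induction i with
    | zero => rfl
    | succ i ih => rw [lp_succ, ih]; rfl
  refine (good_lp (f := fun _ _ y => y + 1) hg hf (Good.succ' (Good.snd Good.snd'))
    (hf.pbn.add hg.pbn) fun w a _ i hi => ?_).congr fun a => e _ _
  rw [e]; simp only [enc_nat]; omega

@[fun_prop]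
theorem Good.sub {f g : α → ℕ} (hf : Good A f) (hg : Good A g) : Good A (fun a => f a - g a) := by
  have e : ∀ x i : ℕ, lp i x (fun _ y => y - 1) = x - i := by
    intro x i; induction i with
    | zero => rfl
    | succ i ih => rw [lp_succ, ih]; rfl
  refine (good_lp (f := fun _ _ y => y - 1) hg hf (Good.pred' (Good.snd Good.snd'))
    hf.pbn fun w a _ i hi => ?_).congr fun a => e _ _
  rw [e]; simp only [enc_nat]; omega

@[fun_prop]
theorem Good.mul {f g : α → ℕ} (hf : Good A f) (hg : Good A g) : Good A (fun a => f a * g a) := by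
  have e : ∀ x i : ℕ, lp i 0 (fun _ y => y + x) = x * i := by
    intro x i; induction i with
    | zero => rfl
    | succ i ih => rw [lp_succ, ih]; rfl
  refine (good_lp (f := fun a _ y => y + f a) hg (Good.const 0) (by fun_prop)
    (hf.pbn.mul hg.pbn) fun w a _ i hi => ?_).congr fun a => e _ _
  rw [e]; exact Nat.mul_le_mul_left _ hi

theorem Good.ifz {c : α → ℕ} {f g : α → β} (hc : Good A c) (hf : Good A f) (hg : Good A g) :
    Good A (fun a => if c a = 0 then f a else g a) := by
  have e : ∀ (x y : β) (i : ℕ), lp i x (fun _ _ => y) = if i = 0 then x else y := by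
    intro x y i; cases i <;> simp [lp_succ]
  refine (good_lp (f := fun a _ _ => g a) hc hf (by fun_prop)
    (hf.pb.add hg.pb) fun w a _ i hi => ?_).congr fun a => e _ _ _
  rw [e]; split_ifs <;> omega

@[fun_prop]
theorem Good.ite_eq {a b : α → ℕ} {f g : α → β} (ha : Good A a) (hb : Good A b) (hf : Good A f)
    (hg : Good A g) : Good A (fun x => if a x = b x then f x else g x) := by
  refine (Good.ifz (c := fun x => (a x - b x) + (b x - a x)) (by fun_prop) hf hg).congr fun x => ?_
  congr 1; apply propext; omega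

@[fun_prop]
theorem Good.ite_le {a b : α → ℕ} {f g : α → β} (ha : Good A a) (hb : Good A b) (hf : Good A f)
    (hg : Good A g) : Good A (fun x => if a x ≤ b x then f x else g x) := by
  refine (Good.ifz (c := fun x => a x - b x) (by fun_prop) hf hg).congr fun x => ?_
  congr 1; apply propext; omega

@[fun_prop]
theorem Good.ite_lt {a b : α → ℕ} {f g : α → β} (ha : Good A a) (hb : Good A b) (hf : Good A f)
    (hg : Good A g) : Good A (fun x => if a x < b x then f x else g x) := by
  refine (Good.ifz (c := fun x => a x + 1 - b x) (by fun_prop) hf hg).congr fun x => ?_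
  congr 1; apply propext; omega

@[fun_prop]
theorem Good.mod {f g : α → ℕ} (hf : Good A f) (hg : Good A g) : Good A (fun a => f a % g a) := by
  have e : ∀ m i : ℕ, lp i 0 (fun _ y => if y + 1 = m then 0 else y + 1) = i % m := by
    intro m i; induction i with
    | zero => simp
    | succ i ih =>
      rw [lp_succ, ih]
      rcases Nat.eq_zero_or_pos m with rfl | hm
      · simp
      · have h1 := Nat.mod_lt i hm
        rw [Nat.add_mod]
        rcases Nat.lt_or_ge 1 m with h2 | h2
        · rw [Nat.mod_eq_of_lt h2]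
          split_ifs with h
          · rw [h, Nat.mod_self]
          · exact (Nat.mod_eq_of_lt (by omega)).symm
        · obtain rfl : m = 1 := by omega
          simp [Nat.mod_one]
  refine (good_lp (f := fun a _ y => if y + 1 = g a then 0 else y + 1) hf (Good.const 0)
    (by fun_prop) hf.pbn fun w a _ i hi => ?_).congr fun a => e _ _
  rw [e]; exact (Nat.mod_le _ _).trans hi

@[fun_prop]
theorem Good.div {f g : α → ℕ} (hf : Good A f) (hg : Good A g) : Good A (fun a => f a / g a) := by
  have e : ∀ m i : ℕ, lp i 0 (fun j y => if (j + 1) % m = 0 then y + 1 else y) = i / m := by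
    intro m i; induction i with
    | zero => simp
    | succ i ih =>
      rw [lp_succ, ih, Nat.succ_div]
      simp only [Nat.dvd_iff_mod_eq_zero]
      split_ifs <;> rfl
  refine (good_lp (f := fun a j y => if (j + 1) % g a = 0 then y + 1 else y) hf (Good.const 0)
    (by fun_prop) hf.pbn fun w a _ i hi => ?_).congr fun a => e _ _
  rw [e]; exact (Nat.div_le_self _ _).trans hi

@[fun_prop]
theorem good_max {f g : α → ℕ} (hf : Good A f) (hg : Good A g) :
    Good A (fun a => max (f a) (g a)) := by
  refine Good.congr (f := fun a => if f a ≤ g a then g a else f a) (by fun_prop) fun a => ?_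
  rw [max_def]

theorem Good.table (T : ℕ → ℕ) : ∀ n : ℕ, Good A (fun x : ℕ => if x < n then T x else 0) := by
  intro n
  induction n with
  | zero => exact (Good.const 0).congr fun a => by simp
  | succ n ih =>
    refine Good.congr (f := fun x : ℕ => if x = n then T n else if x < n then T x else 0)
      (Good.ite_eq Good.id (Good.const n) (Good.const _) ih) fun x => ?_
    by_cases h : x = n
    · simp [h]
    · have : x < n + 1 ↔ x < n := by omega
      simp [h, this]

theorem Good.of_finite {T : ℕ → ℕ} (n : ℕ) (h : ∀ x, n ≤ x → T x = 0) : Good A T :=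
  (Good.table T n).congr fun x => by
    split_ifs with hx
    · rfl
    · exact (h x (by omega)).symm

/-! Clamped loops. -/

class Clamp (β : Type) where
  clamp : ℕ → β → β

export Clamp (clamp)

class GClamp (A : Type) (β : Type) [Code A β] [Clamp β] : Prop where
  good : Good A (fun x : ℕ × β => clamp x.1 x.2)
  bound : ∃ c, ∀ (B : ℕ) (b : β), enc A (clamp B b) + 2 ≤ (B + 2) ^ c

instance : Clamp ℕ := ⟨fun B x => x % (B + 1)⟩
instance {β γ : Type} [Clamp β] [Clamp γ] : Clamp (β × γ) :=
  ⟨fun B x => (clamp B x.1, clamp B x.2)⟩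

theorem clamp_nat (B x : ℕ) : clamp B x = x % (B + 1) := rfl
theorem clamp_prod {β γ : Type} [Clamp β] [Clamp γ] (B : ℕ) (x : β) (y : γ) :
    clamp B (x, y) = (clamp B x, clamp B y) := rfl
theorem clamp_of_le {B x : ℕ} (h : x ≤ B) : clamp B x = x := Nat.mod_eq_of_lt (by omega)

instance : GClamp A ℕ where
  good := by simp only [clamp_nat]; fun_prop
  bound := ⟨1, fun B b => by
    have := Nat.mod_lt b (show 0 < B + 1 by omega)
    simp only [clamp_nat, enc_nat, pow_one]; omega⟩

instance [Clamp β] [Clamp γ] [h1 : GClamp A β] [h2 : GClamp A γ] : GClamp A (β × γ) where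
  good := (h1.good.comp (f := fun x : ℕ × β × γ => (x.1, x.2.1)) (by fun_prop)).prodMk
    (h2.good.comp (f := fun x : ℕ × β × γ => (x.1, x.2.2)) (by fun_prop))
  bound := by
    obtain ⟨c1, h1⟩ := h1.bound
    obtain ⟨c2, h2⟩ := h2.bound
    refine ⟨c1 * 2 + c2 * 2, fun B b => ?_⟩
    refine (pr_le _ _).trans ?_
    rw [pow_add, pow_mul, pow_mul]
    exact Nat.mul_le_mul (Nat.pow_le_pow_left (h1 B b.1) _) (Nat.pow_le_pow_left (h2 B b.2) _)

def loop {β : Type} [Clamp β] (B n : ℕ) (x : β) (f : ℕ → β → β) : β :=
  lp n x (fun i y => clamp B (f i y))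

@[fun_prop]
theorem good_loop [Clamp β] [h : GClamp A β] {B n : α → ℕ} {x : α → β} {f : α → ℕ → β → β}
    (hB : Good A B) (hn : Good A n) (hx : Good A x)
    (hf : Good A (fun p : α × ℕ × β => f p.1 p.2.1 p.2.2)) :
    Good A (fun a => loop (B a) (n a) (x a) (f a)) := by
  obtain ⟨c, hc⟩ := h.bound
  refine good_lp (f := fun a i y => clamp (B a) (f a i y)) hn hx
    (h.good.comp (f := fun p : α × ℕ × β => (B p.1, f p.1 p.2.1 p.2.2)) (by fun_prop))
    (hx.pb.add (hB.pbn.pow2 c)) fun w a _ i _ => ?_
  rcases i with _ | i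
  · simp
  · rw [lp_succ]
    have := hc (B a) (f a i (lp i (x a) fun i y => clamp (B a) (f a i y)))
    omega

theorem loop_eq_lp {β : Type} [Clamp β] {B n : ℕ} {x : β} {f : ℕ → β → β}
    (h : ∀ i < n, clamp B (lp (i + 1) x f) = lp (i + 1) x f) : loop B n x f = lp n x f := by
  unfold loop
  induction n with
  | zero => rfl
  | succ n ih =>
    rw [lp_succ, ih fun i hi => h i (by omega)]
    exact h n (by omega)

/-! Derived functions. -/

/-- `x / B ^ l`. -/
def shr (x B l : ℕ) : ℕ := x / B ^ l

@[fun_prop]
theorem good_shr {x B l : α → ℕ} (hx : Good A x) (hB : Good A B) (hl : Good A l) :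
    Good A (fun a => shr (x a) (B a) (l a)) := by
  have e : ∀ x B i : ℕ, lp i x (fun _ y => y / B) = shr x B i := by
    intro x B i; induction i with
    | zero => simp [shr]
    | succ i ih => rw [lp_succ, ih]; simp [shr, pow_succ, Nat.div_div_eq_div_mul]
  refine (good_lp (f := fun a _ y => y / B a) hl hx (by fun_prop)
    hx.pbn fun w a _ i hi => ?_).congr fun a => e _ _ _
  rw [e]; exact Nat.div_le_self _ _

/-- Digit number `l` of `x` in base `B`. -/
def dig (B x l : ℕ) : ℕ := shr x B l % B

@[fun_prop]
theorem good_dig {x B l : α → ℕ} (hx : Good A x) (hB : Good A B) (hl : Good A l) :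
    Good A (fun a => dig (B a) (x a) (l a)) := by
  unfold dig; fun_prop

/-- `a ^ e` modulo `m`. -/
def powm (m a e : ℕ) : ℕ := a ^ e % m

@[fun_prop]
theorem good_powm {m x l : α → ℕ} (hm : Good A m) (hx : Good A x) (hl : Good A l) :
    Good A (fun a => powm (m a + 1) (x a) (l a)) := by
  have e : ∀ m x i : ℕ, loop m i (1 % (m + 1)) (fun _ y => y * x) =
      powm (m + 1) x i := by
    intro m x i; unfold loop; induction i with
    | zero => simp [powm]
    | succ i ih => rw [lp_succ, ih]; simp [powm, pow_succ, clamp_nat]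
  exact Good.congr (f := fun a => loop (m a) (l a) (1 % (m a + 1))
    (fun _ y => y * x a)) (by fun_prop) fun a => e _ _ _

end Vale.Agent.P312
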