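import Vale.Agent.P312.Poly

/-!
The catalytic evaluation of block contents and groups of crossing records, as a traversal of a
uniform tree of contexts, and its correctness over `ZMod p`.
-/

namespace Vale.Agent.P312

open Finset

abbrev Ctx := ℕ × ℕ × ℕ × ℕ × ℕ × ℕ

def dead : Ctx := (0, 0, 0, 0, 0, 0)

/-- The child number `d` of a context. -/
def cstep (p G B bb : ℕ) (c : Ctx) (d : ℕ) : Ctx :=
  if c.1 ≤ 5 then (if d = 0 then c else (0, 0, 0, 0, 0, 0))
  else if c.1 = 6 then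
    (if c.2.1 = 0 then (if d = 0 then (1, 0, c.2.2.1, 0, 0, 0) else (0, 0, 0, 0, 0, 0))
     else if d / (G + 3) < p then
      (if d % (G + 3) = 0 then (2, c.2.1, c.2.2.1, 0, 0, d / (G + 3))
       else if d % (G + 3) = 1 then (6, c.2.1 - 1, c.2.2.1, 0, 0, 0)
       else (7, (c.2.1 - 1) * G + (d % (G + 3) - 2), 0, 0, 0, 0))
     else (0, 0, 0, 0, 0, 0))
  else if c.1 = 7 then
    (if c.2.1 = 0 then (if d = 0 then (3, 0, 0, 0, 0, 0) else (0, 0, 0, 0, 0, 0))
     else if d / (G + 3) < p then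
      (if d % (G + 3) = 0 then (8, c.2.1, d / (G + 3), 0, 0, 0)
       else if (c.2.1 - 1) / G * G + (d % (G + 3) - 1) < c.2.1 then
        (7, (c.2.1 - 1) / G * G + (d % (G + 3) - 1), 0, 0, 0, 0)
       else (0, 0, 0, 0, 0, 0))
     else (0, 0, 0, 0, 0, 0))
  else if c.1 = 8 then
    (if c.2.2.2.2.1 ≤ G then
      (if d < B then (8, c.2.1, c.2.2.1, c.2.2.2.1 * B + d, c.2.2.2.2.1 + 1, 0)
       else (0, 0, 0, 0, 0, 0))
     else if d / (G + 3) < p then
      (if d % (G + 3) = 0 then (4, c.2.1, c.2.2.1, c.2.2.2.1, 0, d / (G + 3))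
       else if d % (G + 3) ≤ G then (9, c.2.1, c.2.2.1, c.2.2.2.1, d % (G + 3) - 1, 0)
       else (0, 0, 0, 0, 0, 0))
     else (0, 0, 0, 0, 0, 0))
  else
    (if d / (G + 3) < p then
      (if d % (G + 3) = 0 then (5, c.2.1, c.2.2.1, c.2.2.2.1, c.2.2.2.2.1, d / (G + 3))
       else if d % (G + 3) = 1 then
        (6, (c.2.1 - 1) / G, dig B c.2.2.2.1 c.2.2.2.2.1 / bb, 0, 0, 0)
       else (0, 0, 0, 0, 0, 0))
     else (0, 0, 0, 0, 0, 0))

/-- The row changed by a leaf. -/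
def rowOf (G : ℕ) (c : Ctx) : ℕ :=
  if c.1 = 2 then c.2.1 % 2 else if c.1 = 3 then 3 else if c.1 = 4 then 3 + c.2.1 % (G + 1)
  else if c.1 = 5 then 2 else 0

structure Sys where
  p : ℕ
  G : ℕ
  B : ℕ
  bb : ℕ
  nx : ℕ
  ng : ℕ
  L : ℕ
  x0 : ℕ → ℕ
  e0 : ℕ
  upd : ℕ → ℕ → ℕ → ℕ
  chk : ℕ → ℕ → ℕ → ℕ → ℕ → ℕ

namespace Sys

variable (S : Sys) [hp : Fact S.p.Prime]

abbrev F := ZMod S.p
abbrev St := ℕ → ℕ → ZMod S.p

def zV (s : S.St) (i l : ℕ) : S.F := s (3 + (i * S.G + l / S.ng) % (S.G + 1)) (l % S.ng)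

def zX (s : S.St) (i l : ℕ) : S.F := if l < S.nx then s (i % 2) l else S.zV s i (l - S.nx)

def bits (n x : ℕ) : ℕ → S.F := fun col => if col < n then bitF S.F x col else 0

def nv (g : ℕ) : ℕ := (g - (g - 1) / S.G * S.G) * S.ng

def cval (z : ℕ → S.F) (g k u j x : ℕ) : S.F :=
  mle (S.nv g) z (k : S.F) (fun v => (S.chk (g - (g - 1) / S.G * S.G) j x v u : S.F))

def valX (s : S.St) (i β m : ℕ) : ℕ → S.F := fun col =>
  if col < S.nx then
    -((m : S.F) ^ (S.p - 1 - (S.nx + (S.G + 1) * S.ng)) *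
      mle (S.nx + (S.G + 1) * S.ng) (S.zX s (i - 1)) (m : S.F)
        (fun a => bitF S.F (S.upd β (a % 2 ^ S.nx) (a / 2 ^ S.nx)) col))
  else 0

def valE (s : S.St) (g k u m : ℕ) : ℕ → S.F := fun col =>
  if col < S.ng then
    (k : S.F) ^ (S.p - 1 - S.G * S.nv g) * bitF S.F (u / S.B) col *
      ((m : S.F) ^ (S.p - 1 - S.G) * ∏ j ∈ range S.G, s 2 j)
  else 0

def valC (s : S.St) (g k u j m : ℕ) : ℕ → S.F := fun col =>
  if col = j then
    -((m : S.F) ^ (S.p - 1 - S.nx) * mle S.nx (s ((g - 1) / S.G % 2)) (m : S.F)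
      (fun x => S.cval (S.zV s ((g - 1) / S.G)) g k u j x))
  else 0

def val (c : Ctx) (s : S.St) : ℕ → S.F :=
  if c.1 = 1 then S.bits S.nx (S.x0 c.2.2.1)
  else if c.1 = 2 then S.valX s c.2.1 c.2.2.1 c.2.2.2.2.2
  else if c.1 = 3 then S.bits S.ng S.e0
  else if c.1 = 4 then S.valE s c.2.1 c.2.2.1 c.2.2.2.1 c.2.2.2.2.2
  else if c.1 = 5 then S.valC s c.2.1 c.2.2.1 c.2.2.2.1 c.2.2.2.2.1 c.2.2.2.2.2
  else 0

def leaf (c : Ctx) (s : S.St) : S.St := s + Pi.single (rowOf S.G c) (S.val c s)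

def exec : ℕ → Ctx → S.St → S.St
  | 0, c, s => S.leaf c s
  | d + 1, c, s => lp S.L s (fun i s => exec d (cstep S.p S.G S.B S.bb c i) s)

theorem exec_dead (d : ℕ) (s : S.St) : S.exec d (0, 0, 0, 0, 0, 0) s = s := by
  induction d generalizing s with
  | zero => simp [exec, leaf, val]
  | succ d ih =>
    rw [exec, lp_congr (g := fun _ s => s), lp_id]
    intro i _ s
    have : cstep S.p S.G S.B S.bb (0, 0, 0, 0, 0, 0) i = (0, 0, 0, 0, 0, 0) := by simp [cstep]
    rw [this, ih]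

theorem exec_one (hL : 1 ≤ S.L) (d : ℕ) (c c' : Ctx) (s : S.St)
    (h : ∀ i, cstep S.p S.G S.B S.bb c i = if i = 0 then c' else (0, 0, 0, 0, 0, 0)) :
    S.exec (d + 1) c s = S.exec d c' s := by
  rw [exec, lp_trunc hL]
  · rw [lp_succ, lp_zero, h]; simp
  · intro i hi s
    rw [h, if_neg (by omega), exec_dead]

theorem exec_leaf (hL : 1 ≤ S.L) (d : ℕ) (c : Ctx) (hc : c.1 ≤ 5) (s : S.St) :
    S.exec d c s = S.leaf c s := by
  induction d with
  | zero => rfl
  | succ d ih => rw [S.exec_one hL d c c s (fun i => by simp [cstep, hc]), ih]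

/-- Unfolding a catalytic loop context into rounds and children. -/
theorem exec_round (hL : S.p * (S.G + 3) ≤ S.L) (d : ℕ) (c : Ctx) (s : S.St) (ch : ℕ → ℕ → Ctx)
    (h : ∀ i, cstep S.p S.G S.B S.bb c i =
      if i / (S.G + 3) < S.p then ch (i / (S.G + 3)) (i % (S.G + 3)) else (0, 0, 0, 0, 0, 0)) :
    S.exec (d + 1) c s = lp S.p s (fun m s => lp (S.G + 2) (S.exec d (ch m 0) s)
      (fun r s => S.exec d (ch m (r + 1)) s)) := by
  rw [exec, lp_trunc hL, lp_mul]
  · refine lp_congr fun m hm s => ?_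
    rw [← lp_succ' (S.G + 2) s (fun r s => S.exec d (ch m r) s)]
    refine lp_congr fun r hr s => ?_
    have h1 : (m * (S.G + 3) + r) / (S.G + 3) = m := by
      rw [mul_comm, Nat.mul_add_div (by omega), Nat.div_eq_of_lt (by omega), add_zero]
    have h2 : (m * (S.G + 3) + r) % (S.G + 3) = r := by
      rw [mul_comm, Nat.mul_add_mod, Nat.mod_eq_of_lt (by omega)]
    rw [h, h1, h2, if_pos hm]
  · intro i hi s
    rw [h, if_neg, exec_dead]
    rw [not_lt, Nat.le_div_iff_mul_le (by omega)]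
    exact hi

def V (E : ℕ → ℕ) (i : ℕ) : ℕ → ℕ
  | 0 => 0
  | γ + 1 => 2 ^ (γ * S.ng) * E (i * S.G + γ) + V E i γ

omit hp in
theorem V_lt (E : ℕ → ℕ) (i γ : ℕ) (h : ∀ t < γ, E (i * S.G + t) < 2 ^ S.ng) :
    S.V E i γ < 2 ^ (γ * S.ng) := by
  induction γ with
  | zero => simp [V]
  | succ γ ih =>
    have h1 := ih fun t ht => h t (by omega)
    have h2 := h γ (by omega)
    rw [V, add_mul, one_mul, pow_add]
    calc _ < 2 ^ (γ * S.ng) * E (i * S.G + γ) + 2 ^ (γ * S.ng) := by omega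
      _ = 2 ^ (γ * S.ng) * (E (i * S.G + γ) + 1) := by ring
      _ ≤ _ := Nat.mul_le_mul_left _ h2

omit hp in
theorem V_testBit (E : ℕ → ℕ) (i γ : ℕ) (h : ∀ t < γ, E (i * S.G + t) < 2 ^ S.ng) (l : ℕ)
    (hl : l < γ * S.ng) :
    (S.V E i γ).testBit l = (E (i * S.G + l / S.ng)).testBit (l % S.ng) := by
  induction γ with
  | zero => simp at hl
  | succ γ ih =>
    have h1 := S.V_lt E i γ fun t ht => h t (by omega)
    rw [V, Nat.testBit_two_pow_mul_add _ h1]
    split_ifs with h2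
    · exact ih (fun t ht => h t (by omega)) h2
    · have hng : 0 < S.ng := by
        rcases Nat.eq_zero_or_pos S.ng with h0 | h0
        · simp [h0] at hl
        · exact h0
      have h3 : l / S.ng = γ := by
        rw [add_mul, one_mul] at hl
        apply Nat.div_eq_of_lt_le
        · omega
        · rw [add_mul, one_mul]; exact hl
      have h4 : l % S.ng = l - γ * S.ng := by
        have := Nat.div_add_mod l S.ng
        rw [h3, mul_comm] at this
        omega
      rw [h3, h4]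

structure OK (I : ℕ) (X : ℕ → ℕ → ℕ) (E : ℕ → ℕ) : Prop where
  hG : 1 ≤ S.G
  hL1 : S.p * (S.G + 3) ≤ S.L
  hL2 : S.B ≤ S.L
  hp1 : S.nx + (S.G + 1) * S.ng ≤ S.p - 1
  hp2 : S.G * (S.G * S.ng) ≤ S.p - 1
  hp3 : S.G ≤ S.p - 1
  X0 : ∀ β, X 0 β = S.x0 β
  E0 : E 0 = S.e0
  Xlt : ∀ i ≤ I, ∀ β, X i β < 2 ^ S.nx
  Elt : ∀ g ≤ I * S.G, E g < 2 ^ S.ng
  Xsucc : ∀ i < I, ∀ β, X (i + 1) β = S.upd β (X i β) (S.V E i (S.G + 1))
  Euniq : ∀ i < I, ∀ γ, 1 ≤ γ → γ ≤ S.G → ∃ u₀ < S.B ^ (S.G + 1), u₀ / S.B = E (i * S.G + γ) ∧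
    ∀ u < S.B ^ (S.G + 1), ∏ j ∈ range S.G,
      S.chk γ j (X i (dig S.B u j / S.bb)) (S.V E i γ) u = if u = u₀ then 1 else 0

def SpecX (X : ℕ → ℕ → ℕ) (i D : ℕ) : Prop :=
  ∀ β d s, D ≤ d → S.exec d (6, i, β, 0, 0, 0) s = s + Pi.single (i % 2) (S.bits S.nx (X i β))

def SpecE (E : ℕ → ℕ) (g D : ℕ) : Prop :=
  ∀ d s, D ≤ d →
    S.exec d (7, g, 0, 0, 0, 0) s = s + Pi.single (3 + g % (S.G + 1)) (S.bits S.ng (E g))

variable {S} {I : ℕ} {X : ℕ → ℕ → ℕ} {E : ℕ → ℕ}

theorem OK.hL0 (h : S.OK I X E) : 1 ≤ S.L := by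
  have := hp.out.two_le
  have := h.hL1
  nlinarith

omit hp in
theorem zV_congr {s s' : S.St} (h : ∀ r, 3 ≤ r → s r = s' r) (i : ℕ) : S.zV s i = S.zV s' i := by
  funext l
  unfold zV
  rw [h _ (by omega)]

theorem valC_congr {s s' : S.St} (h : ∀ r, r ≠ 2 → s r = s' r) (g k u j m : ℕ) :
    S.valC s g k u j m = S.valC s' g k u j m := by
  unfold valC
  rw [zV_congr (s := s) (s' := s') (fun r hr => h r (by omega)), h _ (by omega)]

theorem valE_congr {s s' : S.St} (h : s 2 = s' 2) (g k u m : ℕ) :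
    S.valE s g k u m = S.valE s' g k u m := by
  unfold valE
  rw [h]

theorem valX_congr {s s' : S.St} (i β m : ℕ) (h : ∀ r, r ≠ (i + 1) % 2 → s r = s' r) :
    S.valX s (i + 1) β m = S.valX s' (i + 1) β m := by
  have : S.zX s i = S.zX s' i := by
    funext l
    unfold zX
    rw [zV_congr (s := s) (s' := s') (fun r hr => h r (by omega)), h _ (by omega)]
  unfold valX
  simp only [Nat.add_sub_cancel, this]

theorem leaf1 (β : ℕ) (s : S.St) :
    S.leaf (1, 0, β, 0, 0, 0) s = s + Pi.single 0 (S.bits S.nx (S.x0 β)) := rfl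
theorem leaf2 (i β m : ℕ) (s : S.St) :
    S.leaf (2, i, β, 0, 0, m) s = s + Pi.single (i % 2) (S.valX s i β m) := rfl
theorem leaf3 (s : S.St) :
    S.leaf (3, 0, 0, 0, 0, 0) s = s + Pi.single 3 (S.bits S.ng S.e0) := rfl
theorem leaf4 (g k u m : ℕ) (s : S.St) :
    S.leaf (4, g, k, u, 0, m) s = s + Pi.single (3 + g % (S.G + 1)) (S.valE s g k u m) := rfl
theorem leaf5 (g k u j m : ℕ) (s : S.St) :
    S.leaf (5, g, k, u, j, m) s = s + Pi.single 2 (S.valC s g k u j m) := rfl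

theorem specC (h : S.OK I X E) {g D : ℕ} (hi : (g - 1) / S.G ≤ I)
    (hX : S.SpecX X ((g - 1) / S.G) D) (k u j d : ℕ) (hd : D + 1 ≤ d) (s : S.St) :
    S.exec d (9, g, k, u, j, 0) s = s + Pi.single 2 (Pi.single j
      (S.cval (S.zV s ((g - 1) / S.G)) g k u j (X ((g - 1) / S.G) (dig S.B u j / S.bb)))) := by
  obtain ⟨d, rfl⟩ : ∃ d', d = d' + 1 := ⟨d - 1, by omega⟩
  obtain ⟨i, hi'⟩ : ∃ i, i = (g - 1) / S.G := ⟨_, rfl⟩
  obtain ⟨β, hβ⟩ : ∃ β, β = dig S.B u j / S.bb := ⟨_, rfl⟩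
  rw [← hi'] at hX hi
  rw [← hi', ← hβ]
  obtain ⟨Δ, hΔ⟩ : ∃ Δ : S.St, Δ = Pi.single (i % 2) (S.bits S.nx (X i β)) := ⟨_, rfl⟩
  rw [S.exec_round h.hL1 d _ s (fun m r => if r = 0 then (5, g, k, u, j, m) else if r = 1 then
    (6, i, β, 0, 0, 0) else (0, 0, 0, 0, 0, 0)) (fun _ => by simp [cstep, hi', hβ])]
  rw [lp_cm s Δ 2 (fun m => S.valC (s + m • Δ) g k u j m)]
  · congr 2
    funext col
    rw [Finset.sum_apply, Pi.single_apply]
    unfold valC
    split_ifs with hc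
    · have hz : ∀ m : ℕ, S.zV (s + m • Δ) i = S.zV s i := fun m =>
        zV_congr (fun r hr => by
          have h1 : r ≠ i % 2 := by omega
          simp [hΔ, h1]) i
      have hx : ∀ m : ℕ, (s + m • Δ) (i % 2) =
          fun l => s (i % 2) l + (m : S.F) * S.bits S.nx (X i β) l := fun m => by
        funext l; simp [hΔ]
      simp only [← hi', hz, hx, sum_neg_distrib]
      have hT := (Top.mle S.nx (s (i % 2)) (S.bits S.nx (X i β)) (X i β) (h.Xlt i hi β)
        (fun l hl => by simp [bits, hl]) (fun x => S.cval (S.zV s i) g k u j x)).pad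
        (D := S.p - 1) (by have := h.hp1; omega)
      rw [hT.sum_range, neg_neg]
    · simp
  · intro m hm T
    rw [lp_trunc (n := 1) (by omega)]
    · simp only [lp_succ, lp_zero, if_true, zero_add, one_ne_zero, if_false]
      rw [hX β d _ (by omega), S.exec_leaf h.hL0 d _ (by simp), leaf5, ← hΔ,
        valC_congr (s' := s + m • Δ) (fun r hr => by simp [hr])]
    · intro r hr s
      rw [if_neg (by omega), if_neg (by omega), exec_dead]

/-- The contribution of one guess. -/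
def term (X : ℕ → ℕ → ℕ) (z : ℕ → S.F) (g k u : ℕ) : ℕ → S.F := fun col =>
  if col < S.ng then
    -((k : S.F) ^ (S.p - 1 - S.G * S.nv g) * (bitF S.F (u / S.B) col *
      ∏ j ∈ range S.G, S.cval z g k u j (X ((g - 1) / S.G) (dig S.B u j / S.bb))))
  else 0

omit hp in
theorem zV_congr' {s s' : S.St} {g : ℕ} (hG : 1 ≤ S.G) (hg : 1 ≤ g)
    (h : ∀ r, 3 ≤ r → r ≠ 3 + g % (S.G + 1) → s r = s' r) :
    ∀ l < S.nv g, S.zV s ((g - 1) / S.G) l = S.zV s' ((g - 1) / S.G) l := by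
  intro l hl
  unfold zV
  rw [h _ (by omega)]
  have h1 : l / S.ng < g - (g - 1) / S.G * S.G := by
    unfold nv at hl
    exact Nat.div_lt_of_lt_mul (by rwa [mul_comm] at hl)
  have h2 := Nat.div_add_mod (g - 1) S.G
  have h3 := Nat.mod_lt (g - 1) (show 0 < S.G by omega)
  rw [mul_comm] at h2
  generalize (g - 1) / S.G * S.G = q at *
  generalize l / S.ng = t at *
  intro he
  have he' : (q + t) % (S.G + 1) = g % (S.G + 1) := by omega
  have := (Nat.modEq_iff_dvd' (show q + t ≤ g by omega)).mp he'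
  have := Nat.le_of_dvd (by omega) this
  omega

theorem cval_congr {z z' : ℕ → S.F} {g : ℕ} (h : ∀ l < S.nv g, z l = z' l) (k u j x : ℕ) :
    S.cval z g k u j x = S.cval z' g k u j x := mle_congr h _ _

theorem term_congr {z z' : ℕ → S.F} {g : ℕ} (h : ∀ l < S.nv g, z l = z' l) (k u : ℕ) :
    term X z g k u = term X z' g k u := by
  unfold term
  simp only [cval_congr h]

theorem specProd (h : S.OK I X E) {g D : ℕ} (hg : 1 ≤ g) (hi : (g - 1) / S.G ≤ I)
    (hX : S.SpecX X ((g - 1) / S.G) D) (k u d : ℕ) (hd : D + 2 ≤ d) (s : S.St) :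
    S.exec d (8, g, k, u, S.G + 1, 0) s = s + Pi.single (3 + g % (S.G + 1))
      (term X (S.zV s ((g - 1) / S.G)) g k u) := by
  obtain ⟨d, rfl⟩ : ∃ d', d = d' + 1 := ⟨d - 1, by omega⟩
  obtain ⟨c, hc⟩ : ∃ c : ℕ → S.F, c = fun j => S.cval (S.zV s ((g - 1) / S.G)) g k u j
    (X ((g - 1) / S.G) (dig S.B u j / S.bb)) := ⟨_, rfl⟩
  obtain ⟨Δ, hΔ⟩ : ∃ Δ : S.St, Δ = ∑ j ∈ range S.G, Pi.single 2 (Pi.single j (c j)) := ⟨_, rfl⟩
  have hΔ1 : ∀ r, r ≠ 2 → Δ r = 0 := fun r hr => by simp [hΔ, Finset.sum_apply, hr]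
  have hΔ2 : ∀ j < S.G, Δ 2 j = c j := fun j hj => by
    simp [hΔ, Finset.sum_apply, Pi.single_apply, hj]
  rw [S.exec_round h.hL1 d _ s (fun m r => if r = 0 then (4, g, k, u, 0, m) else if r ≤ S.G then
    (9, g, k, u, r - 1, 0) else (0, 0, 0, 0, 0, 0)) (fun _ => by simp [cstep])]
  rw [lp_cm s Δ (3 + g % (S.G + 1)) (fun m => S.valE (s + m • Δ) g k u m)]
  · congr 2
    funext col
    rw [Finset.sum_apply]
    unfold valE term
    split_ifs with hcol
    · have hx : ∀ m : ℕ, ∏ j ∈ range S.G, (s + m • Δ) 2 j =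
          ∏ j ∈ range S.G, (s 2 j + (m : S.F) * c j) := fun m =>
        prod_congr rfl fun j hj => by simp [hΔ2 j (mem_range.mp hj)]
      simp only [hx, ← mul_sum]
      have hT := (Top.prod S.G (fun j _ => Top.lin (s 2 j) (c j))).pad
        (D := S.p - 1) (by have := h.hp3; omega)
      rw [mul_one] at hT
      rw [hT.sum_range, hc]
      ring
    · simp
  · intro m hm T
    rw [lp_trunc (n := S.G) (by omega)]
    · simp only [if_true]
      rw [S.exec_leaf h.hL0 d _ (by simp), leaf4,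
        valE_congr (s' := s + m • Δ) (by simp [show 2 ≠ 3 + g % (S.G + 1) by omega]), hΔ]
      refine (lp_sum (fun s' : S.St => ∀ r, 3 ≤ r → r ≠ 3 + g % (S.G + 1) → s' r = s r)
        (fun j hj s' hs' => ⟨?_, ?_⟩) ?_).1
      · rw [if_neg (by omega), if_pos (by omega), Nat.add_sub_cancel,
          specC h hi hX k u j d (by omega), hc, cval_congr (zV_congr' h.hG hg hs')]
      · intro r h1 h2
        simp [show r ≠ 2 by omega, hs' r h1 h2]
      · intro r h1 h2
        rw [← hΔ]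
        simp [h2, hΔ1 r (by omega)]
    · intro r hr s
      rw [if_neg (by omega), if_neg (by omega), exec_dead]

theorem sum_range_mul' {M : Type} [AddCommMonoid M] (a b : ℕ) (f : ℕ → M) :
    ∑ x ∈ range (a * b), f x = ∑ i ∈ range a, ∑ j ∈ range b, f (i * b + j) := by
  induction a with
  | zero => simp
  | succ a ih => rw [add_mul, one_mul, sum_range_add, ih, sum_range_succ]

theorem single_sum {R : Type} [DecidableEq R] {M : Type} [AddCommMonoid M] (r : R) (n : ℕ)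
    (f : ℕ → M) : ∑ i ∈ range n, (Pi.single r (f i) : R → M) = Pi.single r (∑ i ∈ range n, f i) := by
  induction n with
  | zero => simp
  | succ n ih => rw [sum_range_succ, sum_range_succ, ih, Pi.single_add]

theorem specGuess (h : S.OK I X E) {g D : ℕ} (hg : 1 ≤ g) (hi : (g - 1) / S.G ≤ I)
    (hX : S.SpecX X ((g - 1) / S.G) D) (k : ℕ) : ∀ e ≤ S.G + 1, ∀ u d s, D + 2 + e ≤ d →
    S.exec d (8, g, k, u, S.G + 1 - e, 0) s = s + Pi.single (3 + g % (S.G + 1))
      (∑ u' ∈ range (S.B ^ e), term X (S.zV s ((g - 1) / S.G)) g k (u * S.B ^ e + u')) := by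
  intro e
  induction e with
  | zero =>
    intro _ u d s hd
    simpa using specProd h hg hi hX k u d hd s
  | succ e ih =>
    intro he u d s hd
    obtain ⟨d, rfl⟩ : ∃ d', d = d' + 1 := ⟨d - 1, by omega⟩
    have hstep : ∀ x, cstep S.p S.G S.B S.bb (8, g, k, u, S.G + 1 - (e + 1), 0) x =
        if x < S.B then (8, g, k, u * S.B + x, S.G + 1 - e, 0) else (0, 0, 0, 0, 0, 0) := by
      intro x
      have h1 : S.G - e + 1 = S.G + 1 - e := by omega
      simp [cstep, h1]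
    rw [exec, lp_trunc h.hL2]
    · rw [pow_succ', sum_range_mul', ← single_sum]
      refine (lp_sum (fun s' : S.St => ∀ r, 3 ≤ r → r ≠ 3 + g % (S.G + 1) → s' r = s r)
        (fun x hx s' hs' => ⟨?_, ?_⟩) (fun _ _ _ => rfl)).1
      · rw [hstep, if_pos hx, ih (by omega) _ d s' (by omega)]
        congr 2
        refine sum_congr rfl fun u' _ => ?_
        rw [term_congr (zV_congr' h.hG hg hs')]
        congr 1; ring
      · intro r h1 h2
        simp [h2, hs' r h1 h2]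
    · intro x hx s
      rw [hstep, if_neg (by omega), exec_dead]

theorem sum_slots (hG : 1 ≤ S.G) (q n : ℕ) (hn : n ≤ S.G + 1) (f : ℕ → ℕ → S.F) (t : ℕ)
    (ht : t < n) :
    (∑ t' ∈ range n, (Pi.single (3 + (q + t') % (S.G + 1)) (f t') : S.St))
      (3 + (q + t) % (S.G + 1)) = f t := by
  rw [Finset.sum_apply, sum_eq_single t]
  · simp
  · intro t' ht' hne
    rw [Pi.single_eq_of_ne]
    intro he
    have ht'' := mem_range.mp ht'
    have he' : (q + t) % (S.G + 1) = (q + t') % (S.G + 1) := by omega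
    rcases Nat.lt_or_gt_of_ne hne with hlt | hlt
    · have := (Nat.modEq_iff_dvd' (show q + t' ≤ q + t by omega)).mp he'.symm
      have := Nat.le_of_dvd (by omega) this
      omega
    · have := (Nat.modEq_iff_dvd' (show q + t ≤ q + t' by omega)).mp he'
      have := Nat.le_of_dvd (by omega) this
      omega
  · intro h; exact absurd (mem_range.mpr ht) h

theorem zV_slots {i n : ℕ}
    (hE : ∀ t < n, E (i * S.G + t) < 2 ^ S.ng) (Δ : S.St)
    (hΔ : ∀ t < n, Δ (3 + (i * S.G + t) % (S.G + 1)) = S.bits S.ng (E (i * S.G + t)))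
    (l : ℕ) (hl : l < n * S.ng) : S.zV Δ i l = bitF S.F (S.V E i n) l := by
  have hng : 0 < S.ng := by
    rcases Nat.eq_zero_or_pos S.ng with h0 | h0
    · simp [h0] at hl
    · exact h0
  unfold zV
  rw [hΔ _ (Nat.div_lt_of_lt_mul (by rwa [mul_comm] at hl))]
  unfold bits bitF
  rw [if_pos (Nat.mod_lt _ hng), S.V_testBit E i n hE l hl]

theorem specE (h : S.OK I X E) {i γ D D' : ℕ} (hi : i < I) (h1 : 1 ≤ γ) (h2 : γ ≤ S.G)
    (hX : S.SpecX X i D) (hE : ∀ t < γ, S.SpecE E (i * S.G + t) D') (hD : D + S.G + 3 ≤ D') :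
    S.SpecE E (i * S.G + γ) (D' + 1) := by
  intro d s hd
  obtain ⟨d, rfl⟩ : ∃ d', d = d' + 1 := ⟨d - 1, by omega⟩
  obtain ⟨g, hg⟩ : ∃ g, g = i * S.G + γ := ⟨_, rfl⟩
  have hG := h.hG
  have hgi : (g - 1) / S.G = i := by
    apply Nat.div_eq_of_lt_le
    · omega
    · rw [add_mul]; omega
  have hγ : g - (g - 1) / S.G * S.G = γ := by rw [hgi]; omega
  have hnv : S.nv g = γ * S.ng := by rw [nv, hγ]
  have hElt : ∀ t ≤ γ, E (i * S.G + t) < 2 ^ S.ng := fun t ht => h.Elt _ (by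
    have : (i + 1) * S.G ≤ I * S.G := Nat.mul_le_mul_right _ hi
    rw [add_mul] at this; omega)
  rw [← hg]
  obtain ⟨Δ, hΔ⟩ : ∃ Δ : S.St, Δ = ∑ t ∈ range γ,
    Pi.single (3 + (i * S.G + t) % (S.G + 1)) (S.bits S.ng (E (i * S.G + t))) := ⟨_, rfl⟩
  rw [S.exec_round h.hL1 d _ s (fun m r => if r = 0 then (8, g, m, 0, 0, 0) else
    if i * S.G + (r - 1) < g then (7, i * S.G + (r - 1), 0, 0, 0, 0) else (0, 0, 0, 0, 0, 0))
    (fun _ => by simp [cstep, hgi, show g ≠ 0 by omega])]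
  rw [lp_cm s Δ (3 + g % (S.G + 1))
    (fun m => ∑ u ∈ range (S.B ^ (S.G + 1)), term X (S.zV (s + m • Δ) i) g m u)]
  · congr 2
    funext col
    simp only [Finset.sum_apply]
    unfold term bits
    split_ifs with hcol
    · obtain ⟨u₀, hu₀, hu₀', huniq⟩ := h.Euniq i hi γ h1 h2
      have hz : ∀ m : ℕ, S.zV (s + m • Δ) i = fun l => S.zV s i l + (m : S.F) * S.zV Δ i l :=
        fun m => by funext l; simp [zV]
      have hv : ∀ l < γ * S.ng, S.zV Δ i l = bitF S.F (S.V E i γ) l :=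
        zV_slots (fun t ht => hElt t (by omega)) Δ (fun t ht => by
          rw [hΔ]; exact sum_slots hG _ _ (by omega) _ t ht)
      have hT := (Top.sum (range (S.B ^ (S.G + 1))) (fun u _ => (Top.prod S.G (fun j _ =>
        Top.mle (γ * S.ng) (S.zV s i) (S.zV Δ i) (S.V E i γ)
          (S.V_lt E i γ fun t ht => hElt t (by omega)) hv
          (fun v => (S.chk γ j (X i (dig S.B u j / S.bb)) v u : S.F)))).smul
            (bitF S.F (u / S.B) col))).pad (D := S.p - 1) (by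
          have := h.hp2
          have : S.G * (γ * S.ng) ≤ S.G * (S.G * S.ng) :=
            Nat.mul_le_mul_left _ (Nat.mul_le_mul_right _ h2)
          omega)
      have hγ' : g - i * S.G = γ := by omega
      simp only [hz, cval, hnv, hγ', hgi, sum_neg_distrib, ← mul_sum]
      rw [hT.sum_range, neg_neg, sum_eq_single u₀]
      · rw [← Nat.cast_prod, huniq u₀ hu₀, hu₀', hg]; simp
      · intro u hu hne
        rw [← Nat.cast_prod, huniq u (mem_range.mp hu), if_neg hne]; simp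
      · intro hh; exact absurd (mem_range.mpr hu₀) hh
    · simp
  · intro m hm T
    rw [lp_trunc (n := γ) (by omega)]
    · simp only [if_true]
      have e1 := specGuess h (g := g) (D := D) (by omega) (by omega) (by rwa [hgi]) m (S.G + 1)
        le_rfl 0 d (s + m • Δ + Pi.single (3 + g % (S.G + 1)) T) (by omega)
      rw [Nat.sub_self] at e1
      have e2 : ∑ u' ∈ range (S.B ^ (S.G + 1)), term X (S.zV (s + m • Δ +
          Pi.single (3 + g % (S.G + 1)) T) ((g - 1) / S.G)) g m (0 * S.B ^ (S.G + 1) + u') =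
          ∑ u ∈ range (S.B ^ (S.G + 1)), term X (S.zV (s + m • Δ) i) g m u := by
        refine sum_congr rfl fun u _ => ?_
        rw [zero_mul, zero_add, ← hgi]
        exact term_congr (zV_congr' hG (by omega) fun r _ hr => by simp [hr]) _ _
      rw [e1, e2, hΔ]
      refine (lp_sum (fun _ => True) (fun t ht s' _ => ⟨?_, trivial⟩) trivial).1
      rw [if_neg (by omega), Nat.add_sub_cancel, if_pos (by omega), hE t ht d s' (by omega)]
    · intro r hr s
      rw [if_neg (by omega), if_neg (by omega), exec_dead]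

theorem specX (h : S.OK I X E) {i D : ℕ} (hi : i < I)
    (hX : S.SpecX X i D) (hE : ∀ t ≤ S.G, S.SpecE E (i * S.G + t) D) :
    S.SpecX X (i + 1) (D + 1) := by
  intro β d s hd
  obtain ⟨d, rfl⟩ : ∃ d', d = d' + 1 := ⟨d - 1, by omega⟩
  have hG := h.hG
  have hElt : ∀ t < S.G + 1, E (i * S.G + t) < 2 ^ S.ng := fun t ht => h.Elt _ (by
    have : (i + 1) * S.G ≤ I * S.G := Nat.mul_le_mul_right _ hi
    rw [add_mul] at this; omega)
  obtain ⟨Δ₁, hΔ₁⟩ : ∃ Δ : S.St, Δ = Pi.single (i % 2) (S.bits S.nx (X i β)) := ⟨_, rfl⟩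
  obtain ⟨Δ₂, hΔ₂⟩ : ∃ Δ : S.St, Δ = ∑ t ∈ range (S.G + 1),
    Pi.single (3 + (i * S.G + t) % (S.G + 1)) (S.bits S.ng (E (i * S.G + t))) := ⟨_, rfl⟩
  have hΔ₂' : ∀ r < 3, Δ₂ r = 0 := fun r hr => by
    rw [hΔ₂, Finset.sum_apply]
    exact sum_eq_zero fun t _ => Pi.single_eq_of_ne (by omega) _
  rw [S.exec_round h.hL1 d _ s (fun m r => if r = 0 then (2, i + 1, β, 0, 0, m) else
    if r = 1 then (6, i, β, 0, 0, 0) else (7, i * S.G + (r - 2), 0, 0, 0, 0))
    (fun _ => by simp [cstep])]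
  rw [lp_cm s (Δ₁ + Δ₂) ((i + 1) % 2) (fun m => S.valX (s + m • (Δ₁ + Δ₂)) (i + 1) β m)]
  · congr 2
    funext col
    rw [Finset.sum_apply]
    unfold valX bits
    split_ifs with hcol
    · have hz : ∀ m : ℕ, S.zX (s + m • (Δ₁ + Δ₂)) i =
          fun l => S.zX s i l + (m : S.F) * S.zX (Δ₁ + Δ₂) i l := fun m => by
        funext l
        unfold zX zV
        split_ifs <;> simp [mul_add]
      have hVlt := S.V_lt E i (S.G + 1) hElt
      have hXlt := h.Xlt i (by omega) β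
      have hv : ∀ l < S.nx + (S.G + 1) * S.ng, S.zX (Δ₁ + Δ₂) i l =
          bitF S.F (2 ^ S.nx * S.V E i (S.G + 1) + X i β) l := by
        intro l hl
        unfold zX
        unfold bitF
        rw [Nat.testBit_two_pow_mul_add _ hXlt]
        split_ifs with h1 h2 h3
        · simp [hΔ₁, hΔ₂' (i % 2) (by omega), bits, h1, bitF, h2]
        · simp [hΔ₁, hΔ₂' (i % 2) (by omega), bits, h1, bitF, h2]
        · rw [zV_slots hElt _ (fun t ht => ?_) _ (by omega)]
          · simp [bitF, h3]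
          · rw [Pi.add_apply, hΔ₁, Pi.single_eq_of_ne (by omega), zero_add, hΔ₂]
            exact sum_slots hG _ _ le_rfl _ t ht
        · rw [zV_slots hElt _ (fun t ht => ?_) _ (by omega)]
          · simp [bitF, h3]
          · rw [Pi.add_apply, hΔ₁, Pi.single_eq_of_ne (by omega), zero_add, hΔ₂]
            exact sum_slots hG _ _ le_rfl _ t ht
      have hlt : 2 ^ S.nx * S.V E i (S.G + 1) + X i β < 2 ^ (S.nx + (S.G + 1) * S.ng) := by
        rw [pow_add]
        calc _ < 2 ^ S.nx * S.V E i (S.G + 1) + 2 ^ S.nx := by omega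
          _ = 2 ^ S.nx * (S.V E i (S.G + 1) + 1) := by ring
          _ ≤ _ := Nat.mul_le_mul_left _ hVlt
      have hT := (Top.mle _ (S.zX s i) (S.zX (Δ₁ + Δ₂) i) _ hlt hv
        (fun a => bitF S.F (S.upd β (a % 2 ^ S.nx) (a / 2 ^ S.nx)) col)).pad (D := S.p - 1) h.hp1
      simp only [Nat.add_sub_cancel, hz, sum_neg_distrib]
      rw [hT.sum_range, neg_neg, h.Xsucc i hi β, Nat.mul_add_mod, Nat.mod_eq_of_lt hXlt,
        Nat.mul_add_div (by positivity), Nat.div_eq_of_lt hXlt, add_zero]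
    · simp
  · intro m hm T
    rw [lp_succ']
    simp only [if_true, zero_add, one_ne_zero, if_false]
    rw [hX β d _ (by omega), S.exec_leaf h.hL0 d _ (by simp), leaf2, ← hΔ₁,
      valX_congr (s' := s + m • (Δ₁ + Δ₂)) i β m (fun r hr => by simp [hr]), ← add_assoc, hΔ₂]
    refine (lp_sum (fun _ => True) (fun t ht s' _ => ⟨?_, trivial⟩) trivial).1
    rw [if_neg (by omega), if_neg (by omega), show t + 1 + 1 - 2 = t by omega,
      hE t (by omega) d s' (by omega)]

theorem spec_all (h : S.OK I X E) : ∀ i ≤ I, S.SpecX X i (i * (2 * S.G + 5) + 1) ∧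
    S.SpecE E (i * S.G) (i * (2 * S.G + 5) + 1) := by
  intro i
  induction i with
  | zero =>
    intro _
    constructor
    · intro β d s hd
      obtain ⟨d, rfl⟩ : ∃ d', d = d' + 1 := ⟨d - 1, by omega⟩
      rw [S.exec_one h.hL0 d _ (1, 0, β, 0, 0, 0) s (fun _ => by simp [cstep]),
        S.exec_leaf h.hL0 d _ (by simp), leaf1, h.X0]
    · intro d s hd
      obtain ⟨d, rfl⟩ : ∃ d', d = d' + 1 := ⟨d - 1, by omega⟩
      rw [zero_mul, S.exec_one h.hL0 d _ (3, 0, 0, 0, 0, 0) s (fun _ => by simp [cstep]),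
        S.exec_leaf h.hL0 d _ (by simp), leaf3, h.E0]
      simp
  | succ i ih =>
    intro hi
    obtain ⟨hX, hE0⟩ := ih (by omega)
    have hE : ∀ γ ≤ S.G, S.SpecE E (i * S.G + γ) (i * (2 * S.G + 5) + S.G + 4 + γ) := by
      intro γ
      induction γ using Nat.strong_induction_on with
      | _ γ ihγ =>
        intro hγ
        rcases γ with _ | γ
        · intro d s hd; exact hE0 d s (by omega)
        · exact specE h (D' := i * (2 * S.G + 5) + S.G + 4 + γ) (by omega) (by omega) hγ hX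
            (fun t ht d s hd => ihγ t ht (by omega) d s (by omega)) (by omega)
    constructor
    · intro β d s hd
      refine specX h (D := i * (2 * S.G + 5) + 2 * S.G + 4) (by omega)
        (fun β d s hd => hX β d s (by omega))
        (fun t ht d s hd => hE t ht d s (by omega)) β d s ?_
      rw [add_mul] at hd; omega
    · intro d s hd
      rw [add_mul, one_mul]
      refine hE S.G le_rfl d s ?_
      rw [add_mul] at hd; omega

end Sys

end Vale.Agent.P312
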