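import Vale.Agent.P312.Stack

/-!
Counter programs (increment, decrement, zero test, input head) compiled to stack programs.
-/

namespace Vale.Agent.P312

open Function

variable {A : Type}

theorem St.ext' {s s' : St} (h1 : ∀ r, s.reg r = s'.reg r) (h2 : s.pos = s'.pos) : s = s' := by
  cases s; cases s'
  simp only [St.mk.injEq]
  exact ⟨funext h1, h2⟩

@[simp] theorem St.set_reg (s : St) (r v j : ℕ) :
    (s.set r v).reg j = if j = r then v else s.reg j := by
  simp [St.set, update_apply]

@[simp] theorem St.set_pos (s : St) (r v : ℕ) : (s.set r v).pos = s.pos := rfl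

theorem Run.cast {w : List A} {N : ℕ} {p s s' s''} (h : Run w N p s s') (e : s' = s'') :
    Run w N p s s'' := e ▸ h

def drain (r : ℕ) (b : Bool) : Prog A := .loop (.not (.zero 0)) (.seq (.pop 0) (.push r b))

theorem run_drain (w : List A) (N r : ℕ) (hr : r ≠ 0) (b : Bool) :
    ∀ (j : ℕ) (s : St) (z : ℕ), s.reg 0 + 1 = 2 ^ j →
      z + (if b then 1 else 2) = 2 ^ j * (s.reg r + (if b then 1 else 2)) → z ≤ N →
      Run w N (drain r b) s ((s.set r z).set 0 0) := by
  intro j
  induction j with
  | zero =>
    intro s z h0 hz _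
    have h0' : s.reg 0 = 0 := by simpa using h0
    have hz' : z = s.reg r := by simpa using hz
    refine (Run.loopF (by simp [Test.holds, h0'])).cast ?_
    apply St.ext'
    · intro i
      simp only [St.set_reg]
      split_ifs with h1 h2
      · rw [h1, h0']
      · rw [h2, hz']
      · rfl
    · rfl
  | succ j ih =>
    intro s z h0 hz hN
    have hp : 0 < 2 ^ j := by positivity
    have hne : s.reg 0 ≠ 0 := by rw [pow_succ] at h0; omega
    set s1 := s.set 0 ((s.reg 0 - 1) / 2) with hs1
    have e1 : s1.reg r = s.reg r := by simp [hs1, hr]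
    have hpv : pushVal (s.reg r) b + (if b then 1 else 2) =
        2 * (s.reg r + (if b then 1 else 2)) := by
      cases b <;> simp [pushVal] <;> ring
    have hle : pushVal (s1.reg r) b ≤ N := by
      rw [e1]
      have : 2 * (s.reg r + (if b then 1 else 2)) ≤ 2 ^ (j + 1) * (s.reg r + (if b then 1 else 2)) := by
        apply Nat.mul_le_mul_right
        rw [pow_succ]; omega
      omega
    refine Run.loopT (by simpa [Test.holds] using hne) (Run.seq Run.pop (Run.push hle)) ?_
    refine (ih _ z ?_ ?_ hN).cast ?_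
    · simp only [St.set_reg, hr.symm, if_false, if_true]
      rw [pow_succ] at h0; omega
    · simp only [St.set_reg, if_true, hr, if_false]
      rw [hpv, hz, pow_succ]; ring
    · apply St.ext'
      · intro i
        simp only [St.set_reg]
        split_ifs <;> rfl
      · rfl

def incP (r : ℕ) : Prog A :=
  .seq (.loop (.not (.or (.zero r) (.odd r))) (.seq (.pop r) (.push 0 true)))
    (.seq (.ite (.zero r) (.push r true) (.seq (.pop r) (.push r false))) (drain r true))

def decP (r : ℕ) : Prog A :=
  .seq (.loop (.odd r) (.seq (.pop r) (.push 0 true)))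
    (.seq (.ite (.zero r) (.pop 0) (.seq (.pop r) (.push r true))) (drain r false))

theorem run_incLoop (w : List A) (N r : ℕ) (hr : r ≠ 0) :
    ∀ (x : ℕ) (s : St) (i : ℕ), s.reg r = x → s.reg 0 + 1 = 2 ^ i → 2 ^ i * (x + 2) ≤ 2 * N + 2 →
      ∃ j y, Run w N (.loop (.not (.or (.zero r) (.odd r))) (.seq (.pop r) (.push 0 true))) s
        ((s.set r y).set 0 (2 ^ j - 1)) ∧ (y = 0 ∨ y % 2 = 1) ∧
        2 ^ j * (y + 2) = 2 ^ i * (x + 2) := by
  intro x
  induction x using Nat.strong_induction_on with
  | _ x ih =>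
    intro s i hx h0 hN
    by_cases hc : x = 0 ∨ x % 2 = 1
    · refine ⟨i, x, (Run.loopF (by simp only [Test.holds, hx, not_not]; exact hc)).cast ?_, hc, rfl⟩
      apply St.ext'
      · intro k
        simp only [St.set_reg]
        split_ifs with h1 h2
        · rw [h1]; omega
        · rw [h2, hx]
        · rfl
      · rfl
    · set s1 := s.set r ((s.reg r - 1) / 2) with hs1
      have e0 : s1.reg 0 = s.reg 0 := by simp [hs1, hr.symm]
      have hy : x + 2 = 2 * ((x - 1) / 2 + 2) := by omega
      have hle : pushVal (s1.reg 0) true ≤ N := by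
        rw [e0]
        simp only [pushVal, if_true]
        have : 2 ^ i * 4 ≤ 2 ^ i * (x + 2) := Nat.mul_le_mul_left _ (by omega)
        omega
      obtain ⟨j, y, hrun, hy', he⟩ := ih ((x - 1) / 2) (by omega)
        (s1.set 0 (pushVal (s1.reg 0) true)) (i + 1) (by simp [hs1, hr, hx])
        (by simp only [St.set_reg, if_true, e0, pushVal, pow_succ]; omega)
        (by rw [pow_succ, mul_assoc, ← hy]; exact hN)
      refine ⟨j, y, Run.loopT (by simpa [Test.holds, hx] using hc)
        (Run.seq Run.pop (Run.push hle)) (hrun.cast ?_), hy', ?_⟩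
      · apply St.ext'
        · intro k
          simp only [St.set_reg, hs1]
          split_ifs <;> rfl
        · rfl
      · rw [he, pow_succ, mul_assoc, ← hy]

theorem run_incP (w : List A) (N r : ℕ) (hr : r ≠ 0) (s : St) (h0 : s.reg 0 = 0)
    (hN : s.reg r + 1 ≤ N) : Run w N (incP r) s (s.set r (s.reg r + 1)) := by
  obtain ⟨j, y, hrun, hy, he⟩ := run_incLoop w N r hr (s.reg r) s 0 rfl (by simp [h0]) (by omega)
  set s1 := (s.set r y).set 0 (2 ^ j - 1) with hs1
  have e1 : s1.reg r = y := by simp [hs1, hr]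
  have hp : 0 < 2 ^ j := by positivity
  have hyN : y + 1 ≤ N := by
    have : 1 * (y + 2) ≤ 2 ^ j * (y + 2) := Nat.mul_le_mul_right _ hp
    omega
  have mid : Run w N (.ite (.zero r) (.push r true) (.seq (.pop r) (.push r false))) s1
      (s1.set r (y + 1)) := by
    by_cases hy0 : y = 0
    · refine Run.iteT (by simp [Test.holds, e1, hy0]) ((Run.push ?_).cast ?_)
      · rw [e1]; simp [pushVal, hy0]; omega
      · rw [e1]; simp [pushVal, hy0]
    · refine Run.iteF (by simp [Test.holds, e1, hy0]) (Run.seq Run.pop ((Run.push ?_).cast ?_))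
      · simp only [St.set_reg, if_true, e1, pushVal]; simp; omega
      · apply St.ext'
        · intro k
          simp only [St.set_reg, if_true, e1, pushVal]
          split_ifs <;> first | rfl | omega | simp_all
        · rfl
  refine Run.seq hrun (Run.seq mid ((run_drain w N r hr true j _ (s.reg r + 1) ?_ ?_ hN).cast ?_))
  · simp only [St.set_reg, hr.symm, if_false, hs1, if_true]; omega
  · simp only [St.set_reg, if_true]
    rw [show y + 1 + 1 = y + 2 by ring, he]; ring
  · apply St.ext'
    · intro k
      simp only [St.set_reg, hs1]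
      split_ifs with h1 h2
      · exact absurd (h2.symm.trans h1) hr
      · rw [h1, h0]
      · rfl
      · rfl
    · rfl

theorem run_decLoop (w : List A) (N r : ℕ) (hr : r ≠ 0) :
    ∀ (x : ℕ) (s : St) (i : ℕ), s.reg r = x → s.reg 0 + 1 = 2 ^ i → 2 ^ i * (x + 1) ≤ N + 1 →
      ∃ j y, Run w N (.loop (.odd r) (.seq (.pop r) (.push 0 true))) s
        ((s.set r y).set 0 (2 ^ j - 1)) ∧ y % 2 = 0 ∧ 2 ^ j * (y + 1) = 2 ^ i * (x + 1) := by
  intro x
  induction x using Nat.strong_induction_on with
  | _ x ih =>
    intro s i hx h0 hN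
    by_cases hc : x % 2 = 1
    · set s1 := s.set r ((s.reg r - 1) / 2) with hs1
      have e0 : s1.reg 0 = s.reg 0 := by simp [hs1, hr.symm]
      have hy : x + 1 = 2 * ((x - 1) / 2 + 1) := by omega
      have hle : pushVal (s1.reg 0) true ≤ N := by
        rw [e0]
        simp only [pushVal, if_true]
        have : 2 ^ i * 2 ≤ 2 ^ i * (x + 1) := Nat.mul_le_mul_left _ (by omega)
        omega
      obtain ⟨j, y, hrun, hy', he⟩ := ih ((x - 1) / 2) (by omega)
        (s1.set 0 (pushVal (s1.reg 0) true)) (i + 1) (by simp [hs1, hr, hx])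
        (by simp only [St.set_reg, if_true, e0, pushVal, pow_succ]; omega)
        (by rw [pow_succ, mul_assoc, ← hy]; exact hN)
      refine ⟨j, y, Run.loopT (by simpa [Test.holds, hx] using hc)
        (Run.seq Run.pop (Run.push hle)) (hrun.cast ?_), hy', ?_⟩
      · apply St.ext'
        · intro k
          simp only [St.set_reg, hs1]
          split_ifs <;> rfl
        · rfl
      · rw [he, pow_succ, mul_assoc, ← hy]
    · refine ⟨i, x, (Run.loopF (by simpa [Test.holds, hx] using hc)).cast ?_, by omega, rfl⟩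
      apply St.ext'
      · intro k
        simp only [St.set_reg]
        split_ifs with h1 h2
        · rw [h1]; omega
        · rw [h2, hx]
        · rfl
      · rfl

theorem run_decP (w : List A) (N r : ℕ) (hr : r ≠ 0) (s : St) (h0 : s.reg 0 = 0)
    (hN : s.reg r ≤ N) : Run w N (decP r) s (s.set r (s.reg r - 1)) := by
  obtain ⟨j, y, hrun, hy, he⟩ := run_decLoop w N r hr (s.reg r) s 0 rfl (by simp [h0]) (by omega)
  set s1 := (s.set r y).set 0 (2 ^ j - 1) with hs1
  have e1 : s1.reg r = y := by simp [hs1, hr]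
  have e0 : s1.reg 0 = 2 ^ j - 1 := by simp [hs1]
  have hp : 0 < 2 ^ j := by positivity
  have fin : ∀ s2 : St, (∀ k, k ≠ r → k ≠ 0 → s2.reg k = s.reg k) → s2.pos = s.pos →
      (s2.set r (s.reg r - 1)).set 0 0 = s.set r (s.reg r - 1) := by
    intro s2 h1 h2
    apply St.ext'
    · intro k
      simp only [St.set_reg]
      split_ifs with h3 h4
      · exact absurd (h4.symm.trans h3) hr
      · rw [h3, h0]
      · rfl
      · exact h1 k ‹_› h3
    · exact h2
  by_cases hy0 : y = 0
  · have mid : Run w N (.ite (.zero r) (.pop 0) (.seq (.pop r) (.push r true))) s1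
        (s1.set 0 ((s1.reg 0 - 1) / 2)) := Run.iteT (by simp [Test.holds, e1, hy0]) Run.pop
    rcases j with _ | j
    · refine Run.seq hrun (Run.seq mid
        ((run_drain w N r hr false 0 _ (s.reg r - 1) ?_ ?_ (by omega)).cast (fin _ ?_ rfl)))
      · simp [e0]
      · simp only [St.set_reg, hr, if_false, e1]
        simp [hy0] at he ⊢; omega
      · intro k h1 h2; simp [hs1, h1, h2]
    · refine Run.seq hrun (Run.seq mid
        ((run_drain w N r hr false j _ (s.reg r - 1) ?_ ?_ (by omega)).cast (fin _ ?_ rfl)))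
      · simp only [St.set_reg, if_true, e0]
        rw [pow_succ] at hp ⊢; omega
      · simp only [St.set_reg, hr, if_false, e1]
        rw [hy0, pow_succ] at he
        rw [pow_succ] at hp
        simp [hy0]; omega
      · intro k h1 h2; simp [hs1, h1, h2]
  · have hyN : y ≤ N := by
      have : 1 * (y + 1) ≤ 2 ^ j * (y + 1) := Nat.mul_le_mul_right _ hp
      omega
    have mid : Run w N (.ite (.zero r) (.pop 0) (.seq (.pop r) (.push r true))) s1
        (s1.set r (y - 1)) := by
      refine Run.iteF (by simp [Test.holds, e1, hy0]) (Run.seq Run.pop ((Run.push ?_).cast ?_))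
      · simp only [St.set_reg, if_true, e1, pushVal]; omega
      · apply St.ext'
        · intro k
          simp only [St.set_reg, if_true, e1, pushVal]
          split_ifs <;> first | rfl | omega
        · rfl
    refine Run.seq hrun (Run.seq mid
      ((run_drain w N r hr false j _ (s.reg r - 1) ?_ ?_ (by omega)).cast (fin _ ?_ rfl)))
    · simp only [St.set_reg, hr.symm, if_false, e0]; omega
    · simp only [St.set_reg, if_true]
      have h2 : 2 ^ j * 2 ≤ 2 ^ j * (y + 1) := Nat.mul_le_mul_left _ (by omega)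
      have : y - 1 + 2 = y + 1 := by omega
      simp only [Bool.false_eq_true, if_false]
      rw [this, he]; omega
    · intro k h1 h2; simp [hs1, h1, h2]

/-! Counter programs. -/

inductive CProg (A : Type)
  | inc (r : ℕ)
  | dec (r : ℕ)
  | mv (m : Move)
  | seq (p q : CProg A)
  | ite (t : Test A) (p q : CProg A)
  | loop (t : Test A) (p : CProg A)

inductive CRun (w : List A) (N : ℕ) : CProg A → St → St → Prop
  | inc {r s} : s.reg r + 1 ≤ N → CRun w N (.inc r) s (s.set r (s.reg r + 1))
  | dec {r s} : CRun w N (.dec r) s (s.set r (s.reg r - 1))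
  | mv {m s} : CRun w N (.mv m) s ⟨s.reg, inMove w.length s.pos m⟩
  | seq {p q s s' s''} : CRun w N p s s' → CRun w N q s' s'' → CRun w N (.seq p q) s s''
  | iteT {t p q s s'} : t.holds w s → CRun w N p s s' → CRun w N (.ite t p q) s s'
  | iteF {t p q s s'} : ¬ t.holds w s → CRun w N q s s' → CRun w N (.ite t p q) s s'
  | loopF {t p s} : ¬ t.holds w s → CRun w N (.loop t p) s s
  | loopT {t p s s' s''} : t.holds w s → CRun w N p s s' → CRun w N (.loop t p) s' s'' →
      CRun w N (.loop t p) s s''

theorem CRun.cast {w : List A} {N : ℕ} {p s s' s''} (h : CRun w N p s s') (e : s' = s'') :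
    CRun w N p s s'' := e ▸ h

theorem CRun.mono {w : List A} {N N' : ℕ} {p s s'} (h : CRun w N p s s') (hN : N ≤ N') :
    CRun w N' p s s' := by
  induction h with
  | inc h => exact CRun.inc (h.trans hN)
  | dec => exact CRun.dec
  | mv => exact CRun.mv
  | seq _ _ ih1 ih2 => exact CRun.seq ih1 ih2
  | iteT h _ ih => exact CRun.iteT h ih
  | iteF h _ ih => exact CRun.iteF h ih
  | loopF h => exact CRun.loopF h
  | loopT h _ _ ih1 ih2 => exact CRun.loopT h ih1 ih2

theorem CRun.bound {w : List A} {N : ℕ} {p s s'} (h : CRun w N p s s') (hs : ∀ r, s.reg r ≤ N) :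
    ∀ r, s'.reg r ≤ N := by
  induction h with
  | @inc r s hb =>
    intro r'
    simp only [St.set_reg]; split_ifs
    · exact hb
    · exact hs r'
  | @dec r s =>
    intro r'
    simp only [St.set_reg]; split_ifs
    · have := hs r; omega
    · exact hs r'
  | mv => exact hs
  | seq _ _ ih1 ih2 => exact ih2 (ih1 hs)
  | iteT _ _ ih => exact ih hs
  | iteF _ _ ih => exact ih hs
  | loopF => exact hs
  | loopT _ _ _ ih1 ih2 => exact ih2 (ih1 hs)

def Test.up : Test A → Test A
  | .zero r => .zero (r + 1)
  | .odd r => .odd (r + 1)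
  | .sym a => .sym a
  | .not t => .not t.up
  | .or t u => .or t.up u.up

def St.up (s : St) : St := ⟨fun r => Nat.casesOn r 0 s.reg, s.pos⟩

theorem Test.up_holds (w : List A) (s : St) (t : Test A) : t.up.holds w s.up ↔ t.holds w s := by
  induction t with
  | zero r => rfl
  | odd r => rfl
  | sym a => rfl
  | not t ih => simp only [Test.up, Test.holds]; rw [ih]
  | or t u ih1 ih2 => simp only [Test.up, Test.holds]; rw [ih1, ih2]

theorem St.up_set (s : St) (r v : ℕ) : (s.set r v).up = s.up.set (r + 1) v := by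
  apply St.ext'
  · intro k
    rcases k with _ | k
    · simp [St.up]
    · simp [St.up]
  · rfl

def CProg.comp : CProg A → Prog A
  | .inc r => incP (r + 1)
  | .dec r => decP (r + 1)
  | .mv m => .mv m
  | .seq p q => .seq p.comp q.comp
  | .ite t p q => .ite t.up p.comp q.comp
  | .loop t p => .loop t.up p.comp

theorem CRun.comp {w : List A} {N : ℕ} {p s s'} (h : CRun w N p s s') (hs : ∀ r, s.reg r ≤ N) :
    Run w N p.comp s.up s'.up := by
  induction h with
  | @inc r s hb =>
    rw [St.up_set]
    exact run_incP w N (r + 1) (by omega) s.up rfl hb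
  | @dec r s =>
    rw [St.up_set]
    exact run_decP w N (r + 1) (by omega) s.up rfl (hs r)
  | mv => exact Run.mv
  | seq h1 _ ih1 ih2 => exact Run.seq (ih1 hs) (ih2 (h1.bound hs))
  | iteT h _ ih => exact Run.iteT ((Test.up_holds _ _ _).mpr h) (ih hs)
  | iteF h _ ih => exact Run.iteF (fun h' => h ((Test.up_holds _ _ _).mp h')) (ih hs)
  | loopF h => exact Run.loopF (fun h' => h ((Test.up_holds _ _ _).mp h'))
  | loopT h h1 _ ih1 ih2 =>
    exact Run.loopT ((Test.up_holds _ _ _).mpr h) (ih1 hs) (ih2 (h1.bound hs))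

theorem exists_cmachine (p : CProg A) (t : Test A) : ∃ M : MultiTape A,
    ∀ (w : List A) (N : ℕ) (s' : St), CRun w N p St.zero s' →
      ∃ τ, M.HaltsAt w τ ∧ ((M.run w τ).q = M.acc ↔ t.holds w s') ∧
        M.cells w τ ≤ M.k * (Nat.log 2 (N + 1) + 1) := by
  obtain ⟨M, hM⟩ := exists_machine p.comp t.up
  refine ⟨M, fun w N s' h => ?_⟩
  have h1 := h.comp (fun r => Nat.zero_le _)
  have e : St.zero.up = St.zero := by
    apply St.ext'
    · intro r; rcases r with _ | r <;> rfl
    · rfl
  rw [e] at h1
  obtain ⟨τ, a, b, c⟩ := hM w N _ h1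
  exact ⟨τ, a, b.trans (Test.up_holds _ _ _), c⟩

end Vale.Agent.P312
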