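import Mathlib

/-!
One-tape deterministic Turing machines with a time bound, multitape deterministic Turing machines
with a read-only input tape and a work-space bound, and the classes `TIME1` and `SPACE`.
-/

namespace Vale.Agent.P312

/-- A head move: one cell left, no move, or one cell right. -/
inductive Move
  | left
  | stay
  | right

/-- The displacement of a head on a two-way infinite tape. -/
def Move.shift : Move → ℤ
  | .left => -1
  | .stay => 0
  | .right => 1

/-- A deterministic one-tape Turing machine with input alphabet `A`: finite control `Q`, finite tape
alphabet `G` containing a blank and a copy of `A`, and a transition function that gives the new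
state, the symbol written and the move of the head. -/
structure OneTape (A : Type) where
  Q : Type
  G : Type
  finQ : Fintype Q
  finG : Fintype G
  blank : G
  inp : A → G
  inp_inj : Function.Injective inp
  inp_ne : ∀ a, inp a ≠ blank
  start : Q
  acc : Q
  rej : Q
  acc_ne : acc ≠ rej
  trans : Q → G → Q × G × Move

namespace OneTape

variable {A : Type} (M : OneTape A)

/-- A configuration: state, head position and tape content. -/
structure Cfg where
  q : M.Q
  head : ℤ
  tape : ℤ → M.G

/-- The input is written on cells `0, …, n - 1`, all other cells are blank, the head is on cell `0`. -/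
def init (w : List A) : M.Cfg where
  q := M.start
  head := 0
  tape := fun z => if 0 ≤ z then ((w[z.toNat]?).map M.inp).getD M.blank else M.blank

/-- One step: write on the scanned cell, move the head by at most one cell, change state. -/
def step (c : M.Cfg) : M.Cfg where
  q := (M.trans c.q (c.tape c.head)).1
  head := c.head + (M.trans c.q (c.tape c.head)).2.2.shift
  tape := Function.update c.tape c.head (M.trans c.q (c.tape c.head)).2.1

/-- The configuration after `τ` steps on input `w`. -/
def run (w : List A) (τ : ℕ) : M.Cfg := M.step^[τ] (M.init w)

/-- The state at time `τ` is a halting state (accept or reject). -/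
def Halted (w : List A) (τ : ℕ) : Prop := (M.run w τ).q = M.acc ∨ (M.run w τ).q = M.rej

/-- The machine halts on `w` after exactly `τ` steps. -/
def HaltsAt (w : List A) (τ : ℕ) : Prop := M.Halted w τ ∧ ∀ σ < τ, ¬ M.Halted w σ

end OneTape

/-- Languages decided by a one-tape machine that halts within `t n` steps on every input of
length `n`. -/
def TIME1 (A : Type) (t : ℕ → ℕ) : Set (Set (List A)) :=
  {L | ∃ M : OneTape A, ∀ w : List A, ∃ τ ≤ t w.length,
    M.HaltsAt w τ ∧ ((M.run w τ).q = M.acc ↔ w ∈ L)}

/-- Symbols of the read-only input tape: the two end markers and the input letters. -/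
inductive InSym (A : Type)
  | lend
  | rend
  | sym (a : A)

/-- The read-only input tape: cell `0` holds the left marker, cells `1, …, n` hold the input and
cell `n + 1` holds the right marker. -/
def inSym {A : Type} (w : List A) : ℕ → InSym A
  | 0 => .lend
  | i + 1 => ((w[i]?).map InSym.sym).getD .rend

/-- The move of the input head, which never leaves the cells `0, …, n + 1`. -/
def inMove (n : ℕ) (i : ℕ) : Move → ℕ
  | .left => i - 1
  | .stay => i
  | .right => min (i + 1) (n + 1)

/-- A deterministic multitape Turing machine with a read-only input tape over `A` and `k` two-way
infinite work tapes over the finite alphabet `G`. The transition function reads the state, the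
scanned input symbol and the scanned work symbols, and gives the new state, the move of the input
head and, for each work tape, the symbol written and the move of its head. -/
structure MultiTape (A : Type) where
  k : ℕ
  Q : Type
  G : Type
  finQ : Fintype Q
  finG : Fintype G
  blank : G
  start : Q
  acc : Q
  rej : Q
  acc_ne : acc ≠ rej
  trans : Q → InSym A → (Fin k → G) → Q × Move × (Fin k → G × Move)

namespace MultiTape

variable {A : Type} (M : MultiTape A)

/-- A configuration: state, input head, work heads and work tape contents. -/
structure Cfg where
  q : M.Q
  pos : ℕ
  heads : Fin M.k → ℤ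
  tapes : Fin M.k → ℤ → M.G

/-- The work tapes are blank, the work heads are on cell `0`, the input head is on the left marker. -/
def init : M.Cfg where
  q := M.start
  pos := 0
  heads := fun _ => 0
  tapes := fun _ _ => M.blank

/-- The value of the transition function in a configuration. -/
def act (w : List A) (c : M.Cfg) : M.Q × Move × (Fin M.k → M.G × Move) :=
  M.trans c.q (inSym w c.pos) (fun j => c.tapes j (c.heads j))

/-- One step on input `w`. -/
def step (w : List A) (c : M.Cfg) : M.Cfg where
  q := (M.act w c).1
  pos := inMove w.length c.pos (M.act w c).2.1
  heads := fun j => c.heads j + ((M.act w c).2.2 j).2.shift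
  tapes := fun j => Function.update (c.tapes j) (c.heads j) ((M.act w c).2.2 j).1

/-- The configuration after `τ` steps on input `w`. -/
def run (w : List A) (τ : ℕ) : M.Cfg := (M.step w)^[τ] M.init

/-- The state at time `τ` is a halting state (accept or reject). -/
def Halted (w : List A) (τ : ℕ) : Prop := (M.run w τ).q = M.acc ∨ (M.run w τ).q = M.rej

/-- The machine halts on `w` after exactly `τ` steps. -/
def HaltsAt (w : List A) (τ : ℕ) : Prop := M.Halted w τ ∧ ∀ σ < τ, ¬ M.Halted w σ

/-- The number of work-tape cells scanned at some time `σ ≤ τ`, summed over the work tapes. -/
def cells (w : List A) (τ : ℕ) : ℕ :=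
  ∑ j : Fin M.k, ((Finset.range (τ + 1)).image fun σ => (M.run w σ).heads j).card

end MultiTape

/-- Languages decided by a multitape machine with a read-only input tape that uses `O(s n)`
work-tape cells on inputs of length `n`; the running time is unrestricted. -/
def SPACE (A : Type) (s : ℕ → ℝ) : Set (Set (List A)) :=
  {L | ∃ (M : MultiTape A) (C : ℝ) (n₀ : ℕ), ∀ w : List A, ∃ τ,
    M.HaltsAt w τ ∧ ((M.run w τ).q = M.acc ↔ w ∈ L) ∧
      (n₀ ≤ w.length → (M.cells w τ : ℝ) ≤ C * s w.length)}

end Vale.Agent.P312
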