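import Vale.Agent.P312.Refine

/-!
Epochs of a one-tape computation: the numeric block contents and crossing records are those of the
machine, and they satisfy the hypotheses of the catalytic evaluation.
-/

namespace Vale.Agent.P312

open Finset

variable {A : Type}

def Move.code : Move → ℕ
  | .left => 0
  | .stay => 1
  | .right => 2

theorem Move.shift_eq (m : Move) : m.shift = (m.code : ℤ) - 1 := by cases m <;> rfl

theorem Move.code_le (m : Move) : m.code ≤ 2 := by cases m <;> simp [Move.code]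

structure Rep (M : OneTape A) (T : Tab A) (cQ : M.Q → ℕ) (cG : M.G → ℕ) : Prop where
  cQ_lt : ∀ q, cQ q < T.nq
  cG_lt : ∀ g, cG g < T.gb
  q0 : T.q0 = cQ M.start
  bl : T.bl = cG M.blank
  tQ : ∀ q g, T.tQ (cQ q * T.gb + cG g) = cQ (M.trans q g).1
  tW : ∀ q g, T.tW (cQ q * T.gb + cG g) = cG (M.trans q g).2.1
  tM : ∀ q g, T.tM (cQ q * T.gb + cG g) = (M.trans q g).2.2.code
  tH1 : T.tH (cQ M.acc) = 1
  tH2 : T.tH (cQ M.rej) = 2
  tH0 : ∀ q, q ≠ M.acc → q ≠ M.rej → T.tH (cQ q) = 0
  sy : ∀ (w : List A) i, T.sy ⟨w⟩ i = cG (((w[i]?).map M.inp).getD M.blank)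

theorem OneTape.run_succ (M : OneTape A) (w : List A) (τ : ℕ) :
    M.run w (τ + 1) = M.step (M.run w τ) := Function.iterate_succ_apply' _ _ _

theorem OneTape.head_abs (M : OneTape A) (w : List A) (τ : ℕ) :
    -(τ : ℤ) ≤ (M.run w τ).head ∧ (M.run w τ).head ≤ τ := by
  induction τ with
  | zero => simp [OneTape.run, OneTape.init]
  | succ τ ih =>
    rw [M.run_succ]
    simp only [OneTape.step, Move.shift_eq]
    have := Move.code_le (M.trans (M.run w τ).q ((M.run w τ).tape (M.run w τ).head)).2.2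
    push_cast
    omega

def posZ (M : OneTape A) (w : List A) (Z τ : ℕ) : ℕ := ((M.run w τ).head + Z).toNat

def cross (M : OneTape A) (w : List A) (Z b τ : ℕ) : ℕ :=
  ((range τ).filter fun σ => posZ M w Z σ / b ≠ posZ M w Z (σ + 1) / b).card

theorem cross_mono (M : OneTape A) (w : List A) (Z b : ℕ) {τ τ' : ℕ} (h : τ ≤ τ') :
    cross M w Z b τ ≤ cross M w Z b τ' :=
  card_le_card (filter_subset_filter _ (range_mono h))

theorem cross_lt (M : OneTape A) (w : List A) (Z b : ℕ) {τ τ' : ℕ} (h : τ ≤ τ')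
    (hne : posZ M w Z τ' / b ≠ posZ M w Z τ / b) : cross M w Z b τ < cross M w Z b τ' := by
  induction τ', h using Nat.le_induction with
  | base => exact absurd rfl hne
  | succ n hn ih =>
    by_cases h1 : posZ M w Z n / b = posZ M w Z τ / b
    · refine lt_of_le_of_lt (cross_mono M w Z b hn) ?_
      unfold cross
      rw [range_add_one, filter_insert, if_pos (by rw [h1]; exact hne.symm),
        card_insert_of_notMem (by simp)]
      omega
    · exact lt_of_lt_of_le (ih h1) (cross_mono M w Z b (by omega))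

theorem exists_offset (M : OneTape A) (w : List A) (z b t : ℕ) (hb : 0 < b) (hz : t ≤ z) :
    ∃ o < b, cross M w (z + o) b t * b ≤ t := by
  have aux : ∀ y o o' : ℕ, o < b → o' < b → (y + o) / b ≠ (y + o + 1) / b →
      (y + o') / b ≠ (y + o' + 1) / b → o = o' := by
    intro y o o' ho ho' h1 h2
    have k1 : b ∣ y + o + 1 := by
      by_contra hc; rw [Nat.succ_div, if_neg hc] at h1; exact h1 rfl
    have k2 : b ∣ y + o' + 1 := by
      by_contra hc; rw [Nat.succ_div, if_neg hc] at h2; exact h2 rfl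
    rcases lt_trichotomy o o' with h | h | h
    · have := Nat.le_of_dvd (by omega) (Nat.dvd_sub k2 k1); omega
    · exact h
    · have := Nat.le_of_dvd (by omega) (Nat.dvd_sub k1 k2); omega
  have one : ∀ σ < t, ((range b).filter fun o =>
      posZ M w (z + o) σ / b ≠ posZ M w (z + o) (σ + 1) / b).card ≤ 1 := by
    intro σ hσ
    rw [card_le_one]
    intro o ho o' ho'
    simp only [mem_filter, mem_range] at ho ho'
    have h1 := M.head_abs w σ
    have h2 := M.head_abs w (σ + 1)
    have h3 : (M.run w (σ + 1)).head = (M.run w σ).head +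
      (M.trans (M.run w σ).q ((M.run w σ).tape (M.run w σ).head)).2.2.shift := by
      rw [M.run_succ]; rfl
    have e : ∀ o τ, τ ≤ t → posZ M w (z + o) τ = posZ M w z τ + o := by
      intro o τ hτ
      have := M.head_abs w τ
      unfold posZ; push_cast; omega
    rw [e _ _ (by omega), e _ _ (by omega)] at ho ho'
    have hy : posZ M w z (σ + 1) = posZ M w z σ + 1 ∨ posZ M w z (σ + 1) = posZ M w z σ ∨
        posZ M w z (σ + 1) + 1 = posZ M w z σ := by
      unfold posZ
      rw [Move.shift_eq] at h3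
      have := Move.code_le (M.trans (M.run w σ).q ((M.run w σ).tape (M.run w σ).head)).2.2
      push_cast at h2
      omega
    rcases hy with hy | hy | hy
    · rw [hy] at ho ho'
      exact aux (posZ M w z σ) o o' ho.1 ho'.1 (by rw [add_right_comm]; exact ho.2)
        (by rw [add_right_comm]; exact ho'.2)
    · rw [hy] at ho; exact absurd rfl ho.2
    · rw [← hy] at ho ho'
      exact aux (posZ M w z (σ + 1)) o o' ho.1 ho'.1 (by rw [add_right_comm]; exact ho.2.symm)
        (by rw [add_right_comm]; exact ho'.2.symm)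
  have tot : ∑ o ∈ range b, cross M w (z + o) b t ≤ t := by
    unfold cross
    simp only [card_filter]
    rw [sum_comm]
    calc _ ≤ ∑ _σ ∈ range t, 1 := sum_le_sum fun σ hσ => by
          rw [← card_filter]; exact one σ (mem_range.mp hσ)
      _ = t := by simp
  by_contra hcon
  push Not at hcon
  have : ∑ _o ∈ range b, (t + 1) ≤ ∑ o ∈ range b, cross M w (z + o) b t * b :=
    sum_le_sum fun o ho => hcon o (mem_range.mp ho)
  rw [← sum_mul, sum_const, card_range, smul_eq_mul] at this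
  nlinarith

section
variable {M : OneTape A} {T : Tab A} {cQ : M.Q → ℕ} {cG : M.G → ℕ} (R : Rep M T cQ cG)
  (w : List A) {P : Par} (h : T.Valid P)

def recAt (M : OneTape A) (T : Tab A) (cQ : M.Q → ℕ) (w : List A) (P : Par) (τ : ℕ) : ℕ :=
  posZ M w P.Z τ * T.nq + cQ (M.run w τ).q

def Blk (M : OneTape A) (T : Tab A) (cG : M.G → ℕ) (w : List A) (P : Par) (x β τ : ℕ) : Prop :=
  x < T.gb ^ P.b ∧ ∀ l < P.b, dig T.gb x l = cG ((M.run w τ).tape ((β * P.b + l : ℕ) - (P.Z : ℤ)))

include R in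
theorem recAt_mod (τ : ℕ) : recAt M T cQ w P τ % T.nq = cQ (M.run w τ).q := by
  rw [recAt, mul_comm, Nat.mul_add_mod, Nat.mod_eq_of_lt (R.cQ_lt _)]

include R in
theorem recAt_div (τ : ℕ) : recAt M T cQ w P τ / T.nq = posZ M w P.Z τ := by
  have := R.cQ_lt (M.run w τ).q
  rw [recAt, mul_comm, Nat.mul_add_div (by omega), Nat.div_eq_of_lt this, add_zero]

include R in
theorem recAt_blk (τ : ℕ) : recAt M T cQ w P τ / T.bb P = posZ M w P.Z τ / P.b := by
  rw [Tab.bb, ← Nat.div_div_eq_div_mul, recAt_div R]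

include R in
theorem recAt_lt {τ : ℕ} (hτ : τ ≤ P.Z) : recAt M T cQ w P τ < T.B P := by
  have h1 := R.cQ_lt (M.run w τ).q
  have h2 := M.head_abs w τ
  have h3 : posZ M w P.Z τ ≤ 2 * P.Z := by unfold posZ; omega
  have h4 := Nat.mul_le_mul_right T.nq h3
  unfold recAt Tab.B
  rw [add_mul]; omega

include R in
theorem tH_zero_iff (τ : ℕ) : T.tH (cQ (M.run w τ).q) = 0 ↔ ¬ M.Halted w τ := by
  unfold OneTape.Halted
  constructor
  · rintro h0 (h1 | h1)
    · rw [h1, R.tH1] at h0; omega
    · rw [h1, R.tH2] at h0; omega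
  · intro h0
    push Not at h0
    exact R.tH0 _ h0.1 h0.2

include h in
theorem gb_pow_le : T.gb ^ P.b ≤ P.N := by
  refine le_trans (Nat.pow_le_pow_left (Nat.lt_two_pow_self (n := T.gb)).le _) ?_
  rw [← pow_mul]
  exact h.pow_le (by unfold Tab.nx; omega)

include h in
theorem B_le : T.B P ≤ P.N := by simpa using h.Bpow_le (n := 1) (by omega)

include h in
theorem b_pos : 0 < P.b := by have := h.a1; unfold Par.b; positivity

include R h in
theorem istep_go {x τ : ℕ} (hτ : τ < P.Z) (hx : Blk M T cG w P x (posZ M w P.Z τ / P.b) τ)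
    (hH : ¬ M.Halted w τ) :
    (T.istep P (posZ M w P.Z τ / P.b) (x, recAt M T cQ w P τ)).2 = recAt M T cQ w P (τ + 1) ∧
    Blk M T cG w P (T.istep P (posZ M w P.Z τ / P.b) (x, recAt M T cQ w P τ)).1
      (posZ M w P.Z τ / P.b) (τ + 1) ∧
    ∀ β y, β ≠ posZ M w P.Z τ / P.b → Blk M T cG w P y β τ → Blk M T cG w P y β (τ + 1) := by
  have hb := b_pos h
  have hhead := M.head_abs w τ
  have hl0 := Nat.mod_lt (posZ M w P.Z τ) hb
  have hdm := Nat.div_add_mod (posZ M w P.Z τ) P.b
  rw [mul_comm] at hdm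
  have hpos : (posZ M w P.Z τ : ℤ) = (M.run w τ).head + P.Z := by unfold posZ; omega
  have hkey : T.key P (x, recAt M T cQ w P τ) =
      cQ (M.run w τ).q * T.gb + cG ((M.run w τ).tape (M.run w τ).head) := by
    unfold Tab.key
    simp only
    rw [recAt_mod R, recAt_div R, hx.2 _ hl0, hdm]
    congr 3
    omega
  unfold Tab.istep
  simp only
  rw [recAt_mod R, if_pos ((tH_zero_iff R w τ).mpr hH), recAt_blk R, if_pos rfl, hkey, R.tQ, R.tW,
    R.tM, recAt_div R]
  refine ⟨?_, ?_, ?_⟩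
  · simp only
    unfold recAt
    rw [M.run_succ]
    congr 2
    unfold posZ
    rw [M.run_succ]
    simp only [OneTape.step, Move.shift_eq]
    omega
  · obtain ⟨b1, b2⟩ := build_spec (N := P.N) (B := T.gb) (n := P.b)
      (f := fun l => if l = posZ M w P.Z τ % P.b then
        cG (M.trans (M.run w τ).q ((M.run w τ).tape (M.run w τ).head)).2.1 else dig T.gb x l)
      (fun l _ => by
        split_ifs
        · exact R.cG_lt _
        · exact dig_lt (lt_of_le_of_lt (Nat.zero_le _) (R.cG_lt M.blank)) _ _)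
      ((gb_pow_le h).trans (by omega))
    refine ⟨b1, fun l hl => ?_⟩
    simp only
    rw [b2 l hl, M.run_succ]
    simp only [OneTape.step]
    split_ifs with e
    · rw [show ((posZ M w P.Z τ / P.b * P.b + l : ℕ) : ℤ) - P.Z = (M.run w τ).head by omega,
        Function.update_self]
    · rw [Function.update_of_ne (by omega), hx.2 l hl]
  · intro β y hβ hy
    refine ⟨hy.1, fun l hl => ?_⟩
    rw [hy.2 l hl, M.run_succ]
    simp only [OneTape.step]
    rw [Function.update_of_ne]
    intro e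
    apply hβ
    have : β * P.b + l = posZ M w P.Z τ := by omega
    rw [← this, mul_comm, Nat.mul_add_div hb, Nat.div_eq_of_lt hl, add_zero]

include R in
theorem istep_stop {x β τ : ℕ} (hH : M.Halted w τ ∨ posZ M w P.Z τ / P.b ≠ β) :
    T.istep P β (x, recAt M T cQ w P τ) = (x, recAt M T cQ w P τ) := by
  unfold Tab.istep
  simp only
  rw [recAt_mod R, recAt_blk R]
  split_ifs with h1 h2
  · rw [tH_zero_iff R] at h1
    tauto
  · rfl
  · rfl

include R h in
theorem ep_spec {x τ₀ : ℕ} (hτ : τ₀ + P.tm ≤ P.Z)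
    (hx : Blk M T cG w P x (posZ M w P.Z τ₀ / P.b) τ₀) (hH : ∀ σ < τ₀, ¬ M.Halted w σ) :
    ∃ τ, τ₀ ≤ τ ∧ τ ≤ τ₀ + P.tm ∧ (T.ep P x (recAt M T cQ w P τ₀)).2 = recAt M T cQ w P τ ∧
      Blk M T cG w P (T.ep P x (recAt M T cQ w P τ₀)).1 (posZ M w P.Z τ₀ / P.b) τ ∧
      (∀ β y, β ≠ posZ M w P.Z τ₀ / P.b → Blk M T cG w P y β τ₀ → Blk M T cG w P y β τ) ∧
      (∀ σ < τ, ¬ M.Halted w σ) ∧
      (τ = τ₀ + P.tm ∨ M.Halted w τ ∨ posZ M w P.Z τ / P.b ≠ posZ M w P.Z τ₀ / P.b) := by
  obtain ⟨β₀, hβ₀⟩ : ∃ β₀, β₀ = posZ M w P.Z τ₀ / P.b := ⟨_, rfl⟩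
  rw [← hβ₀] at hx ⊢
  have key : ∀ n ≤ P.tm, ∃ τ y, τ₀ ≤ τ ∧ τ ≤ τ₀ + n ∧
      lp n (x, recAt M T cQ w P τ₀) (fun _ y => T.istep P β₀ y) = (y, recAt M T cQ w P τ) ∧
      Blk M T cG w P y β₀ τ ∧
      (∀ β y, β ≠ β₀ → Blk M T cG w P y β τ₀ → Blk M T cG w P y β τ) ∧
      (∀ σ < τ, ¬ M.Halted w σ) ∧
      (τ = τ₀ + n ∨ M.Halted w τ ∨ posZ M w P.Z τ / P.b ≠ β₀) := by
    intro n
    induction n with
    | zero => intro _; exact ⟨τ₀, x, le_rfl, le_rfl, rfl, hx, fun _ _ _ h => h, hH, Or.inl rfl⟩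
    | succ n ih =>
      intro hn
      obtain ⟨τ, y, h1, h2, h3, h4, h5, h6, h7⟩ := ih (by omega)
      rw [lp_succ, h3]
      by_cases hs : M.Halted w τ ∨ posZ M w P.Z τ / P.b ≠ β₀
      · exact ⟨τ, y, h1, by omega, istep_stop R w hs, h4, h5, h6, Or.inr hs⟩
      · have hτn : τ = τ₀ + n := by tauto
        push Not at hs
        obtain ⟨hs1, hs2⟩ := hs
        obtain ⟨g1, g2, g3⟩ := istep_go R w h (x := y) (τ := τ) (by omega) (by rwa [hs2]) hs1
        rw [hs2] at g1 g2 g3
        refine ⟨τ + 1, _, by omega, by omega, Prod.ext rfl g1, g2,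
          fun β y hβ hy => g3 β y hβ (h5 β y hβ hy), fun σ hσ => ?_, Or.inl (by omega)⟩
        rcases Nat.lt_succ_iff_lt_or_eq.mp hσ with h' | rfl
        · exact h6 σ h'
        · exact hs1
  have e : T.ep P x (recAt M T cQ w P τ₀) =
      lp P.tm (x, recAt M T cQ w P τ₀) (fun _ y => T.istep P β₀ y) := by
    unfold Tab.ep
    rw [recAt_blk R, ← hβ₀]
    apply loop_eq_lp
    intro i hi
    obtain ⟨τ, y, h1, h2, h3, h4, -⟩ := key (i + 1) hi
    have := recAt_lt R w (P := P) (τ := τ) (by omega)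
    have := B_le h
    have := gb_pow_le h
    have := h4.1
    rw [h3, clamp_prod, clamp_of_le (by omega), clamp_of_le (by omega)]
  obtain ⟨τ, y, h1, h2, h3, h4, h5, h6, h7⟩ := key P.tm le_rfl
  rw [e, h3]
  exact ⟨τ, h1, h2, rfl, h4, h5, h6, h7⟩

/-- Block contents and record after `j` epochs. -/
def CRs (T : Tab A) (w : List A) (P : Par) : ℕ → (ℕ → ℕ) × ℕ
  | 0 => (T.x0 ⟨w⟩ P, T.r0 P)
  | j + 1 =>
    (fun β => if (CRs T w P j).2 / T.bb P = β then (T.ep P ((CRs T w P j).1 β) (CRs T w P j).2).1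
      else (CRs T w P j).1 β,
    (T.ep P ((CRs T w P j).1 ((CRs T w P j).2 / T.bb P)) (CRs T w P j).2).2)

theorem m_tm_le (h : T.Valid P) : P.m * P.tm ≤ P.Z := by
  have := Nat.le_mul_of_pos_left (P.m * P.tm) (b_pos h)
  unfold Par.Z Par.z0; omega

include R h in
theorem inv_CRs : ∀ j ≤ P.m, ∃ τ ≤ j * P.tm, (CRs T w P j).2 = recAt M T cQ w P τ ∧
    (∀ β, Blk M T cG w P ((CRs T w P j).1 β) β τ) ∧ (∀ σ < τ, ¬ M.Halted w σ) ∧
    (M.Halted w τ ∨ j ≤ cross M w P.Z P.b τ ∨ P.tm ≤ τ) := by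
  intro j
  induction j with
  | zero =>
    intro _
    refine ⟨0, by simp, ?_, fun β => ?_, by simp, Or.inr (Or.inl (by simp))⟩
    · simp [CRs, Tab.r0, recAt, posZ, OneTape.run, OneTape.init, R.q0]
    · obtain ⟨b1, b2⟩ := build_spec (N := P.N) (B := T.gb) (n := P.b)
        (f := fun l => if β * P.b + l < P.Z then T.bl else T.sy ⟨w⟩ (β * P.b + l - P.Z))
        (fun l _ => by
          split_ifs
          · rw [R.bl]; exact R.cG_lt _
          · rw [R.sy]; exact R.cG_lt _)
        ((gb_pow_le h).trans (by omega))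
      refine ⟨b1, fun l hl => ?_⟩
      simp only [CRs, Tab.x0]
      rw [b2 l hl]
      simp only [OneTape.run, OneTape.init, Function.iterate_zero, id]
      split_ifs with h1 h2 h2
      · omega
      · exact R.bl
      · rw [R.sy]; congr 4; omega
      · omega
  | succ j ih =>
    intro hj
    obtain ⟨τ₀, h1, h2, h3, h4, h5⟩ := ih (by omega)
    have hm := m_tm_le h
    have hj' : (j + 1) * P.tm ≤ P.m * P.tm := Nat.mul_le_mul_right _ hj
    rw [add_mul, one_mul] at hj'
    obtain ⟨τ, g1, g2, g3, g4, g5, g6, g7⟩ := ep_spec R w h (τ₀ := τ₀) (by omega) (h3 _) h4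
    refine ⟨τ, by rw [add_mul]; omega, ?_, fun β => ?_, g6, ?_⟩
    · simp only [CRs]
      rw [h2, recAt_blk R, g3]
    · simp only [CRs]
      rw [h2, recAt_blk R]
      split_ifs with e
      · subst e; exact g4
      · exact g5 β _ (Ne.symm e) (h3 β)
    · rcases g7 with g7 | g7 | g7
      · right; right; omega
      · left; exact g7
      · have := cross_lt M w P.Z P.b g1 g7
        rcases h5 with h5 | h5 | h5
        · have : τ = τ₀ := by
            by_contra hne
            exact g6 τ₀ (by omega) h5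
          left; rwa [this]
        · right; left; omega
        · right; right; omega

def Eg (T : Tab A) (w : List A) (P : Par) (g : ℕ) : ℕ :=
  build P.N (T.B P) P.a (fun e => (CRs T w P (g * P.a + e + 1 - P.a)).2)

include R h in
theorem R_lt {j : ℕ} (hj : j ≤ P.m) : (CRs T w P j).2 < T.B P := by
  obtain ⟨τ, h1, h2, -⟩ := inv_CRs R w h j hj
  have := m_tm_le h
  have : j * P.tm ≤ P.m * P.tm := Nat.mul_le_mul_right _ hj
  rw [h2]; exact recAt_lt R w (by omega)

include R h in
theorem C_lt {j : ℕ} (hj : j ≤ P.m) (β : ℕ) : (CRs T w P j).1 β < T.gb ^ P.b := by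
  obtain ⟨τ, -, -, h3, -⟩ := inv_CRs R w h j hj
  exact (h3 β).1

include R h in
theorem Eg_spec {g : ℕ} (hg : g ≤ (P.a + 1) * P.a) : Eg T w P g < T.B P ^ P.a ∧
    ∀ e < P.a, dig (T.B P) (Eg T w P g) e = (CRs T w P (g * P.a + e + 1 - P.a)).2 := by
  have : g * P.a ≤ P.m := Nat.mul_le_mul_right _ hg
  exact build_spec (fun e he => R_lt R w h (by omega)) ((h.Bpow_le (by omega)).trans (by omega))

include R h in
theorem Eg_lt {g : ℕ} (hg : g ≤ (P.a + 1) * P.a) : Eg T w P g < 2 ^ P.ng := by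
  refine lt_of_lt_of_le (Eg_spec R w h hg).1 ((Nat.pow_le_pow_left h.hB _).trans ?_)
  rw [← pow_mul, Par.ng, mul_comm]

theorem dig_V (S : Sys) (E : ℕ → ℕ) (i γ : ℕ) (hE : ∀ t < γ, E (i * S.G + t) < 2 ^ S.ng) :
    ∀ t < γ, dig (2 ^ S.ng) (S.V E i γ) t = E (i * S.G + t) := by
  induction γ with
  | zero => intro t ht; omega
  | succ γ ih =>
    intro t ht
    have h1 := S.V_lt E i γ fun t ht => hE t (by omega)
    rw [Sys.V, mul_comm γ, pow_mul, mul_comm]
    rw [mul_comm γ, pow_mul] at h1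
    rcases Nat.lt_succ_iff_lt_or_eq.mp ht with h' | rfl
    · rw [dig_low h', ih (fun t ht => hE t (by omega)) t h']
    · rw [dig_top h1 (hE t ht)]

include R h in
theorem recd_V {i γ r : ℕ} (hi : i < P.a + 1) (hγ : γ ≤ P.a + 1) (hr : r < γ * P.a) :
    T.recd P ((T.sys ⟨w⟩ P).V (Eg T w P) i γ) r = (CRs T w P (i * P.a * P.a + r + 1 - P.a)).2 := by
  have ha := h.a1
  have h1 : i * P.a ≤ P.a * P.a := Nat.mul_le_mul_right _ (by omega)
  have h2 : r / P.a < γ := Nat.div_lt_of_lt_mul (by rwa [mul_comm] at hr)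
  have h3 : ∀ t < γ, i * P.a + t ≤ (P.a + 1) * P.a := fun t ht => by rw [add_mul]; omega
  unfold Tab.recd
  rw [powm_eq (h.pow_le (by rw [add_mul]; omega))]
  have := dig_V (T.sys ⟨w⟩ P) (Eg T w P) i γ (fun t ht => Eg_lt R w h (h3 t ht)) _ h2
  dsimp only at this
  rw [this, (Eg_spec R w h (h3 _ h2)).2 _ (Nat.mod_lt _ (by omega))]
  congr 3
  have := Nat.div_add_mod r P.a
  rw [add_mul, mul_comm (r / P.a)]; omega

include R h in
theorem updN_spec {β v u γ j n : ℕ} (hn : j + n ≤ P.m)
    (hs : ∀ t < n, T.sq P v u γ t = (CRs T w P (j + t)).2) :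
    T.updN P β ((CRs T w P j).1 β) v u γ n = (CRs T w P (j + n)).1 β := by
  unfold Tab.updN loop
  induction n with
  | zero => rfl
  | succ n ih =>
    rw [lp_succ, ih (by omega) fun t ht => hs t (by omega)]
    beta_reduce
    rw [hs n (by omega)]
    have := C_lt R w h hn β
    have := gb_pow_le h
    exact clamp_of_le (x := (CRs T w P (j + (n + 1))).1 β) (by omega)

include R h in
theorem sys_ok : (T.sys ⟨w⟩ P).OK (P.a + 1) (fun i β => (CRs T w P (i * P.a * P.a)).1 β)
    (Eg T w P) := by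
  have ha := h.a1
  have hng := h.a_le_ng
  have hm : ∀ i < P.a + 1, i * P.a * P.a + P.a * P.a ≤ P.m := fun i hi => by
    have : (i + 1) * P.a * P.a ≤ (P.a + 1) * P.a * P.a :=
      Nat.mul_le_mul_right _ (Nat.mul_le_mul_right _ hi)
    rw [add_mul, add_mul, one_mul] at this
    exact this
  refine ⟨ha, by dsimp only; unfold Tab.L; omega, by dsimp only; unfold Tab.L; omega, h.d1, h.d2,
    ?_, fun β => by simp [CRs], ?_, ?_, fun g hg => Eg_lt R w h hg, ?_, ?_⟩
  · have := h.d2
    have h1 : P.a * 1 ≤ P.a * (P.a * P.ng) := Nat.mul_le_mul_left _ (by nlinarith)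
    dsimp only; omega
  · unfold Eg
    dsimp only
    unfold Tab.e0 build loop
    refine lp_congr fun i hi s => ?_
    beta_reduce
    rw [show 0 * P.a + (P.a - 1 - i) + 1 - P.a = 0 by omega]
    rfl
  · intro i hi β
    refine lt_of_lt_of_le (C_lt R w h (Nat.mul_le_mul_right _ (Nat.mul_le_mul_right _ hi)) β) ?_
    refine le_trans (Nat.pow_le_pow_left (Nat.lt_two_pow_self (n := T.gb)).le _) ?_
    rw [← pow_mul]; rfl
  · intro i hi β
    dsimp only
    rw [add_mul, add_mul, one_mul, Tab.upd, updN_spec R w h (hm i hi)]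
    intro t ht
    have h1 : P.a - 1 + t < (P.a + 1) * P.a := by rw [add_mul]; omega
    rw [Tab.sq, if_pos h1, recd_V R w h hi le_rfl h1]
    congr 2; omega
  · intro i hi γ h1 h2
    dsimp only at h2 ⊢
    obtain ⟨γ, rfl⟩ : ∃ γ', γ = γ' + 1 := ⟨γ - 1, by omega⟩
    have hγ : γ * P.a + P.a ≤ P.a * P.a := by
      have : (γ + 1) * P.a ≤ P.a * P.a := Nat.mul_le_mul_right _ h2
      rwa [add_mul, one_mul] at this
    have hmi := hm i hi
    have hia : i * P.a ≤ P.a * P.a := Nat.mul_le_mul_right _ (by omega)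
    obtain ⟨b1, b2⟩ := build_spec (N := P.N) (B := T.B P) (n := P.a + 1)
      (f := fun c => (CRs T w P (i * P.a * P.a + γ * P.a + c)).2)
      (fun c hc => R_lt R w h (by omega)) ((h.Bpow_le le_rfl).trans (by omega))
    obtain ⟨c1, c2⟩ := Eg_spec R w h (g := i * P.a + (γ + 1)) (by rw [add_mul]; omega)
    refine ⟨_, b1, ?_, fun u hu => ?_⟩
    · refine eq_of_dig P.a _ _ (Nat.div_lt_of_lt_mul (by rwa [← pow_succ'])) c1 fun e he => ?_
      rw [← dig_succ, b2 _ (by omega), c2 e he]
      congr 2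
      rw [add_mul, add_mul]; omega
    · have hr0 : T.recd P ((T.sys ⟨w⟩ P).V (Eg T w P) i (γ + 1)) ((γ + 1) * P.a - 1) =
          (CRs T w P (i * P.a * P.a + γ * P.a + 0)).2 := by
        rw [recd_V R w h hi (by omega) (by rw [add_mul]; omega)]
        congr 2
        rw [add_mul]; omega
      have hchk : ∀ j < P.a,
          (∀ c ≤ j, dig (T.B P) u c = (CRs T w P (i * P.a * P.a + γ * P.a + c)).2) →
          T.chk P (γ + 1) j ((CRs T w P (i * P.a * P.a)).1 (dig (T.B P) u j / T.bb P))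
            ((T.sys ⟨w⟩ P).V (Eg T w P) i (γ + 1)) u =
          if dig (T.B P) u (j + 1) = (CRs T w P (i * P.a * P.a + γ * P.a + (j + 1))).2
            then 1 else 0 := by
        intro j hj hc
        unfold Tab.chk
        rw [hr0, if_pos (hc 0 (by omega)), Nat.add_sub_cancel, updN_spec R w h (by omega),
          hc j le_rfl]
        · rw [← add_assoc]
          exact if_congr eq_comm rfl rfl
        · intro t ht
          unfold Tab.sq
          split_ifs with h3
          · rw [recd_V R w h hi (by omega) h3]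
            congr 2; omega
          · rw [add_mul] at h3
            rw [Nat.add_sub_cancel, hc _ (by omega)]
            congr 2; omega
      split_ifs with hu0
      · refine prod_eq_one fun j hj => ?_
        have hj' := mem_range.mp hj
        rw [hchk j hj' (fun c hc => by rw [hu0, b2 c (by omega)]), if_pos (by
          rw [hu0, b2 _ (by omega)])]
      · have hex : ∃ c, c < P.a + 1 ∧
            dig (T.B P) u c ≠ (CRs T w P (i * P.a * P.a + γ * P.a + c)).2 := by
          by_contra hcon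
          push Not at hcon
          exact hu0 (eq_of_dig _ _ _ hu b1 fun l hl => by rw [b2 l hl, hcon l hl])
        classical
        obtain ⟨hc1, hc2⟩ := Nat.find_spec hex
        have hmin : ∀ c < Nat.find hex,
            dig (T.B P) u c = (CRs T w P (i * P.a * P.a + γ * P.a + c)).2 := fun c hc => by
          have := Nat.find_min hex hc
          push Not at this
          exact this (by omega)
        generalize Nat.find hex = c at hc1 hc2 hmin
        rcases c with _ | c
        · refine prod_eq_zero (mem_range.mpr (show 0 < P.a by omega)) ?_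
          unfold Tab.chk
          rw [hr0, if_neg hc2]
        · refine prod_eq_zero (mem_range.mpr (show c < P.a by omega)) ?_
          rw [hchk c (by omega) (fun c' hc' => hmin c' (by omega)), if_neg hc2]

include R h in
theorem res1_eq : T.res1 ⟨w⟩ P = T.tH ((CRs T w P P.m).2 % T.nq) := by
  have : Fact P.p.Prime := ⟨h.prime⟩
  have ha := h.a1
  rw [Tab.res1, if_pos ((T.bad_eq_zero P).mpr h), Tab.outp_final ⟨w⟩ h (sys_ok R w h),
    (Eg_spec R w h le_rfl).2 _ (by omega)]
  congr 4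
  unfold Par.m; omega

end

end Vale.Agent.P312
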