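import Vale.Agent.P312.Counter

/-!
Functions computable by counter programs whose registers stay polynomially bounded in the argument
(that is, in linear space), with closure properties.
-/

namespace Vale.Agent.P312

open Function

variable {A : Type}

def CR (w : List A) (N : ℕ) (p : CProg A) (ρ ρ' : ℕ → ℕ) : Prop :=
  ∀ pos, ∃ pos', CRun w N p ⟨ρ, pos⟩ ⟨ρ', pos'⟩

theorem CR.cast {w : List A} {N : ℕ} {p ρ ρ' ρ''} (h : CR w N p ρ ρ') (e : ρ' = ρ'') :
    CR w N p ρ ρ'' := e ▸ h

theorem CR.cast' {w : List A} {N : ℕ} {p ρ ρ' ρ''} (h : CR w N p ρ ρ') (e : ρ = ρ'') :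
    CR w N p ρ'' ρ' := e ▸ h

theorem CR.mono {w : List A} {N N' : ℕ} {p ρ ρ'} (h : CR w N p ρ ρ') (hN : N ≤ N') :
    CR w N' p ρ ρ' := fun pos => let ⟨pos', h'⟩ := h pos; ⟨pos', h'.mono hN⟩

theorem CR.seq {w : List A} {N : ℕ} {p q ρ ρ' ρ''} (h : CR w N p ρ ρ') (h' : CR w N q ρ' ρ'') :
    CR w N (.seq p q) ρ ρ'' := fun pos =>
  let ⟨pos', a⟩ := h pos
  let ⟨pos'', b⟩ := h' pos'
  ⟨pos'', a.seq b⟩

theorem CR.inc {w : List A} {N : ℕ} {r ρ} (h : ρ r + 1 ≤ N) :
    CR w N (.inc r) ρ (update ρ r (ρ r + 1)) := fun pos => ⟨pos, CRun.inc (s := ⟨ρ, pos⟩) h⟩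

theorem CR.dec {w : List A} {N : ℕ} {r ρ} :
    CR w N (.dec r) ρ (update ρ r (ρ r - 1)) := fun pos => ⟨pos, CRun.dec (s := ⟨ρ, pos⟩)⟩

theorem CR.skip {w : List A} {N : ℕ} {ρ} : CR w N (.mv .stay) ρ ρ :=
  fun pos => ⟨_, CRun.mv (s := ⟨ρ, pos⟩)⟩

theorem CR.iteZ {w : List A} {N : ℕ} {r p q ρ ρ'} (h0 : ρ r = 0) (h : CR w N p ρ ρ') :
    CR w N (.ite (.zero r) p q) ρ ρ' := fun pos =>
  let ⟨pos', a⟩ := h pos
  ⟨pos', CRun.iteT h0 a⟩

theorem CR.iteN {w : List A} {N : ℕ} {r p q ρ ρ'} (h0 : ρ r ≠ 0) (h : CR w N q ρ ρ') :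
    CR w N (.ite (.zero r) p q) ρ ρ' := fun pos =>
  let ⟨pos', a⟩ := h pos
  ⟨pos', CRun.iteF h0 a⟩

def cnt (c : ℕ) (q : CProg A) : CProg A := .loop (.not (.zero c)) (.seq (.dec c) q)

theorem CR.cnt {w : List A} {N c : ℕ} {q : CProg A} (n : ℕ) (ρ : ℕ → ℕ → ℕ)
    (hc : ∀ i ≤ n, ρ i c = n - i)
    (hq : ∀ i < n, CR w N q (update (ρ i) c (n - i - 1)) (ρ (i + 1))) :
    CR w N (cnt c q) (ρ 0) (ρ n) := by
  have key : ∀ d i, i + d = n → CR w N (Vale.Agent.P312.cnt c q) (ρ i) (ρ n) := by
    intro d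
    induction d with
    | zero =>
      intro i hi pos
      obtain rfl : i = n := by omega
      refine ⟨pos, CRun.loopF ?_⟩
      simp [Test.holds, hc i le_rfl]
    | succ d ih =>
      intro i hi pos
      obtain ⟨pos1, h1⟩ := hq i (by omega) pos
      obtain ⟨pos2, h2⟩ := ih (i + 1) (by omega) pos1
      refine ⟨pos2, CRun.loopT ?_ (CRun.seq (CRun.dec.cast ?_) h1) h2⟩
      · simp only [Test.holds, hc i (by omega)]; omega
      · simp [St.set, hc i (by omega)]
  exact key n 0 (by omega)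

def clr (r : ℕ) : CProg A := cnt r (.mv .stay)

theorem CR.clr {w : List A} {N r : ℕ} {ρ} : CR w N (clr r) ρ (update ρ r 0) := by
  have := CR.cnt (w := w) (N := N) (c := r) (q := .mv .stay) (ρ r)
    (fun i => update ρ r (ρ r - i)) (by simp)
    (fun i _ => CR.skip.cast (by simp only [update_idem]; congr 1))
  simpa [Vale.Agent.P312.clr] using this

def mov (a b : ℕ) : CProg A := cnt a (.inc b)

theorem CR.mov {w : List A} {N a b : ℕ} {ρ} (hab : a ≠ b) (hN : ρ b + ρ a ≤ N) :
    CR w N (mov a b) ρ (update (update ρ a 0) b (ρ b + ρ a)) := by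
  have := CR.cnt (w := w) (N := N) (c := a) (q := .inc b) (ρ a)
    (fun i => update (update ρ a (ρ a - i)) b (ρ b + i)) (by simp [hab])
    (fun i hi => (CR.inc (by simp [hab.symm]; omega)).cast (by
      funext j
      simp only [update_apply]
      split_ifs <;> first | rfl | omega))
  simpa [Vale.Agent.P312.mov] using this

def mov2 (a b c : ℕ) : CProg A := cnt a (.seq (.inc b) (.inc c))

theorem CR.mov2 {w : List A} {N a b c : ℕ} {ρ} (hab : a ≠ b) (hac : a ≠ c) (hbc : b ≠ c)
    (hN : ρ b + ρ a ≤ N) (hN' : ρ c + ρ a ≤ N) :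
    CR w N (mov2 a b c) ρ (update (update (update ρ a 0) b (ρ b + ρ a)) c (ρ c + ρ a)) := by
  have := CR.cnt (w := w) (N := N) (c := a) (q := .seq (.inc b) (.inc c)) (ρ a)
    (fun i => update (update (update ρ a (ρ a - i)) b (ρ b + i)) c (ρ c + i)) (by simp [hab, hac])
    (fun i hi => ((CR.inc (by simp [hab.symm, hbc]; omega)).seq
      (CR.inc (by simp [hac.symm, hbc.symm]; omega))).cast (by
      funext j
      simp only [update_apply]
      split_ifs <;> first | rfl | omega))
  simpa [Vale.Agent.P312.mov2] using this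

/-! Cantor pairing. -/

def tri : ℕ → ℕ
  | 0 => 0
  | n + 1 => tri n + (n + 1)

def pr (a b : ℕ) : ℕ := tri (a + b) + b

def nxt (x : ℕ × ℕ) : ℕ × ℕ := if x.1 = 0 then (x.2 + 1, 0) else (x.1 - 1, x.2 + 1)

theorem le_tri (n : ℕ) : n ≤ tri n := by
  cases n <;> simp [tri]

theorem tri_le (n : ℕ) : tri n ≤ n * n := by
  induction n with
  | zero => simp [tri]
  | succ n ih => simp only [tri]; nlinarith

theorem tri_mono {m n : ℕ} (h : m ≤ n) : tri m ≤ tri n := by
  induction h with
  | refl => exact le_rfl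
  | step _ ih => simp only [tri]; omega

theorem add_le_pr (a b : ℕ) : a + b ≤ pr a b := by
  have := le_tri (a + b); unfold pr; omega

theorem pr_le (a b : ℕ) : pr a b + 2 ≤ (a + 2) ^ 2 * (b + 2) ^ 2 := by
  have := tri_le (a + b); unfold pr; nlinarith [Nat.zero_le (a * b), Nat.zero_le (a * a * b),
    Nat.zero_le (a * b * b), Nat.zero_le (a * a * b * b)]

theorem pr_mono {a b a' b' : ℕ} (ha : a ≤ a') (hb : b ≤ b') : pr a b ≤ pr a' b' := by
  have := tri_mono (show a + b ≤ a' + b' by omega); unfold pr; omega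

theorem iter_nxt : ∀ n b, b ≤ n → nxt^[tri n + b] (0, 0) = (n - b, b) := by
  intro n
  induction n with
  | zero => intro b hb; obtain rfl : b = 0 := by omega
            rfl
  | succ n ihn =>
    intro b
    induction b with
    | zero =>
      intro _
      rw [show tri (n + 1) + 0 = (tri n + n) + 1 by simp [tri]; ring, iterate_succ_apply',
        ihn n le_rfl]
      simp [nxt]
    | succ b ihb =>
      intro hb
      rw [← add_assoc, iterate_succ_apply', ihb (by omega)]
      have : n + 1 - b ≠ 0 := by omega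
      simp only [nxt, this, if_false]
      congr 1

theorem iter_nxt_pr (a b : ℕ) : nxt^[pr a b] (0, 0) = (a, b) := by
  rw [pr, iter_nxt _ _ (by omega)]; simp

theorem iter_nxt_le (i : ℕ) : (nxt^[i] (0, 0)).1 + (nxt^[i] (0, 0)).2 ≤ i := by
  induction i with
  | zero => simp
  | succ i ih =>
    rw [iterate_succ_apply']
    generalize nxt^[i] (0, 0) = x at ih ⊢
    unfold nxt
    split_ifs with h <;> simp <;> omega

/-- Unpair register `r` into `r + 1` and `r + 2`. -/
def unpP (r : ℕ) : CProg A :=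
  cnt r (.ite (.zero (r + 1)) (.seq (mov (r + 2) (r + 1)) (.inc (r + 1)))
    (.seq (.dec (r + 1)) (.inc (r + 2))))

theorem CR.unp {w : List A} {N r a b : ℕ} {ρ} (h : ρ r = pr a b) (h1 : ρ (r + 1) = 0)
    (h2 : ρ (r + 2) = 0) (hN : pr a b ≤ N) :
    CR w N (unpP r) ρ (update (update (update ρ r 0) (r + 1) a) (r + 2) b) := by
  have := CR.cnt (w := w) (N := N) (c := r)
    (q := .ite (.zero (r + 1)) (.seq (Vale.Agent.P312.mov (r + 2) (r + 1)) (.inc (r + 1)))
      (.seq (.dec (r + 1)) (.inc (r + 2)))) (pr a b)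
    (fun i => update (update (update ρ r (pr a b - i)) (r + 1) (nxt^[i] (0, 0)).1) (r + 2)
      (nxt^[i] (0, 0)).2) (by simp) (fun i hi => by
      have hle := iter_nxt_le i
      rw [iterate_succ_apply']
      generalize nxt^[i] (0, 0) = x at hle ⊢
      by_cases hx : x.1 = 0
      · refine CR.iteZ (by simp [hx]) (((CR.mov (by omega) (by simp; omega)).seq
          (CR.inc (by simp; omega))).cast ?_)
        funext j
        simp only [update_apply, nxt, hx, if_true]
        split_ifs <;> first | rfl | omega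
      · refine CR.iteN (by simp [hx]) ((CR.dec.seq (CR.inc (by simp; omega))).cast ?_)
        funext j
        simp only [update_apply, nxt, hx, if_false]
        split_ifs <;> first | rfl | omega)
  simp only [iter_nxt_pr, Nat.sub_self, Nat.sub_zero, iterate_zero, id] at this
  refine this.cast' ?_
  funext j
  simp only [update_apply]
  split_ifs <;> simp_all

/-- Pair registers `r + 1` and `r + 2` into `r`. -/
def prP (r : ℕ) : CProg A :=
  .seq (mov2 (r + 2) r (r + 1))
    (cnt (r + 1) (.seq (.inc r) (.seq (mov2 (r + 1) r (r + 2)) (mov (r + 2) (r + 1)))))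

theorem CR.pr {w : List A} {N r : ℕ} {ρ} (h : ρ r = 0) (hN : pr (ρ (r + 1)) (ρ (r + 2)) ≤ N) :
    CR w N (prP r) ρ
      (update (update (update ρ r (pr (ρ (r + 1)) (ρ (r + 2)))) (r + 1) 0) (r + 2) 0) := by
  have hab := add_le_pr (ρ (r + 1)) (ρ (r + 2))
  set a := ρ (r + 1) with ha
  set b := ρ (r + 2) with hb
  have hstep : ∀ i < a + b, tri (a + b - i) = tri (a + b - (i + 1)) + (a + b - i) := by
    intro i hi
    rw [show a + b - i = (a + b - (i + 1)) + 1 by omega, tri]
  have hmono : ∀ i, tri (a + b - i) ≤ tri (a + b) := fun i => tri_mono (by omega)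
  have := CR.cnt (w := w) (N := N) (c := r + 1)
    (q := .seq (.inc r) (.seq (Vale.Agent.P312.mov2 (r + 1) r (r + 2))
      (Vale.Agent.P312.mov (r + 2) (r + 1)))) (a + b)
    (fun i => update (update (update ρ r (b + (tri (a + b) - tri (a + b - i)))) (r + 1) (a + b - i))
      (r + 2) 0) (by simp) (fun i hi => by
      have e1 := hstep i hi
      have e2 := hmono i
      have e3 := hmono (i + 1)
      unfold Vale.Agent.P312.pr at hN
      refine ((CR.inc (by simp; omega)).seq ((CR.mov2 (by omega) (by omega) (by omega)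
        (by simp; omega) (by simp; omega)).seq (CR.mov (by omega) (by simp; omega)))).cast ?_
      funext j
      simp only [update_apply]
      split_ifs <;> first | rfl | omega)
  refine ((CR.mov2 (by omega) (by omega) (by omega) (by omega) (by omega)).seq
    (this.cast' ?_)).cast ?_
  · funext j
    simp only [update_apply]
    split_ifs <;> first | rfl | omega | simp_all
  · funext j
    simp only [update_apply, Nat.sub_self, tri, Vale.Agent.P312.pr]
    split_ifs <;> first | rfl | omega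

/-! Coded types and good functions. -/

class Code (A : Type) (α : Type) where
  enc : α → ℕ
  ok : List A → α → Prop

export Code (ok)

abbrev enc (A : Type) {α : Type} [Code A α] (a : α) : ℕ := Code.enc A a

instance : Code A ℕ := ⟨id, fun _ _ => True⟩

instance {α β : Type} [Code A α] [Code A β] : Code A (α × β) :=
  ⟨fun x => pr (enc A x.1) (enc A x.2), fun w x => ok w x.1 ∧ ok w x.2⟩

/-- The input word as a value: it is stored on the input tape only. -/
structure Inp (A : Type) where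
  w : List A

instance : Code A (Inp A) := ⟨fun _ => 0, fun w x => x.w = w⟩

@[simp] theorem enc_nat (n : ℕ) : enc A n = n := rfl
theorem enc_prod {α β : Type} [Code A α] [Code A β] (a : α) (b : β) :
    enc A (a, b) = pr (enc A a) (enc A b) := rfl
theorem ok_nat (w : List A) (n : ℕ) : ok w n := trivial
theorem ok_prod {α β : Type} [Code A α] [Code A β] (w : List A) (x : α × β) :
    ok w x ↔ ok w x.1 ∧ ok w x.2 := Iff.rfl

def Does (w : List A) (N : ℕ) (p : CProg A) (r x y : ℕ) : Prop :=
  ∀ ρ : ℕ → ℕ, ρ r = x → (∀ j, r < j → ρ j = 0) → CR w N p ρ (update ρ r y)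

theorem Does.mono {w : List A} {N N' : ℕ} {p r x y} (h : Does w N p r x y) (hN : N ≤ N') :
    Does w N' p r x y := fun ρ a b => (h ρ a b).mono hN

theorem Does.seq {w : List A} {N : ℕ} {p q r x y z} (h : Does w N p r x y)
    (h' : Does w N q r y z) : Does w N (.seq p q) r x z := by
  intro ρ a b
  refine (h ρ a b).seq ((h' _ (by simp) ?_).cast (by simp))
  intro j hj
  rw [update_of_ne (by omega)]; exact b j hj

/-- Polynomially bounded in the code of the argument. -/
def PB (A : Type) {α : Type} [Code A α] (g : α → ℕ) : Prop :=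
  ∃ c, ∀ (w : List A) a, ok w a → g a + 2 ≤ (enc A a + 2) ^ c

section PB
variable {α β : Type} [Code A α] [Code A β]

theorem PB.of_le {g g' : α → ℕ} (h : PB A g) (hle : ∀ (w : List A) a, ok w a → g' a ≤ g a) :
    PB A g' := by
  obtain ⟨c, hc⟩ := h
  exact ⟨c, fun w a ha => le_trans (by have := hle w a ha; omega) (hc w a ha)⟩

theorem PB.enc : PB A (fun a : α => enc A a) := ⟨1, fun _ _ _ => by simp⟩

theorem PB.mul2 {g g' : α → ℕ} (h : PB A g) (h' : PB A g') :
    PB A (fun a => (g a + 2) * (g' a + 2) - 2) := by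
  obtain ⟨c, hc⟩ := h
  obtain ⟨c', hc'⟩ := h'
  refine ⟨c + c', fun w a ha => ?_⟩
  have h1 : 2 * 2 ≤ (g a + 2) * (g' a + 2) := Nat.mul_le_mul (by omega) (by omega)
  have h2 := Nat.mul_le_mul (hc w a ha) (hc' w a ha)
  rw [pow_add]
  show (g a + 2) * (g' a + 2) - 2 + 2 ≤ _
  omega

theorem PB.add {g g' : α → ℕ} (h : PB A g) (h' : PB A g') : PB A (fun a => g a + g' a) :=
  (h.mul2 h').of_le fun _ a _ => by
    have : g a + g' a + 2 ≤ (g a + 2) * (g' a + 2) := by nlinarith [Nat.zero_le (g a * g' a)]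
    omega

theorem PB.mul {g g' : α → ℕ} (h : PB A g) (h' : PB A g') : PB A (fun a => g a * g' a) :=
  (h.mul2 h').of_le fun _ a _ => by
    have : g a * g' a + 2 ≤ (g a + 2) * (g' a + 2) := by nlinarith
    omega

theorem PB.const (n : ℕ) : PB A (fun _ : α => n) := by
  refine ⟨n + 1, fun w a _ => ?_⟩
  have h1 : n + 1 < 2 ^ (n + 1) := Nat.lt_two_pow_self
  have h2 : 2 ^ (n + 1) ≤ (Vale.Agent.P312.enc A a + 2) ^ (n + 1) := Nat.pow_le_pow_left (by omega) _
  show n + 2 ≤ _
  omega

theorem PB.pr {g g' : α → ℕ} (h : PB A g) (h' : PB A g') : PB A (fun a => pr (g a) (g' a)) :=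
  ((h.mul2 h).mul2 (h'.mul2 h')).of_le fun _ a _ => by
    have h0 := pr_le (g a) (g' a)
    have h1 : 2 * 2 ≤ (g a + 2) * (g a + 2) := Nat.mul_le_mul (by omega) (by omega)
    have h2 : 2 * 2 ≤ (g' a + 2) * (g' a + 2) := Nat.mul_le_mul (by omega) (by omega)
    rw [show (g a + 2) * (g a + 2) - 2 + 2 = (g a + 2) ^ 2 by rw [sq]; omega,
      show (g' a + 2) * (g' a + 2) - 2 + 2 = (g' a + 2) ^ 2 by rw [sq]; omega]
    omega

theorem PB.pow2 {g : α → ℕ} (h : PB A g) (c : ℕ) : PB A (fun a => (g a + 2) ^ c) := by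
  induction c with
  | zero => simpa using PB.const (A := A) (α := α) 1
  | succ c ih =>
    simp only [pow_succ]
    exact ih.mul (h.add (PB.const 2))

theorem PB.comp {g : β → ℕ} (h : PB A g) {f : α → β} (hok : ∀ (w : List A) a, ok w a → ok w (f a))
    {B : α → ℕ} (hB : PB A B) (hf : ∀ (w : List A) a, ok w a → Vale.Agent.P312.enc A (f a) ≤ B a) :
    PB A (fun a => g (f a)) := by
  obtain ⟨c, hc⟩ := h
  refine (hB.pow2 c).of_le fun w a ha => ?_
  have h1 := hc w _ (hok w a ha)
  have h2 : (Vale.Agent.P312.enc A (f a) + 2) ^ c ≤ (B a + 2) ^ c :=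
    Nat.pow_le_pow_left (by have := hf w a ha; omega) _
  omega

end PB

@[fun_prop]
def Good (A : Type) {α β : Type} [Code A α] [Code A β] (f : α → β) : Prop :=
  (∀ (w : List A) a, ok w a → ok w (f a)) ∧ ∃ B : α → ℕ, PB A B ∧
    (∀ (w : List A) a, ok w a → enc A (f a) ≤ B a) ∧
    ∀ r, ∃ p : CProg A, ∀ w a, ok w a → Does w (B a) p r (enc A a) (enc A (f a))

section Good
variable {α β γ : Type} [Code A α] [Code A β] [Code A γ]

theorem Good.pb {f : α → β} (h : Good A f) : PB A (fun a => enc A (f a)) := by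
  obtain ⟨_, B, hB, hf, _⟩ := h
  exact hB.of_le hf

theorem Good.pbn {f : α → ℕ} (h : Good A f) : PB A f := h.pb

@[fun_prop]
theorem Good.id : Good A (fun a : α => a) :=
  ⟨fun _ _ h => h, fun a => enc A a, PB.enc, fun _ _ _ => le_rfl,
    fun _ => ⟨.mv .stay, fun _ _ _ ρ h _ => CR.skip.cast (by rw [← h]; simp)⟩⟩

@[fun_prop]
theorem Good.comp {g : β → γ} {f : α → β} (hg : Good A g) (hf : Good A f) :
    Good A (fun a => g (f a)) := by
  obtain ⟨ok1, B1, hB1, hb1, hp1⟩ := hf
  obtain ⟨ok2, B2, hB2, hb2, hp2⟩ := hg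
  refine ⟨fun w a h => ok2 w _ (ok1 w a h), fun a => B1 a + B2 (f a),
    hB1.add (hB2.comp ok1 hB1 hb1), fun w a h => ?_, fun r => ?_⟩
  · have := hb2 w _ (ok1 w a h)
    beta_reduce at this ⊢; omega
  · obtain ⟨p1, hp1⟩ := hp1 r
    obtain ⟨p2, hp2⟩ := hp2 r
    exact ⟨.seq p1 p2, fun w a h => ((hp1 w a h).mono (Nat.le_add_right _ _)).seq
      ((hp2 w _ (ok1 w a h)).mono (Nat.le_add_left _ _))⟩

def incs (r : ℕ) : ℕ → CProg A
  | 0 => .mv .stay
  | n + 1 => .seq (incs r n) (.inc r)

theorem CR.incs {w : List A} {N r : ℕ} {ρ} (n : ℕ) (h : ρ r + n ≤ N) :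
    CR w N (incs r n) ρ (update ρ r (ρ r + n)) := by
  induction n with
  | zero => exact CR.skip.cast (by simp)
  | succ n ih =>
    exact ((ih (by omega)).seq (CR.inc (by simp; omega))).cast (by simp [add_assoc])

@[fun_prop]
theorem Good.const (n : ℕ) : Good A (fun _ : α => n) :=
  ⟨fun _ _ _ => trivial, fun _ => n, PB.const n, fun _ _ _ => le_rfl,
    fun r => ⟨.seq (clr r) (incs r n), fun _ _ _ ρ _ _ =>
      (CR.clr.seq (CR.incs n (by simp))).cast (by simp)⟩⟩

theorem Good.succ : Good A (fun n : ℕ => n + 1) :=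
  ⟨fun _ _ _ => trivial, fun n => n + 1, PB.enc.add (PB.const 1), fun _ _ _ => le_rfl,
    fun r => ⟨.inc r, fun _ a _ ρ h _ => by
      have h' : ρ r = a := h
      beta_reduce
      exact (CR.inc (by omega)).cast (by rw [h']; rfl)⟩⟩

theorem Good.pred : Good A (fun n : ℕ => n - 1) :=
  ⟨fun _ _ _ => trivial, fun n => n, PB.enc, fun _ _ _ => Nat.sub_le _ _,
    fun r => ⟨.dec r, fun _ a _ ρ h _ => by
      have h' : ρ r = a := h
      exact CR.dec.cast (by rw [h']; rfl)⟩⟩

theorem Good.fst' : Good A (fun x : α × β => x.1) := by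
  refine ⟨fun _ _ h => h.1, fun x => enc A x, PB.enc, fun _ x _ => ?_, fun r => ?_⟩
  · have := add_le_pr (enc A x.1) (enc A x.2)
    show enc A x.1 ≤ pr (enc A x.1) (enc A x.2)
    omega
  · refine ⟨.seq (unpP r) (.seq (clr (r + 2)) (mov (r + 1) r)), fun w x _ ρ h hz => ?_⟩
    have hab := add_le_pr (enc A x.1) (enc A x.2)
    have e : enc A x = pr (enc A x.1) (enc A x.2) := rfl
    beta_reduce
    have h1 := hz (r + 1) (by omega)
    have h2 := hz (r + 2) (by omega)
    refine ((CR.unp (h.trans e) h1 h2 (le_of_eq e.symm)).seq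
      (CR.clr.seq (CR.mov (by omega) (by simp; omega)))).cast ?_
    funext j
    simp only [update_apply]
    split_ifs <;> first | rfl | omega | simp_all

theorem Good.snd' : Good A (fun x : α × β => x.2) := by
  refine ⟨fun _ _ h => h.2, fun x => enc A x, PB.enc, fun _ x _ => ?_, fun r => ?_⟩
  · have := add_le_pr (enc A x.1) (enc A x.2)
    show enc A x.2 ≤ pr (enc A x.1) (enc A x.2)
    omega
  · refine ⟨.seq (unpP r) (.seq (clr (r + 1)) (mov (r + 2) r)), fun w x _ ρ h hz => ?_⟩
    have hab := add_le_pr (enc A x.1) (enc A x.2)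
    have e : enc A x = pr (enc A x.1) (enc A x.2) := rfl
    beta_reduce
    have h1 := hz (r + 1) (by omega)
    have h2 := hz (r + 2) (by omega)
    refine ((CR.unp (h.trans e) h1 h2 (le_of_eq e.symm)).seq
      (CR.clr.seq (CR.mov (by omega) (by simp; omega)))).cast ?_
    funext j
    simp only [update_apply]
    split_ifs <;> first | rfl | omega | simp_all

@[fun_prop]
theorem Good.fst {f : α → β × γ} (h : Good A f) : Good A (fun a => (f a).1) := Good.fst'.comp h

@[fun_prop]
theorem Good.snd {f : α → β × γ} (h : Good A f) : Good A (fun a => (f a).2) := Good.snd'.comp h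

@[fun_prop]
theorem Good.prodMk {f : α → β} {g : α → γ} (hf : Good A f) (hg : Good A g) :
    Good A (fun a => (f a, g a)) := by
  obtain ⟨ok1, B1, hB1, hb1, hp1⟩ := hf
  obtain ⟨ok2, B2, hB2, hb2, hp2⟩ := hg
  refine ⟨fun w a h => ⟨ok1 w a h, ok2 w a h⟩, fun a => enc A a + B1 a + B2 a + pr (B1 a) (B2 a),
    ((PB.enc.add hB1).add hB2).add (hB1.pr hB2), fun w a h => ?_, fun r => ?_⟩
  · have := pr_mono (hb1 w a h) (hb2 w a h)
    show pr (enc A (f a)) (enc A (g a)) ≤ enc A a + B1 a + B2 a + pr (B1 a) (B2 a)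
    omega
  · obtain ⟨p1, hp1⟩ := hp1 (r + 1)
    obtain ⟨p2, hp2⟩ := hp2 (r + 2)
    refine ⟨.seq (mov2 r (r + 1) (r + 2)) (.seq p2 (.seq (mov (r + 2) r) (.seq p1
      (.seq (mov r (r + 2)) (prP r))))), fun w a ha ρ h hz => ?_⟩
    have h1 := hz (r + 1) (by omega)
    have h2 := hz (r + 2) (by omega)
    have b1 := hb1 w a ha
    have b2 := hb2 w a ha
    have b3 := pr_mono b1 b2
    beta_reduce
    refine ((CR.mov2 (by omega) (by omega) (by omega) (by omega) (by omega)).seq
      ((((hp2 w a ha).mono (by omega)) _ (by simp; omega) ?_).seq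
      ((CR.mov (by omega) (by simp; omega)).seq
      ((((hp1 w a ha).mono (by omega)) _ (by simp; omega) ?_).seq
      ((CR.mov (by omega) (by simp; omega)).seq (CR.pr (by simp) (by simp; omega))))))).cast ?_
    · intro j hj
      have := hz j (by omega)
      simp only [update_apply]
      split_ifs <;> first | rfl | omega
    · intro j hj
      have := hz j (by omega)
      simp only [update_apply]
      split_ifs <;> first | rfl | omega
    · funext j
      simp only [update_apply, enc_prod]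
      split_ifs <;> first | rfl | omega | simp_all

theorem Good.iter {F : β → β} {n : α → ℕ} {x : α → β} (hF : Good A F) (hn : Good A n)
    (hx : Good A x) {B : α → ℕ} (hB : PB A B)
    (hb : ∀ (w : List A) a, ok w a → ∀ i ≤ n a, enc A (F^[i] (x a)) ≤ B a) :
    Good A (fun a => F^[n a] (x a)) := by
  obtain ⟨ok1, B1, hB1, hb1, hp1⟩ := hn.prodMk hx
  obtain ⟨ok2, B2, ⟨c, hc⟩, hb2, hp2⟩ := hF
  have okI : ∀ (w : List A) a, ok w a → ∀ i, ok w (F^[i] (x a)) := by
    intro w a ha i
    induction i with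
    | zero => exact (ok1 w a ha).2
    | succ i ih => rw [iterate_succ_apply']; exact ok2 w _ ih
  refine ⟨fun w a h => okI w a h _, fun a => B1 a + B a + (B a + 2) ^ c,
    (hB1.add hB).add (hB.pow2 c), fun w a h => ?_, fun r => ?_⟩
  · have := hb w a h _ le_rfl
    beta_reduce; omega
  · obtain ⟨p1, hp1⟩ := hp1 r
    obtain ⟨p2, hp2⟩ := hp2 (r + 2)
    refine ⟨.seq p1 (.seq (unpP r) (.seq (cnt (r + 1) p2) (mov (r + 2) r))),
      fun w a ha ρ h hz => ?_⟩
    have h1 := hz (r + 1) (by omega)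
    have h2 := hz (r + 2) (by omega)
    have b1 : pr (n a) (enc A (x a)) ≤ B1 a := hb1 w a ha
    have b2 := hb w a ha _ le_rfl
    beta_reduce
    have hl := CR.cnt (w := w) (N := B1 a + B a + (B a + 2) ^ c) (c := r + 1) (q := p2) (n a)
      (fun i => update (update (update ρ r 0) (r + 1) (n a - i)) (r + 2) (enc A (F^[i] (x a))))
      (by simp) (fun i hi => by
        have e1 := hc w _ (okI w a ha i)
        have e2 : (enc A (F^[i] (x a)) + 2) ^ c ≤ (B a + 2) ^ c :=
          Nat.pow_le_pow_left (by have := hb w a ha i (by omega); omega) _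
        refine (((hp2 w _ (okI w a ha i)).mono (by omega)) _ (by simp) ?_).cast ?_
        · intro j hj
          have := hz j (by omega)
          simp only [update_apply]
          split_ifs <;> first | rfl | omega
        · funext j
          simp only [update_apply, iterate_succ_apply']
          split_ifs <;> rfl)
    refine ((((hp1 w a ha).mono (by omega)) ρ h hz).seq
      ((CR.unp (a := n a) (b := enc A (x a)) (by simp [enc_prod]) (by simp; omega) (by simp; omega)
        (by omega)).seq ((hl.cast' ?_).seq (CR.mov (by omega) (by simp; omega))))).cast ?_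
    · funext j
      simp only [update_apply]
      split_ifs <;> rfl
    · funext j
      simp only [update_apply]
      split_ifs <;> first | rfl | omega | simp_all

/-! Reading the input. -/

open Classical in
noncomputable def rdIs (a : InSym A) (x : Inp A) (i : ℕ) : ℕ :=
  if inSym x.w (min i (x.w.length + 1)) = a then 1 else 0

theorem crun_rewind (w : List A) (N : ℕ) (ρ : ℕ → ℕ) : ∀ pos,
    CRun w N (.loop (.not (.sym .lend)) (.mv .left)) ⟨ρ, pos⟩ ⟨ρ, 0⟩ := by
  intro pos
  induction pos with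
  | zero => exact CRun.loopF (by simp [Test.holds, inSym])
  | succ i ih =>
    refine CRun.loopT ?_ CRun.mv ih
    simp only [Test.holds, inSym]
    cases w[i]? <;> simp

theorem crun_fwd (w : List A) (N r : ℕ) : ∀ (n : ℕ) (ρ : ℕ → ℕ) (pos : ℕ), ρ r = n →
    pos ≤ w.length + 1 →
    CRun w N (cnt r (.mv .right)) ⟨ρ, pos⟩ ⟨update ρ r 0, min (pos + n) (w.length + 1)⟩ := by
  intro n
  induction n with
  | zero =>
    intro ρ pos h hp
    refine (CRun.loopF (by simp [Test.holds, h])).cast ?_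
    rw [← h, update_eq_self]; congr 1; omega
  | succ n ih =>
    intro ρ pos h hp
    refine CRun.loopT (by simp [Test.holds, h]) (CRun.seq CRun.dec CRun.mv) ?_
    refine (ih _ _ (by simp [h]) (by simp [inMove])).cast ?_
    simp only [St.set, update_idem, inMove]
    congr 1; omega

theorem Good.rdIs' (a : InSym A) : Good A (fun x : Inp A × ℕ => rdIs a x.1 x.2) := by
  classical
  obtain ⟨_, B, hB, hb, hp⟩ := Good.snd' (A := A) (α := Inp A) (β := ℕ)
  refine ⟨fun _ _ _ => trivial, fun x => B x + 1, hB.add (PB.const 1), fun w x _ => ?_, fun r => ?_⟩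
  · simp only [rdIs, enc_nat]; split_ifs <;> omega
  · obtain ⟨p, hp⟩ := hp r
    refine ⟨.seq p (.seq (.loop (.not (.sym .lend)) (.mv .left)) (.seq (cnt r (.mv .right))
      (.ite (.sym a) (.inc r) (.mv .stay)))), fun w x hx ρ h hz => ?_⟩
    beta_reduce
    refine (((hp w x hx).mono (by omega)) ρ h hz).seq fun pos => ?_
    have hw : x.1.w = w := hx.1
    have h3 := crun_fwd w (B x + 1) r x.2 (update ρ r (enc A x.2)) 0 (by simp) (by omega)
    by_cases ha : inSym w (min x.2 (w.length + 1)) = a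
    · refine ⟨min (0 + x.2) (w.length + 1),
        (crun_rewind w _ _ pos).seq (h3.seq (CRun.iteT ?_ ((CRun.inc ?_).cast ?_)))⟩
      · simpa [Test.holds] using ha
      · simp
      · simp only [St.set, update_idem, update_self, rdIs, hw, ha, if_true, enc_nat]
    · refine ⟨min (0 + x.2) (w.length + 1),
        (crun_rewind w _ _ pos).seq (h3.seq (CRun.iteF ?_ (CRun.mv.cast ?_)))⟩
      · simpa [Test.holds] using ha
      · simp only [update_idem, rdIs, hw, ha, if_false, enc_nat]
        rfl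

@[fun_prop]
theorem Good.rdIs (a : InSym A) {x : α → Inp A} {i : α → ℕ} (hx : Good A x) (hi : Good A i) :
    Good A (fun y => rdIs a (x y) (i y)) := (Good.rdIs' a).comp (hx.prodMk hi)

end Good

end Vale.Agent.P312
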