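import Vale.Agent.P312.Epoch

/-!
Tables of a machine, soundness and completeness of the search over parameters, the outer loop and
the space bound.
-/

namespace Vale.Agent.P312

open Finset

variable {A : Type}

theorem good_finsum {α ι : Type} [Code A α] (s : Finset ι) {f : ι → α → ℕ}
    (h : ∀ i, Good A (f i)) : Good A (fun a => ∑ i ∈ s, f i a) := by
  classical
  induction s using Finset.induction_on with
  | empty => simpa using Good.const (A := A) (α := α) 0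
  | insert i s hi ih =>
    simp only [sum_insert hi]
    exact (h i).add ih

theorem exists_tab [Fintype A] (M : OneTape A) :
    ∃ (T : Tab A) (cQ : M.Q → ℕ) (cG : M.G → ℕ), Rep M T cQ cG ∧ T.IsGood := by
  classical
  let _ := M.finQ
  let _ := M.finG
  let eQ := Fintype.equivFin M.Q
  let eG := Fintype.equivFin M.G
  let nq := Fintype.card M.Q
  let gb := Fintype.card M.G
  let cQ : M.Q → ℕ := fun q => (eQ q).val
  let cG : M.G → ℕ := fun g => (eG g).val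
  let dQ : ℕ → M.Q := fun n => if h : n < nq then eQ.symm ⟨n, h⟩ else M.start
  let dG : ℕ → M.G := fun n => if h : n < gb then eG.symm ⟨n, h⟩ else M.blank
  have hQ : ∀ q, cQ q < nq := fun q => (eQ q).isLt
  have hG : ∀ g, cG g < gb := fun g => (eG g).isLt
  have dcQ : ∀ q, dQ (cQ q) = q := fun q => by simp [dQ, hQ q, cQ]
  have dcG : ∀ g, dG (cG g) = g := fun g => by simp [dG, hG g, cG]
  have k1 : ∀ q g, cQ q * gb + cG g < nq * gb := fun q g => by
    have := Nat.mul_le_mul_right gb (show cQ q + 1 ≤ nq from hQ q)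
    have := hG g
    rw [add_mul] at *; omega
  have k2 : ∀ q g, (cQ q * gb + cG g) / gb = cQ q := fun q g => by
    have := hG g
    rw [mul_comm, Nat.mul_add_div (by omega), Nat.div_eq_of_lt this, add_zero]
  have k3 : ∀ q g, (cQ q * gb + cG g) % gb = cG g := fun q g => by
    rw [mul_comm, Nat.mul_add_mod, Nat.mod_eq_of_lt (hG g)]
  refine ⟨⟨nq, gb, cQ M.start, cG M.blank,
    fun x => if x < nq * gb then cQ (M.trans (dQ (x / gb)) (dG (x % gb))).1 else 0,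
    fun x => if x < nq * gb then cG (M.trans (dQ (x / gb)) (dG (x % gb))).2.1 else 0,
    fun x => if x < nq * gb then (M.trans (dQ (x / gb)) (dG (x % gb))).2.2.code else 0,
    fun x => if x < nq then (if dQ x = M.acc then 1 else if dQ x = M.rej then 2 else 0) else 0,
    fun w i => cG (((w.w[i]?).map M.inp).getD M.blank)⟩, cQ, cG,
    ⟨hQ, hG, rfl, rfl, ?_, ?_, ?_, ?_, ?_, ?_, fun _ _ => rfl⟩,
    ⟨Good.table _ _, Good.table _ _, Good.table _ _, Good.table _ _, ?_⟩⟩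
  · intro q g; simp only [k1, k2, k3, dcQ, dcG, if_true]
  · intro q g; simp only [k1, k2, k3, dcQ, dcG, if_true]
  · intro q g; simp only [k1, k2, k3, dcQ, dcG, if_true]
  · simp only [hQ, dcQ, if_true]
  · simp only [hQ, dcQ, if_true, M.acc_ne.symm, if_false]
  · intro q h1 h2; simp only [hQ, dcQ, if_true, h1, h2, if_false]
  · refine Good.congr (f := fun x : Inp A × ℕ =>
      ∑ a : A, rdIs (.sym a) x.1 (x.2 + 1) * cG (M.inp a) +
        rdIs .rend x.1 (x.2 + 1) * cG M.blank)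
      (Good.add (good_finsum _ fun a => by fun_prop) (by fun_prop)) fun x => ?_
    obtain ⟨⟨w⟩, i⟩ := x
    simp only [rdIs, Nat.succ_min_succ, inSym]
    by_cases hi : i < w.length
    · rw [min_eq_left hi.le, List.getElem?_eq_getElem hi]
      simp
    · rw [min_eq_right (by omega), List.getElem?_eq_none (by omega),
        List.getElem?_eq_none (by omega)]
      simp

section
variable {M : OneTape A} {T : Tab A} {cQ : M.Q → ℕ} {cG : M.G → ℕ} (R : Rep M T cQ cG)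
  {w : List A} {t : ℕ} (ht : M.HaltsAt w t)

include R ht in
theorem res1_sound (P : Par) :
    T.res1 ⟨w⟩ P = 0 ∨ T.res1 ⟨w⟩ P = T.tH (cQ (M.run w t).q) := by
  by_cases h : T.Valid P
  · obtain ⟨τ, -, h2, -, h4, -⟩ := inv_CRs R w h P.m le_rfl
    rw [res1_eq R w h, h2, recAt_mod R]
    by_cases hH : M.Halted w τ
    · right
      have : τ = t := by
        rcases lt_trichotomy τ t with h' | h' | h'
        · exact absurd hH (ht.2 τ h')
        · exact h'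
        · exact absurd ht.1 (h4 t h')
      rw [this]
    · left; exact (tH_zero_iff R w τ).mpr hH
  · left
    rw [Tab.res1, if_neg (fun h' => h ((T.bad_eq_zero P).mp h'))]

include R ht in
theorem res1_complete {P : Par} (h : T.Valid P) (h1 : t ≤ P.tm)
    (h2 : cross M w P.Z P.b t < P.m) : T.res1 ⟨w⟩ P = T.tH (cQ (M.run w t).q) := by
  obtain ⟨τ, -, g2, -, g4, g5⟩ := inv_CRs R w h P.m le_rfl
  have hle : τ ≤ t := by
    by_contra hc
    exact g4 t (by omega) ht.1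
  have : τ = t := by
    rcases g5 with g5 | g5 | g5
    · by_contra hc
      exact ht.2 τ (by omega) g5
    · have := cross_mono M w P.Z P.b hle
      omega
    · omega
  rw [res1_eq R w h, g2, recAt_mod R, this]

include R ht in
theorem ans_cases : (T.tH (cQ (M.run w t).q) = 1 ∧ (M.run w t).q = M.acc) ∨
    (T.tH (cQ (M.run w t).q) = 2 ∧ (M.run w t).q ≠ M.acc) := by
  rcases ht.1 with h | h
  · left; rw [h]; exact ⟨R.tH1, rfl⟩
  · right; rw [h]; exact ⟨R.tH2, M.acc_ne.symm⟩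

include R ht in
theorem res_spec (N : ℕ) : (T.res ⟨w⟩ N = 0 ∨ T.res ⟨w⟩ N = T.tH (cQ (M.run w t).q)) ∧
    ∀ a < N, ∀ ρ < N, ∀ p < N, ∀ o < N, T.res1 ⟨w⟩ (N, a, ρ, p, o) ≤ T.res ⟨w⟩ N := by
  have hc : T.tH (cQ (M.run w t).q) ≤ 2 := by have := ans_cases R ht; omega
  have s4 := fun a ρ p => bmax_spec (n := N) hc
    (fun o _ => res1_sound R ht (N, a, ρ, p, o))
  have s3 := fun a ρ => bmax_spec (n := N) hc (fun p _ => (s4 a ρ p).1)
  have s2 := fun a => bmax_spec (n := N) hc (fun ρ _ => (s3 a ρ).1)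
  have s1 := bmax_spec (n := N) hc (fun a _ => (s2 a).1)
  exact ⟨s1.1, fun a ha ρ hρ p hp o ho => ((s4 a ρ p).2 o ho).trans (((s3 a ρ).2 p hp).trans
    (((s2 a).2 ρ hρ).trans (s1.2 a ha)))⟩

end

/-- The unbounded search over `N`. -/
theorem exists_outer {f : Inp A × ℕ → ℕ} (hf : Good A f) : ∃ (M : MultiTape A) (c : ℕ),
    ∀ (w : List A) (N₀ : ℕ), 1 ≤ N₀ → f (⟨w⟩, N₀) ≠ 0 → ∃ N τ, f (⟨w⟩, N) ≠ 0 ∧ M.HaltsAt w τ ∧
      ((M.run w τ).q = M.acc ↔ f (⟨w⟩, N) % 2 = 1) ∧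
      M.cells w τ ≤ M.k * (Nat.log 2 ((N₀ + 2) ^ c + 1) + 1) := by
  obtain ⟨-, B1, hB1, -, hp1⟩ : Good A (fun N : ℕ => ((0 : ℕ), N)) := by fun_prop
  obtain ⟨-, B2, ⟨c2, hB2⟩, -, hp2⟩ := hf
  obtain ⟨p1, hp1⟩ := hp1 1
  obtain ⟨p2, hp2⟩ := hp2 1
  obtain ⟨c, hc⟩ : PB A (fun N : ℕ => B1 N + (pr 0 N + 2) ^ c2 + N) :=
    (hB1.add (((PB.const 0).pr PB.enc).pow2 c2)).add PB.enc
  let body : CProg A := .seq (.inc 0) (.seq (mov2 0 1 2) (.seq (mov 2 0) (.seq p1 p2)))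
  obtain ⟨M, hM⟩ := exists_cmachine (.loop (.zero 1) body) (.odd 1)
  refine ⟨M, c, fun w N₀ h1 h0 => ?_⟩
  let st : ℕ → ℕ → ℕ → ℕ := fun n y j => if j = 0 then n else if j = 1 then y else 0
  have hbody : ∀ n, n + 1 ≤ N₀ →
      CR w ((N₀ + 2) ^ c) body (st n 0) (st (n + 1) (f (⟨w⟩, n + 1))) := by
    intro n hn
    have e1 := hc w (n + 1) trivial
    have e2 : (n + 1 + 2) ^ c ≤ (N₀ + 2) ^ c := Nat.pow_le_pow_left (by omega) _
    have e3 := hB2 w (⟨w⟩, n + 1) ⟨rfl, trivial⟩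
    simp only [enc_nat] at e1
    have e4 : enc A ((⟨w⟩ : Inp A), n + 1) = pr 0 (n + 1) := rfl
    rw [e4] at e3
    have d := ((hp1 w (n + 1) trivial).mono (N' := (N₀ + 2) ^ c) (by omega)).seq
      ((hp2 w (⟨w⟩, n + 1) ⟨rfl, trivial⟩).mono (N' := (N₀ + 2) ^ c) (by omega))
    refine ((CR.inc (by simp [st]; omega)).seq ((CR.mov2 (by omega) (by omega) (by omega)
      (by simp [st]; omega) (by simp [st]; omega)).seq ((CR.mov (by omega)
      (by simp [st]; omega)).seq (d _ (by simp [st]) ?_)))).cast ?_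
    · intro j hj
      simp only [Function.update_apply, st]
      split_ifs <;> first | rfl | omega
    · funext j
      simp only [Function.update_apply, st, enc_nat]
      split_ifs <;> first | rfl | omega | simp_all
  have key : ∀ d n pos, n + d + 1 = N₀ → ∃ N pos', f (⟨w⟩, N) ≠ 0 ∧
      CRun w ((N₀ + 2) ^ c) (.loop (.zero 1) body) ⟨st n 0, pos⟩ ⟨st N (f (⟨w⟩, N)), pos'⟩ := by
    intro d
    induction d with
    | zero =>
      intro n pos hn
      obtain ⟨pos', h⟩ := hbody n (by omega) pos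
      rw [show n + 1 = N₀ by omega] at h
      exact ⟨N₀, pos', h0, CRun.loopT (by simp [Test.holds, st]) h
        (CRun.loopF (by simpa [Test.holds, st] using h0))⟩
    | succ d ih =>
      intro n pos hn
      obtain ⟨pos', h⟩ := hbody n (by omega) pos
      by_cases hz : f (⟨w⟩, n + 1) = 0
      · rw [hz] at h
        obtain ⟨N, pos'', g1, g2⟩ := ih (n + 1) pos' (by omega)
        exact ⟨N, pos'', g1, CRun.loopT (by simp [Test.holds, st]) h g2⟩
      · exact ⟨n + 1, pos', hz, CRun.loopT (by simp [Test.holds, st]) h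
          (CRun.loopF (by simpa [Test.holds, st] using hz))⟩
  obtain ⟨N, pos', g1, g2⟩ := key (N₀ - 1) 0 0 (by omega)
  have e : (⟨st 0 0, 0⟩ : St) = St.zero := by
    simp only [St.zero, St.mk.injEq, and_true]
    funext j; simp [st]
  rw [e] at g2
  obtain ⟨τ, a, b, d⟩ := hM w _ _ g2
  exact ⟨N, τ, g1, a, by simpa [Test.holds, st] using b, d⟩

theorem exists_params (T : Tab A) : ∃ C : ℕ, ∀ a ℓ : ℕ, 1 ≤ a → 1 ≤ ℓ → ℓ ≤ a → a ≤ 2 ^ ℓ →
    ∃ e ρ p : ℕ, e ≤ C * (a * a * (ℓ * ℓ)) ∧ a < 2 ^ e ∧ ρ < 2 ^ e ∧ p < 2 ^ e ∧ a * a < 2 ^ e ∧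
      ∀ o < a * a, T.Valid (2 ^ e, a, ρ, p, o) := by
  obtain ⟨c1, hc1⟩ : ∃ c1, 7 * T.nq ≤ 2 ^ c1 := ⟨7 * T.nq, Nat.lt_two_pow_self.le⟩
  obtain ⟨k, hk⟩ : ∃ k, k = T.gb + 3 * (c1 + 10) + 1 := ⟨_, rfl⟩
  obtain ⟨c3, hc3⟩ : ∃ c3, 8 * k + 7 * T.nq ≤ 2 ^ c3 := ⟨_, Nat.lt_two_pow_self.le⟩
  refine ⟨(c3 + 10) * (2 * T.gb + 3 * (c1 + 10) + 15), fun a ℓ ha hl1 hl2 hl3 => ?_⟩
  obtain ⟨ρ, hρ⟩ : ∃ ρ, ρ = c1 + 10 * ℓ := ⟨_, rfl⟩
  obtain ⟨d, hd⟩ : ∃ d, d = T.gb * (a * a) + (a + 1) * (a * ρ) + a * (a * (a * ρ)) + 1 := ⟨_, rfl⟩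
  obtain ⟨p, hp, hp1, hp2⟩ := Nat.exists_prime_lt_and_le_two_mul d (by omega)
  obtain ⟨lam, hlam⟩ : ∃ lam, lam = c3 + 10 * ℓ := ⟨_, rfl⟩
  obtain ⟨E, hE⟩ : ∃ E, E = 2 * (T.gb * (a * a)) + (a + 2) * (a * ρ) +
    ((a + 1) * (2 * a + 5) + 1) := ⟨_, rfl⟩
  have hρ1 : ρ ≤ (c1 + 10) * ℓ := by
    have := Nat.mul_le_mul_left c1 hl1
    rw [hρ, add_mul]; omega
  have hρ2 : ρ ≤ (c1 + 10) * a := hρ1.trans (Nat.mul_le_mul_left _ hl2)
  have hρ0 : 1 ≤ ρ := by omega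
  have pw : ∀ i j, i ≤ j → a ^ i ≤ a ^ j := fun i j h => Nat.pow_le_pow_right ha h
  have a10 : a ^ 10 ≤ 2 ^ (10 * ℓ) := by
    rw [mul_comm, pow_mul]; exact Nat.pow_le_pow_left hl3 _
  have hdk : d ≤ k * a ^ 4 := by
    have h1 : T.gb * (a * a) ≤ T.gb * a ^ 4 :=
      Nat.mul_le_mul_left _ (by rw [← sq]; exact pw 2 4 (by omega))
    have h2 : (a + 1) * (a * ρ) ≤ 2 * (c1 + 10) * a ^ 4 := by
      calc (a + 1) * (a * ρ) ≤ (2 * a) * (a * ((c1 + 10) * a)) :=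
            Nat.mul_le_mul (by omega) (Nat.mul_le_mul_left _ hρ2)
        _ = 2 * (c1 + 10) * a ^ 3 := by ring
        _ ≤ _ := Nat.mul_le_mul_left _ (pw 3 4 (by omega))
    have h3 : a * (a * (a * ρ)) ≤ (c1 + 10) * a ^ 4 := by
      calc a * (a * (a * ρ)) ≤ a * (a * (a * ((c1 + 10) * a))) :=
            Nat.mul_le_mul_left _ (Nat.mul_le_mul_left _ (Nat.mul_le_mul_left _ hρ2))
        _ = _ := by ring
    have h4 : 1 ≤ a ^ 4 := Nat.one_le_pow _ _ ha
    rw [mul_assoc] at h2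
    rw [hd, hk, add_mul (T.gb + 3 * (c1 + 10)), add_mul T.gb, mul_assoc 3]; omega
  have hB : ∀ o < a * a, T.B (2 ^ (lam * E), a, ρ, p, o) ≤ 7 * T.nq * a ^ 10 := by
    intro o ho
    have h1 : a * a * ((a + 1) * a * a * (a * a * a * a * a)) ≤ 2 * a ^ 10 := by
      calc _ = (a + 1) * a ^ 9 := by ring
        _ ≤ (2 * a) * a ^ 9 := Nat.mul_le_mul_right _ (by omega)
        _ = _ := by ring
    have h2 : a * a ≤ a ^ 10 := by rw [← sq]; exact pw 2 10 (by omega)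
    show (2 * (a * a * ((a + 1) * a * a * (a * a * a * a * a)) + o) + 1) * T.nq ≤ _
    calc _ ≤ (7 * a ^ 10) * T.nq := Nat.mul_le_mul_right _ (by omega)
      _ = _ := by ring
  have hpa : p * (a + 3) ≤ 8 * k * a ^ 10 := by
    calc p * (a + 3) ≤ (2 * (k * a ^ 4)) * (4 * a) := Nat.mul_le_mul (by omega) (by omega)
      _ = 8 * k * a ^ 5 := by ring
      _ ≤ _ := Nat.mul_le_mul_left _ (pw 5 10 (by omega))
  have hL : ∀ o < a * a, T.L (2 ^ (lam * E), a, ρ, p, o) ≤ 2 ^ lam := by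
    intro o ho
    have := hB o ho
    show p * (a + 3) + T.B (2 ^ (lam * E), a, ρ, p, o) ≤ _
    calc _ ≤ (8 * k + 7 * T.nq) * a ^ 10 := by rw [add_mul]; omega
      _ ≤ 2 ^ c3 * 2 ^ (10 * ℓ) := Nat.mul_le_mul hc3 a10
      _ = _ := by rw [hlam, pow_add]
  have hplam : p * 4 ≤ 2 ^ lam := by
    have h1 := hL 0 (by positivity)
    have h2 : p * 4 ≤ p * (a + 3) := Nat.mul_le_mul_left _ (by omega)
    have h3 : p * (a + 3) ≤ T.L (2 ^ (lam * E), a, ρ, p, 0) := Nat.le_add_right _ _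
    omega
  have hE1 : 1 ≤ E := by omega
  have hlam1 : 1 ≤ lam := by omega
  have hpow : ∀ x n, x ≤ 2 ^ lam → n ≤ E → x ^ n ≤ 2 ^ (lam * E) := by
    intro x n hx hn
    calc x ^ n ≤ (2 ^ lam) ^ n := Nat.pow_le_pow_left hx _
      _ ≤ (2 ^ lam) ^ E := Nat.pow_le_pow_right (by positivity) hn
      _ = _ := by rw [← pow_mul]
  have hpN : p < 2 ^ (lam * E) := by
    have := hpow (p * 4) 1 hplam hE1
    rw [pow_one] at this
    have := hp.pos
    omega
  have q1 : a * 1 ≤ a * ρ := Nat.mul_le_mul_left _ hρ0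
  have q2 : 1 * ρ ≤ a * ρ := Nat.mul_le_mul_right _ ha
  have q3 : 1 * (a * ρ) ≤ (a + 1) * (a * ρ) := Nat.mul_le_mul_right _ (by omega)
  have q4 : a * a ≤ (a + 1) * (a * ρ) := Nat.mul_le_mul (by omega) (by omega)
  refine ⟨lam * E, ρ, p, ?_, by omega, by omega, hpN, by omega, fun o ho => ?_⟩
  · have h1 : lam ≤ (c3 + 10) * ℓ := by
      have := Nat.mul_le_mul_left c3 hl1
      rw [hlam, add_mul]; omega
    have h2 : E ≤ (2 * T.gb + 3 * (c1 + 10) + 15) * (a * a * ℓ) := by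
      have g0 : a * a * 1 ≤ a * a * ℓ := Nat.mul_le_mul_left _ hl1
      have g1 : T.gb * (a * a) ≤ T.gb * (a * a * ℓ) := Nat.mul_le_mul_left _ (by omega)
      have g2 : (a + 2) * (a * ρ) ≤ 3 * (c1 + 10) * (a * a * ℓ) := by
        calc (a + 2) * (a * ρ) ≤ (3 * a) * (a * ((c1 + 10) * ℓ)) :=
              Nat.mul_le_mul (by omega) (Nat.mul_le_mul_left _ hρ1)
          _ = _ := by ring
      have g4 : a * 1 ≤ a * a := Nat.mul_le_mul_left _ ha
      have g3 : (a + 1) * (2 * a + 5) + 1 ≤ 15 * (a * a) := by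
        rw [show (a + 1) * (2 * a + 5) + 1 = 2 * (a * a) + 7 * a + 6 by ring]; omega
      rw [hE, add_mul (2 * T.gb + 3 * (c1 + 10)), add_mul (2 * T.gb), mul_assoc 2 T.gb]; omega
    calc lam * E ≤ ((c3 + 10) * ℓ) * ((2 * T.gb + 3 * (c1 + 10) + 15) * (a * a * ℓ)) :=
          Nat.mul_le_mul h1 h2
      _ = _ := by ring
  · have h2lam : 2 ≤ 2 ^ lam := by have := hp.pos; omega
    have q5 : (a + 1) * (a * ρ) ≤ (a + 2) * (a * ρ) := Nat.mul_le_mul_right _ (by omega)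
    refine ⟨ha, hρ0, hp, ?_, ?_, ?_, ?_, ?_, ?_, ?_⟩
    · show T.gb * (a * a) + (a + 1) * (a * ρ) ≤ p - 1
      omega
    · show a * (a * (a * ρ)) ≤ p - 1
      omega
    · exact hpow 2 (T.gb * (a * a) + (a + 1) * (a * ρ)) h2lam (by omega)
    · refine (hB o ho).trans ?_
      show _ ≤ 2 ^ ρ
      rw [hρ, pow_add]
      exact Nat.mul_le_mul hc1 a10
    · exact hpow p (2 * (T.gb * (a * a))) (by omega) (by omega)
    · exact hpow p ((a + 2) * (a * ρ)) (by omega) (by omega)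
    · exact hpow _ ((a + 1) * (2 * a + 5) + 1) (hL o ho) (by omega)

theorem main_nat [Fintype A] (M : OneTape A) : ∃ (M' : MultiTape A) (C : ℕ),
    ∀ (w : List A) (t a : ℕ), M.HaltsAt w t → 1 ≤ a → t ≤ a ^ 5 → ∃ τ, M'.HaltsAt w τ ∧
      ((M'.run w τ).q = M'.acc ↔ (M.run w t).q = M.acc) ∧
      M'.cells w τ ≤ C * (a * a * ((Nat.log 2 a + 1) * (Nat.log 2 a + 1))) := by
  obtain ⟨T, cQ, cG, R, hT⟩ := exists_tab M
  obtain ⟨M', c, hM'⟩ := exists_outer (good_res (T := T))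
  obtain ⟨C, hC⟩ := exists_params T
  refine ⟨M', M'.k * (c * (C + 2) + 2), fun w t a ht ha hta => ?_⟩
  have hl2 : Nat.log 2 a + 1 ≤ a := by
    have := Nat.pow_log_le_self 2 (show a ≠ 0 by omega)
    have := Nat.lt_two_pow_self (n := Nat.log 2 a)
    omega
  obtain ⟨e, ρ, p, he, h1, h2, h3, h4, hV⟩ := hC a (Nat.log 2 a + 1) ha (by omega) hl2
    (Nat.lt_pow_succ_log_self (by norm_num) a).le
  have ha5 : a ^ 5 = a * a * a * a * a := by ring
  have hb : 0 < a * a := by positivity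
  obtain ⟨o, ho, hcr⟩ := exists_offset M w (a * a * ((a + 1) * a * a * (a * a * a * a * a)))
    (a * a) t hb (by
      have : 1 * (1 * (a * a * a * a * a)) ≤ a * a * ((a + 1) * a * a * (a * a * a * a * a)) :=
        Nat.mul_le_mul hb (Nat.mul_le_mul_right _ (Nat.succ_le_of_lt (by positivity)))
      omega)
  have hcomp := res1_complete R ht (hV o ho) (show t ≤ a * a * a * a * a by omega) (by
    show cross M w (a * a * ((a + 1) * a * a * (a * a * a * a * a)) + o) (a * a) t <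
      (a + 1) * a * a
    by_contra hcon
    have := Nat.mul_le_mul_right (a * a) (not_lt.mp hcon)
    have h5 : (a + 1) * a * a * (a * a) = a * a * a * a * a + a * a * (a * a) := by ring
    have h6 : 0 < a * a * (a * a) := by positivity
    omega)
  have hans := ans_cases R ht
  have hle := (res_spec R ht (2 ^ e)).2 a h1 ρ h2 p h3 o (by omega)
  obtain ⟨N, τ, g1, g2, g3, g4⟩ := hM' w (2 ^ e) Nat.one_le_two_pow (by dsimp only; omega)
  have hN := (res_spec R ht N).1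
  dsimp only at g1 g3
  refine ⟨τ, g2, ?_, g4.trans ?_⟩
  · rw [g3]
    rcases hans with ⟨h5, h6⟩ | ⟨h5, h6⟩
    · simp only [h6, iff_true]; omega
    · simp only [h6, iff_false]; omega
  · rw [mul_assoc]
    apply Nat.mul_le_mul_left
    have k1 : (2 ^ e + 2) ^ c + 1 < 2 ^ ((e + 2) * c + 2) := by
      have : 2 ^ e + 2 ≤ 2 ^ (e + 2) := by
        have : 1 ≤ 2 ^ e := Nat.one_le_two_pow
        rw [pow_add]; omega
      have h7 : (2 ^ e + 2) ^ c ≤ 2 ^ ((e + 2) * c) := by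
        rw [pow_mul]; exact Nat.pow_le_pow_left this _
      have : 1 ≤ 2 ^ ((e + 2) * c) := Nat.one_le_two_pow
      rw [pow_add]; omega
    have k2 := Nat.log_lt_of_lt_pow (by omega) k1
    have hS : 1 ≤ a * a * ((Nat.log 2 a + 1) * (Nat.log 2 a + 1)) :=
      Nat.succ_le_of_lt (by positivity)
    generalize a * a * ((Nat.log 2 a + 1) * (Nat.log 2 a + 1)) = S at he hS ⊢
    have k3 : (e + 2) * c ≤ ((C + 2) * S) * c := Nat.mul_le_mul_right _ (by rw [add_mul]; omega)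
    rw [add_mul (c * (C + 2)), show c * (C + 2) * S = (C + 2) * S * c by ring]
    omega

theorem exists_root (t : ℕ) (ht : 2 ≤ t) : ∃ a : ℕ, 1 ≤ a ∧ t ≤ a ^ 5 ∧
    ((a * a * ((Nat.log 2 a + 1) * (Nat.log 2 a + 1)) : ℕ) : ℝ) ≤
      36 * ((t : ℝ) ^ (2 / 5 : ℝ) * Real.log t ^ 2) := by
  classical
  have hex : ∃ a : ℕ, t ≤ a ^ 5 := ⟨t, Nat.le_self_pow (by omega) _⟩
  have h1 := Nat.find_spec hex
  have h2 : Nat.find hex ≤ t := Nat.find_min' hex (Nat.le_self_pow (by omega) _)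
  have h3 : 1 ≤ Nat.find hex := by
    by_contra hc
    rw [show Nat.find hex = 0 by omega] at h1
    simp at h1; omega
  have h4 := Nat.find_min hex (show Nat.find hex - 1 < Nat.find hex by omega)
  generalize Nat.find hex = a at h1 h2 h3 h4
  refine ⟨a, h3, h1, ?_⟩
  have ht0 : (0 : ℝ) ≤ t := by positivity
  have ht2 : (2 : ℝ) ≤ t := by exact_mod_cast ht
  have r1 : (1 : ℝ) ≤ (t : ℝ) ^ (1 / 5 : ℝ) := Real.one_le_rpow (by linarith) (by norm_num)
  have r5 : ((t : ℝ) ^ (1 / 5 : ℝ)) ^ 5 = t := by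
    rw [← Real.rpow_natCast, ← Real.rpow_mul ht0]; norm_num
  have r2 : ((t : ℝ) ^ (1 / 5 : ℝ)) ^ 2 = (t : ℝ) ^ (2 / 5 : ℝ) := by
    rw [← Real.rpow_natCast, ← Real.rpow_mul ht0]; norm_num
  have ha1 : ((a - 1 : ℕ) : ℝ) ≤ (t : ℝ) ^ (1 / 5 : ℝ) := by
    apply le_of_lt
    apply lt_of_pow_lt_pow_left₀ 5 (by linarith)
    rw [r5]; exact_mod_cast not_le.mp h4
  rw [Nat.cast_sub h3, Nat.cast_one] at ha1
  have ha2 : (a : ℝ) ≤ 2 * (t : ℝ) ^ (1 / 5 : ℝ) := by linarith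
  have hlog2 : (0.69 : ℝ) < Real.log 2 := by have := Real.log_two_gt_d9; linarith
  have hlt : Real.log 2 ≤ Real.log t := Real.log_le_log (by norm_num) ht2
  have hl : ((Nat.log 2 a : ℕ) : ℝ) * Real.log 2 ≤ Real.log t := by
    rw [← Real.log_pow]
    apply Real.log_le_log (by positivity)
    exact_mod_cast (Nat.pow_log_le_self 2 (show a ≠ 0 by omega)).trans h2
  have hl0 : (0 : ℝ) ≤ (Nat.log 2 a : ℕ) := by positivity
  have hl3 : ((Nat.log 2 a : ℕ) : ℝ) + 1 ≤ 3 * Real.log t := by nlinarith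
  push_cast
  have e1 : (a : ℝ) * a ≤ 4 * (t : ℝ) ^ (2 / 5 : ℝ) := by
    rw [← r2]; nlinarith [show (0 : ℝ) ≤ a by positivity]
  have e2 : (((Nat.log 2 a : ℕ) : ℝ) + 1) * ((Nat.log 2 a : ℕ) + 1) ≤ 9 * Real.log t ^ 2 := by
    nlinarith
  calc _ ≤ (4 * (t : ℝ) ^ (2 / 5 : ℝ)) * (9 * Real.log t ^ 2) :=
        mul_le_mul e1 e2 (by positivity) (by positivity)
    _ = _ := by ring

theorem time1_subset_space (A : Type) [Fintype A] (t : ℕ → ℕ) (ht : ∀ n, n ≤ t n) (s : ℕ → ℝ)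
    (K : ℝ) (hs : ∀ n, 2 ≤ n → (t n : ℝ) ^ (2 / 5 : ℝ) * Real.log (t n) ^ 2 ≤ K * s n) :
    TIME1 A t ⊆ SPACE A s := by
  rintro L ⟨M, hM⟩
  obtain ⟨M', C, hM'⟩ := main_nat M
  refine ⟨M', C * 36 * K, 2, fun w => ?_⟩
  obtain ⟨τ, h1, h2, h3⟩ := hM w
  obtain ⟨a, ha1, ha2, ha3⟩ := exists_root (max (t w.length) 2) (le_max_right _ _)
  obtain ⟨τ', g1, g2, g3⟩ := hM' w τ a h2 ha1 (h1.trans ((le_max_left _ _).trans ha2))
  refine ⟨τ', g1, g2.trans h3, fun hn => ?_⟩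
  rw [max_eq_left (hn.trans (ht _))] at ha3
  calc (M'.cells w τ' : ℝ) ≤ C * ((a * a * ((Nat.log 2 a + 1) * (Nat.log 2 a + 1)) : ℕ) : ℝ) := by
        exact_mod_cast g3
    _ ≤ C * (36 * (K * s w.length)) := by
        apply mul_le_mul_of_nonneg_left _ (by positivity)
        have := hs _ hn
        linarith
    _ = _ := by ring

theorem time1_subset_space_pow (A : Type) [Fintype A] (t : ℕ → ℕ) (ht : ∀ n, n ≤ t n) (e : ℝ)
    (he : 2 / 5 < e) : TIME1 A t ⊆ SPACE A (fun n => (t n : ℝ) ^ e) := by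
  obtain ⟨η, hη⟩ : ∃ η, η = (e - 2 / 5) / 2 := ⟨_, rfl⟩
  have hη0 : 0 < η := by linarith
  refine time1_subset_space A t ht _ (1 / η ^ 2) fun n hn => ?_
  have h2 : (2 : ℝ) ≤ t n := by exact_mod_cast hn.trans (ht n)
  have h0 : (0 : ℝ) < t n := by linarith
  have h1 := Real.log_le_rpow_div h0.le hη0
  have h3 : 0 ≤ Real.log (t n) := Real.log_nonneg (by linarith)
  have h4 : Real.log (t n) ^ 2 ≤ ((t n : ℝ) ^ η / η) ^ 2 := pow_le_pow_left₀ h3 h1 2
  have h5 : (t n : ℝ) ^ e = (t n : ℝ) ^ (2 / 5 : ℝ) * ((t n : ℝ) ^ η) ^ 2 := by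
    rw [sq, ← Real.rpow_add h0, ← Real.rpow_add h0]; congr 1; linarith
  rw [h5]
  calc _ ≤ (t n : ℝ) ^ (2 / 5 : ℝ) * ((t n : ℝ) ^ η / η) ^ 2 :=
        mul_le_mul_of_nonneg_left h4 (by positivity)
    _ = _ := by field_simp

end Vale.Agent.P312
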