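import Vale.Agent.P312.Alg

/-!
Digits, and the meaning of the numeric building blocks of the algorithm.
-/

namespace Vale.Agent.P312

open Finset

theorem dig_lt {B : ℕ} (hB : 0 < B) (x l : ℕ) : dig B x l < B := Nat.mod_lt _ hB

theorem dig_zero' {B x y : ℕ} (hy : y < B) : dig B (x * B + y) 0 = y := by
  simp [dig, shr, Nat.mod_eq_of_lt hy]

theorem dig_succ (B x l : ℕ) : dig B x (l + 1) = dig B (x / B) l := by
  simp [dig, shr, pow_succ', Nat.div_div_eq_div_mul]

theorem dig_succ' {B x y : ℕ} (hy : y < B) (l : ℕ) : dig B (x * B + y) (l + 1) = dig B x l := by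
  rw [dig_succ, mul_comm, Nat.mul_add_div (by omega), Nat.div_eq_of_lt hy, add_zero]

theorem dig_two (x l : ℕ) : dig 2 x l = if x.testBit l then 1 else 0 := by
  unfold dig shr
  rw [Nat.testBit_eq_decide_div_mod_eq]
  have := Nat.mod_lt (x / 2 ^ l) (show 0 < 2 by norm_num)
  split_ifs with h
  · simpa using h
  · have : ¬ x / 2 ^ l % 2 = 1 := by simpa using h
    omega

theorem dig_low {B d i r l : ℕ} (hl : l < d) : dig B (i * B ^ d + r) l = dig B r l := by
  rcases Nat.eq_zero_or_pos B with rfl | hB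
  · simp [show d ≠ 0 by omega]
  obtain ⟨e, rfl⟩ := Nat.exists_eq_add_of_lt hl
  unfold dig shr
  rw [show i * B ^ (l + e + 1) + r = B ^ l * (B * (i * B ^ e)) + r by ring,
    Nat.mul_add_div (by positivity), Nat.mul_add_mod]

theorem dig_top {B d i r : ℕ} (hr : r < B ^ d) (hi : i < B) : dig B (i * B ^ d + r) d = i := by
  unfold dig shr
  rw [mul_comm, Nat.mul_add_div (by omega), Nat.div_eq_of_lt hr, add_zero, Nat.mod_eq_of_lt hi]

theorem eq_of_dig {B : ℕ} : ∀ (n x y : ℕ), x < B ^ n → y < B ^ n →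
    (∀ l < n, dig B x l = dig B y l) → x = y := by
  intro n
  induction n with
  | zero => intro x y hx hy _; simp at hx hy; omega
  | succ n ih =>
    intro x y hx hy h
    have hB : 0 < B := by
      rcases Nat.eq_zero_or_pos B with rfl | hB
      · simp at hx
      · exact hB
    have h0 := h 0 (by omega)
    simp only [dig, shr, pow_zero, Nat.div_one] at h0
    have h1 := ih (x / B) (y / B) (Nat.div_lt_of_lt_mul (by rwa [← pow_succ']))
      (Nat.div_lt_of_lt_mul (by rwa [← pow_succ'])) (fun l hl => by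
        rw [← dig_succ, ← dig_succ]; exact h _ (by omega))
    rw [← Nat.div_add_mod x B, ← Nat.div_add_mod y B, h0, h1]

theorem build_spec {N B n : ℕ} {f : ℕ → ℕ} (hf : ∀ l < n, f l < B) (hN : B ^ n ≤ N + 1) :
    build N B n f < B ^ n ∧ ∀ l < n, dig B (build N B n f) l = f l := by
  have key : ∀ k ≤ n, lp k 0 (fun i acc => acc * B + f (n - 1 - i)) < B ^ k ∧
      ∀ l < k, dig B (lp k 0 (fun i acc => acc * B + f (n - 1 - i))) l = f (n - k + l) := by
    intro k
    induction k with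
    | zero => intro _; simp
    | succ k ih =>
      intro hk
      obtain ⟨h1, h2⟩ := ih (by omega)
      have h3 := hf (n - 1 - k) (by omega)
      rw [lp_succ]
      constructor
      · calc _ < lp k 0 (fun i acc => acc * B + f (n - 1 - i)) * B + B := by omega
          _ = (lp k 0 (fun i acc => acc * B + f (n - 1 - i)) + 1) * B := by ring
          _ ≤ B ^ k * B := Nat.mul_le_mul_right _ h1
          _ = _ := by rw [pow_succ]
      · intro l hl
        rcases l with _ | l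
        · rw [dig_zero' h3]; congr 1; omega
        · rw [dig_succ' h3, h2 l (by omega)]; congr 1; omega
  have e : build N B n f = lp n 0 (fun i acc => acc * B + f (n - 1 - i)) := by
    apply loop_eq_lp
    intro i hi
    apply clamp_of_le
    have h1 := (key (i + 1) hi).1
    have hB : 0 < B := lt_of_le_of_lt (Nat.zero_le _) (hf i hi)
    have h2 : B ^ (i + 1) ≤ B ^ n := Nat.pow_le_pow_right hB hi
    omega
  rw [e]
  simpa using key n le_rfl

theorem bmax_spec {n c : ℕ} {f : ℕ → ℕ} (hc : c ≤ 2) (hf : ∀ i < n, f i = 0 ∨ f i = c) :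
    (bmax n f = 0 ∨ bmax n f = c) ∧ ∀ i < n, f i ≤ bmax n f := by
  unfold bmax loop
  induction n with
  | zero => simp
  | succ n ih =>
    obtain ⟨h1, h2⟩ := ih fun i hi => hf i (by omega)
    have h3 := hf n (by omega)
    rw [lp_succ]
    beta_reduce at h1 h2 ⊢
    generalize (lp n 0 fun i y => clamp 2 (max y (f i))) = Y at h1 h2 ⊢
    rw [clamp_of_le (by omega)]
    refine ⟨by omega, fun i hi => ?_⟩
    rcases Nat.lt_succ_iff_lt_or_eq.mp hi with h | rfl
    · exact le_max_of_le_left (h2 i h)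
    · exact le_max_right _ _

theorem bmax_zero {n : ℕ} {f : ℕ → ℕ} (hf : ∀ i < n, f i = 0) : bmax n f = 0 := by
  have := (bmax_spec (c := 0) (by norm_num) (fun i hi => Or.inl (hf i hi))).1
  omega

theorem powm_eq {N a e : ℕ} (h : a ^ e ≤ N) : powm (N + 1) a e = a ^ e :=
  Nat.mod_eq_of_lt (by omega)

theorem shr_ne_zero {N a e : ℕ} (ha : 0 < a) : 1 - shr N a e = 0 ↔ a ^ e ≤ N := by
  unfold shr
  rw [Nat.sub_eq_zero_iff_le, Nat.le_div_iff_mul_le (by positivity), one_mul]

section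
variable {p : ℕ} [hp : Fact p.Prime]

theorem cast_clamp (x : ℕ) : ((clamp (p - 1) x : ℕ) : ZMod p) = x := by
  have := hp.out.two_le
  rw [clamp_nat, show p - 1 + 1 = p by omega, ZMod.natCast_mod]

theorem cast_pred : ((p - 1 : ℕ) : ZMod p) = -1 := by
  have := hp.out.two_le
  rw [Nat.cast_sub (by omega)]; simp

theorem cast_powm (a e : ℕ) : ((powm (p - 1 + 1) a e : ℕ) : ZMod p) = (a : ZMod p) ^ e := by
  have := hp.out.two_le
  rw [powm, show p - 1 + 1 = p by omega, ZMod.natCast_mod, Nat.cast_pow]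

theorem cast_prodm (n : ℕ) (f : ℕ → ℕ) :
    ((prodm p n f : ℕ) : ZMod p) = ∏ l ∈ range n, (f l : ZMod p) := by
  unfold prodm loop
  induction n with
  | zero => simp
  | succ n ih => rw [lp_succ, cast_clamp, Nat.cast_mul, ih, prod_range_succ]

theorem cast_summ (n : ℕ) (f : ℕ → ℕ) :
    ((summ p n f : ℕ) : ZMod p) = ∑ l ∈ range n, (f l : ZMod p) := by
  unfold summ loop
  induction n with
  | zero => simp
  | succ n ih => rw [lp_succ, cast_clamp, Nat.cast_add, ih, sum_range_succ]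

theorem cast_dig_two (x l : ℕ) : ((dig 2 x l : ℕ) : ZMod p) = bitF (ZMod p) x l := by
  rw [dig_two, bitF]; split_ifs <;> simp

theorem cast_mleN {N n : ℕ} (hn : 2 ^ n ≤ N) (z : ℕ → ℕ) (k : ℕ) (f : ℕ → ℕ) :
    ((mleN N p n z k f : ℕ) : ZMod p) =
      mle n (fun l => (z l : ZMod p)) (k : ZMod p) (fun a => (f a : ZMod p)) := by
  unfold mleN mle
  rw [cast_summ, powm_eq hn]
  refine sum_congr rfl fun a _ => ?_
  rw [Nat.cast_mul, cast_prodm]
  congr 1
  refine prod_congr rfl fun l _ => ?_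
  rw [dig_two, lin]
  cases a.testBit l
  · simp [cast_pred]; ring
  · simp

end

variable {A : Type}

structure Tab.Valid (T : Tab A) (P : Par) : Prop where
  a1 : 1 ≤ P.a
  ρ1 : 1 ≤ P.ρ
  prime : P.p.Prime
  d1 : T.nx P + (P.a + 1) * P.ng ≤ P.p - 1
  d2 : P.a * (P.a * P.ng) ≤ P.p - 1
  n1 : 2 ^ (T.nx P + (P.a + 1) * P.ng) ≤ P.N
  hB : T.B P ≤ 2 ^ P.ρ
  n2 : P.p ^ (2 * T.nx P) ≤ P.N
  n3 : P.p ^ ((P.a + 2) * P.ng) ≤ P.N
  n4 : T.L P ^ P.D ≤ P.N

theorem Tab.bad_eq_zero (T : Tab A) (P : Par) : T.bad P = 0 ↔ T.Valid P := by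
  have hpow : 2 ^ (T.nx P + (P.a + 1) * P.ng) ≤ P.N → 1 ≤ P.a → 2 ^ P.ρ ≤ P.N := by
    intro h ha
    refine le_trans (Nat.pow_le_pow_right (by norm_num) ?_) h
    unfold Par.ng
    nlinarith [Nat.zero_le (T.nx P), Nat.zero_le (P.a * P.a * P.ρ), Nat.mul_le_mul_right P.ρ ha]
  unfold Tab.bad
  simp only [Nat.add_eq_zero_iff]
  constructor
  · rintro ⟨⟨⟨⟨⟨⟨⟨⟨⟨⟨h1, h2⟩, h3⟩, h4⟩, h5⟩, h6⟩, h7⟩, h8⟩, h9⟩, h10⟩, h11⟩
    have hL : 0 < T.L P := by unfold Tab.L; nlinarith [show 2 ≤ P.p by omega]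
    rw [shr_ne_zero (by omega)] at h7 h9 h10 h11
    rw [powm_eq (hpow h7 (by omega))] at h8
    refine ⟨by omega, by omega, ?_, by omega, by omega, h7, by omega, h9, h10, h11⟩
    rw [Nat.prime_def_lt']
    refine ⟨by omega, fun m hm1 hm2 hd => ?_⟩
    have := (bmax_spec (n := P.p) (c := 1)
      (f := fun d => if 2 ≤ d then (if P.p % d = 0 then 1 else 0) else 0) (by norm_num)
      (fun i _ => by split_ifs <;> simp)).2 m hm2
    rw [h4] at this
    simp [hm1, Nat.mod_eq_zero_of_dvd hd] at this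
  · intro h
    have h2 := h.prime.two_le
    have hL : 0 < T.L P := by unfold Tab.L; nlinarith
    rw [shr_ne_zero (by omega), shr_ne_zero (by omega), shr_ne_zero (by omega),
      shr_ne_zero (by omega), powm_eq (hpow h.n1 h.a1)]
    have := h.a1; have := h.ρ1; have := h.d1; have := h.d2; have := h.hB
    refine ⟨⟨⟨⟨⟨⟨⟨⟨⟨⟨by omega, by omega⟩, by omega⟩, ?_⟩, by omega⟩, by omega⟩, h.n1⟩, by omega⟩,
      h.n2⟩, h.n3⟩, h.n4⟩
    apply bmax_zero
    intro d hd
    split_ifs with h3 h4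
    · exact absurd (Nat.dvd_of_mod_eq_zero h4) ((Nat.prime_def_lt'.mp h.prime).2 d h3 hd)
    · rfl
    · rfl

end Vale.Agent.P312
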