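import Vale.Agent.P312.Arith

/-!
Homogenised multilinear extensions over `ZMod p` and the summation identity behind the
Cook-Mertz catalytic evaluation; general facts on the iterator `lp`.
-/

namespace Vale.Agent.P312

open Finset Polynomial

section Top
variable {F : Type} [Field F]

/-- `φ` is a polynomial function of degree at most `d` whose coefficient of degree `d` is `c`. -/
def Top (d : ℕ) (c : F) (φ : F → F) : Prop :=
  ∃ P : F[X], P.natDegree ≤ d ∧ P.coeff d = c ∧ ∀ k, φ k = P.eval k

theorem Top.congr {d : ℕ} {c c' : F} {φ ψ : F → F} (h : Top d c φ) (hc : c = c')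
    (e : ∀ k, φ k = ψ k) : Top d c' ψ := by
  obtain ⟨P, a, b, e'⟩ := h
  exact ⟨P, a, b.trans hc, fun k => (e k).symm.trans (e' k)⟩

theorem Top.const (c : F) : Top 0 c (fun _ => c) := ⟨C c, by simp, by simp, by simp⟩

theorem Top.lin (a b : F) : Top 1 b (fun k => a + k * b) := by
  refine ⟨C a + C b * X, ?_, by simp, fun k => by
    simp only [eval_add, eval_mul, eval_C, eval_X]; ring⟩
  compute_degree

theorem Top.mul {d d' : ℕ} {c c' : F} {φ ψ : F → F} (h : Top d c φ) (h' : Top d' c' ψ) :
    Top (d + d') (c * c') (fun k => φ k * ψ k) := by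
  obtain ⟨P, a, b, e⟩ := h
  obtain ⟨Q, a', b', e'⟩ := h'
  refine ⟨P * Q, natDegree_mul_le.trans (Nat.add_le_add a a'), ?_, fun k => by simp [e, e']⟩
  rw [coeff_mul_add_eq_of_natDegree_le a a', b, b']

theorem Top.add {d : ℕ} {c c' : F} {φ ψ : F → F} (h : Top d c φ) (h' : Top d c' ψ) :
    Top d (c + c') (fun k => φ k + ψ k) := by
  obtain ⟨P, a, b, e⟩ := h
  obtain ⟨Q, a', b', e'⟩ := h'
  exact ⟨P + Q, (natDegree_add_le _ _).trans (max_le a a'), by simp [b, b'],
    fun k => by simp [e, e']⟩

theorem Top.zero (d : ℕ) : Top d (0 : F) (fun _ => 0) := ⟨0, by simp, by simp, by simp⟩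

theorem Top.sum {ι : Type} (s : Finset ι) {d : ℕ} {c : ι → F} {φ : ι → F → F}
    (h : ∀ i ∈ s, Top d (c i) (φ i)) : Top d (∑ i ∈ s, c i) (fun k => ∑ i ∈ s, φ i k) := by
  classical
  induction s using Finset.induction_on with
  | empty => simpa using Top.zero d
  | insert a s ha ih =>
    simp only [sum_insert ha]
    exact (h a (mem_insert_self _ _)).add (ih fun i hi => h i (mem_insert_of_mem hi))

theorem Top.prod (n : ℕ) {d : ℕ} {c : ℕ → F} {φ : ℕ → F → F}
    (h : ∀ i < n, Top d (c i) (φ i)) :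
    Top (n * d) (∏ i ∈ range n, c i) (fun k => ∏ i ∈ range n, φ i k) := by
  induction n with
  | zero => simpa using Top.const (1 : F)
  | succ n ih =>
    simp only [prod_range_succ, add_mul, one_mul]
    exact (ih fun i hi => h i (by omega)).mul (h n (by omega))

theorem Top.pow (n : ℕ) : Top n (1 : F) (fun k => k ^ n) :=
  ⟨X ^ n, by simp, by simp, by simp⟩

theorem Top.smul {d : ℕ} {c : F} {φ : F → F} (h : Top d c φ) (a : F) :
    Top d (a * c) (fun k => a * φ k) := by
  simpa using (Top.const a).mul h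

theorem Top.pad {d D : ℕ} {c : F} {φ : F → F} (h : Top d c φ) (hd : d ≤ D) :
    Top D c (fun k => k ^ (D - d) * φ k) := by
  have := (Top.pow (F := F) (D - d)).mul h
  rwa [Nat.sub_add_cancel hd, one_mul] at this

def lin (b : Bool) (z k : F) : F := if b then z else k - z

def bitF (F : Type) [Field F] (x l : ℕ) : F := if x.testBit l then 1 else 0

/-- The homogenised multilinear extension of `f` in `n` Boolean variables. -/
def mle (n : ℕ) (z : ℕ → F) (k : F) (f : ℕ → F) : F :=
  ∑ a ∈ range (2 ^ n), (∏ l ∈ range n, lin (a.testBit l) (z l) k) * f a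

theorem mle_congr {n : ℕ} {z z' : ℕ → F} (h : ∀ l < n, z l = z' l) (k : F) (f : ℕ → F) :
    mle n z k f = mle n z' k f := by
  unfold mle
  refine sum_congr rfl fun a _ => ?_
  congr 1
  exact prod_congr rfl fun l hl => by rw [h l (mem_range.mp hl)]

theorem Top.mle (n : ℕ) (τ v : ℕ → F) (a₀ : ℕ) (ha : a₀ < 2 ^ n)
    (hv : ∀ l < n, v l = bitF F a₀ l) (f : ℕ → F) :
    Top n (f a₀) (fun k => mle n (fun l => τ l + k * v l) k f) := by
  have h1 : ∀ a l, l < n → Top 1 (if a.testBit l = a₀.testBit l then (1 : F) else 0)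
      (fun k => Vale.Agent.P312.lin (Nat.testBit a l) (τ l + k * v l) k) := by
    intro a l hl
    rw [hv l hl]
    unfold Vale.Agent.P312.lin bitF
    cases h : a.testBit l <;> cases h' : a₀.testBit l
    · exact (Top.lin (-τ l) 1).congr (by simp) fun k => by simp; ring
    · exact (Top.lin (-τ l) 0).congr (by simp) fun k => by simp
    · exact (Top.lin (τ l) 0).congr (by simp) fun k => by simp
    · exact (Top.lin (τ l) 1).congr (by simp) fun k => by simp
  have h2 := Top.sum (range (2 ^ n)) (d := n)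
    (c := fun a => (∏ l ∈ range n, if a.testBit l = a₀.testBit l then (1 : F) else 0) * f a)
    (φ := fun a k => (∏ l ∈ range n,
      Vale.Agent.P312.lin (Nat.testBit a l) (τ l + k * v l) k) * f a) (fun a _ => by
      have := (Top.prod n (fun l hl => h1 a l hl)).mul (Top.const (f a))
      simpa using this)
  refine h2.congr ?_ fun k => rfl
  rw [sum_eq_single a₀]
  · simp
  · intro a ha' hne
    have : ∃ l < n, a.testBit l ≠ a₀.testBit l := by
      by_contra hcon
      push Not at hcon
      apply hne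
      apply Nat.eq_of_testBit_eq
      intro l
      by_cases hl : l < n
      · exact hcon l hl
      · have hle : 2 ^ n ≤ 2 ^ l := Nat.pow_le_pow_right (by norm_num) (by omega)
        rw [Nat.testBit_lt_two_pow (lt_of_lt_of_le (mem_range.mp ha') hle),
          Nat.testBit_lt_two_pow (lt_of_lt_of_le ha hle)]
    obtain ⟨l, hl, hl'⟩ := this
    rw [prod_eq_zero (mem_range.mpr hl) (by simp [hl']), zero_mul]
  · intro h; exact absurd (mem_range.mpr ha) h

end Top

theorem Top.sum_range {p : ℕ} [hp : Fact p.Prime] {c : ZMod p} {φ : ZMod p → ZMod p}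
    (h : Top (p - 1) c φ) : ∑ m ∈ range p, φ (m : ZMod p) = -c := by
  obtain ⟨P, a, b, e⟩ := h
  have h2 := hp.out.two_le
  have hsum : ∀ ψ : ZMod p → ZMod p, ∑ m ∈ range p, ψ (m : ZMod p) = ∑ x : ZMod p, ψ x := by
    intro ψ
    obtain ⟨q, rfl⟩ : ∃ q, p = q + 1 := ⟨p - 1, by omega⟩
    rw [← Fin.sum_univ_eq_sum_range (fun m => ψ (m : ZMod (q + 1)))]
    exact Finset.sum_congr rfl fun x _ => by
      congr 1
      exact Fin.cast_val_eq_self x
  rw [hsum]
  simp only [e]
  have hcard : Fintype.card (ZMod p) = p := ZMod.card p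
  have hP : ∀ x : ZMod p, P.eval x = ∑ i ∈ range (p - 1 + 1), P.coeff i * x ^ i := fun x =>
    eval_eq_sum_range' (by omega) x
  simp only [hP]
  rw [sum_comm, sum_range_succ]
  have h0 : ∑ i ∈ range (p - 1), ∑ x : ZMod p, P.coeff i * x ^ i = 0 := by
    refine sum_eq_zero fun i hi => ?_
    rw [← mul_sum, FiniteField.sum_pow_lt_card_sub_one (ZMod p) i
      (by rw [hcard]; exact mem_range.mp hi), mul_zero]
  rw [h0, zero_add, ← mul_sum, b]
  have h3 : ∑ x : ZMod p, x ^ (p - 1) = -1 := by
    have h4 : ∀ x : ZMod p, x ^ (p - 1) = 1 - if x = 0 then 1 else 0 := by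
      intro x
      by_cases hx : x = 0
      · simp [hx, show p - 1 ≠ 0 by omega]
      · simp [hx, ZMod.pow_card_sub_one_eq_one hx]
    simp only [h4, sum_sub_distrib]
    simp
  rw [h3]; ring

/-! The iterator. -/

section lp
variable {S : Type}

theorem lp_congr {n : ℕ} {s : S} {f g : ℕ → S → S} (h : ∀ i < n, ∀ s, f i s = g i s) :
    lp n s f = lp n s g := by
  induction n with
  | zero => rfl
  | succ n ih => rw [lp_succ, lp_succ, ih fun i hi => h i (by omega), h n (by omega)]

theorem lp_add (m n : ℕ) (s : S) (f : ℕ → S → S) :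
    lp (m + n) s f = lp n (lp m s f) (fun i => f (m + i)) := by
  induction n with
  | zero => rfl
  | succ n ih => rw [← add_assoc, lp_succ, ih, lp_succ]

theorem lp_id (n : ℕ) (s : S) : lp n s (fun _ s => s) = s := by
  induction n with
  | zero => rfl
  | succ n ih => rw [lp_succ, ih]

theorem lp_trunc {n L : ℕ} (hn : n ≤ L) (s : S) (f : ℕ → S → S)
    (h : ∀ i, n ≤ i → ∀ s, f i s = s) : lp L s f = lp n s f := by
  obtain ⟨d, rfl⟩ := Nat.exists_eq_add_of_le hn
  rw [lp_add, lp_congr (g := fun _ s => s) (fun i _ s => h _ (by omega) s), lp_id]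

theorem lp_mul (m W : ℕ) (s : S) (f : ℕ → S → S) :
    lp (m * W) s f = lp m s (fun i s => lp W s (fun r => f (i * W + r))) := by
  induction m with
  | zero => simp
  | succ m ih => rw [add_mul, one_mul, lp_add, ih, lp_succ]

theorem lp_succ' (n : ℕ) (s : S) (f : ℕ → S → S) :
    lp (n + 1) s f = lp n (f 0 s) (fun i => f (i + 1)) := by
  rw [add_comm, lp_add]
  exact lp_congr fun i _ s => by rw [add_comm]

theorem lp_sum [AddCommMonoid S] {n : ℕ} {f : ℕ → S → S} {Δ : ℕ → S} (I : S → Prop)
    (h : ∀ i < n, ∀ s, I s → f i s = s + Δ i ∧ I (s + Δ i)) {s : S} (hs : I s) :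
    lp n s f = s + ∑ i ∈ range n, Δ i ∧ I (s + ∑ i ∈ range n, Δ i) := by
  induction n with
  | zero => simpa using hs
  | succ n ih =>
    obtain ⟨e, hI⟩ := ih fun i hi => h i (by omega)
    rw [lp_succ, e, sum_range_succ, ← add_assoc]
    exact h n (by omega) _ hI

theorem lp_map {S' : Type} (g : S → S') {n : ℕ} {f : ℕ → S → S} {f' : ℕ → S' → S'} (I : S → Prop)
    (h : ∀ i < n, ∀ s, I s → g (f i s) = f' i (g s) ∧ I (f i s)) {s : S} (hs : I s) :
    g (lp n s f) = lp n (g s) f' ∧ I (lp n s f) := by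
  induction n with
  | zero => exact ⟨rfl, hs⟩
  | succ n ih =>
    obtain ⟨e, hI⟩ := ih fun i hi => h i (by omega)
    rw [lp_succ, lp_succ, ← e]
    exact h n (by omega) _ hI

end lp

/-- The catalytic loop: `p` rounds, each adding `h m` to the target row and `Δ` to the state. -/
theorem lp_cm {p : ℕ} {R : Type} [DecidableEq R] (s₀ Δ : R → ℕ → ZMod p) (row : R)
    (h : ℕ → ℕ → ZMod p) (body : ℕ → (R → ℕ → ZMod p) → (R → ℕ → ZMod p))
    (hb : ∀ m < p, ∀ T : ℕ → ZMod p, body m (s₀ + m • Δ + Pi.single row T) =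
      s₀ + m • Δ + Pi.single row T + Pi.single row (h m) + Δ) :
    lp p s₀ body = s₀ + Pi.single row (∑ m ∈ range p, h m) := by
  have key : ∀ n ≤ p, lp n s₀ body = s₀ + n • Δ + Pi.single row (∑ m ∈ range n, h m) := by
    intro n hn
    induction n with
    | zero => simp
    | succ n ih =>
      rw [lp_succ, ih (by omega), hb n (by omega), sum_range_succ, Pi.single_add, succ_nsmul]
      abel
  rw [key p le_rfl]
  have : p • Δ = 0 := by
    funext r c
    simp
  rw [this, add_zero]

end Vale.Agent.P312
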