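import Vale.Agent.P312.Num

/-!
The numeric algorithm refines the abstract catalytic evaluation.
-/

namespace Vale.Agent.P312

open Finset

variable {A : Type}

namespace Tab

variable (T : Tab A) (w : Inp A) (P : Par)

abbrev sys : Sys :=
  ⟨P.p, P.a, T.B P, T.bb P, T.nx P, P.ng, T.L P, T.x0 w P, T.e0 P, T.upd P, T.chk P⟩

def InR (row col : ℕ) : Prop := (row < 2 ∧ col < T.nx P) ∨ (2 ≤ row ∧ row < P.a + 4 ∧ col < P.ng)

open Classical in
noncomputable def abs (σ : ℕ × ℕ) : ℕ → ℕ → ZMod P.p := fun row col =>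
  if T.InR P row col then (T.get P σ row col : ZMod P.p) else 0

def StOK (σ : ℕ × ℕ) : Prop := σ.1 < P.p ^ (2 * T.nx P) ∧ σ.2 < P.p ^ ((P.a + 2) * P.ng)

def CtxOK (c : Ctx) : Prop :=
  c.1 ≤ 9 ∧ c.2.1 ≤ (P.a + 1) * P.a ∧ (c.1 = 6 → c.2.1 ≤ P.a + 1) ∧ c.2.2.1 ≤ T.L P ∧
  c.2.2.2.1 ≤ T.B P ^ (P.a + 1) ∧ (c.1 = 8 → c.2.2.2.1 < T.B P ^ c.2.2.2.2.1) ∧
  c.2.2.2.2.1 ≤ P.a + 1 ∧ (c.1 = 5 ∨ c.1 = 9 → c.2.2.2.2.1 < P.a) ∧ c.2.2.2.2.2 ≤ P.p

variable {T P}

theorem Valid.a_le_ng (h : T.Valid P) : P.a ≤ P.ng := by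
  have := h.ρ1; unfold Par.ng; nlinarith

theorem Valid.pow_le (h : T.Valid P) {n : ℕ} (hn : n ≤ T.nx P + (P.a + 1) * P.ng) :
    2 ^ n ≤ P.N := le_trans (Nat.pow_le_pow_right (by norm_num) hn) h.n1

theorem Valid.L_le (h : T.Valid P) : T.L P ≤ P.N := by
  refine le_trans ?_ h.n4
  have h2 := h.prime.two_le
  have hL : 0 < T.L P := by unfold Tab.L; nlinarith
  exact Nat.le_self_pow (by unfold Par.D; omega) _

theorem Valid.Bpow_le (h : T.Valid P) {n : ℕ} (hn : n ≤ P.a + 1) : T.B P ^ n ≤ P.N := by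
  refine le_trans (Nat.pow_le_pow_left h.hB n) ?_
  rw [← pow_mul]
  apply h.pow_le
  have := h.a1
  unfold Par.ng
  have h1 : P.ρ * n ≤ P.ρ * (P.a + 1) := Nat.mul_le_mul_left _ hn
  have h2 : P.ρ ≤ P.a * P.ρ := Nat.le_mul_of_pos_left _ this
  nlinarith [Nat.zero_le (T.nx P)]

theorem gam_le {a : ℕ} (ha : 1 ≤ a) (g : ℕ) : g - (g - 1) / a * a ≤ a := by
  have h2 := Nat.div_add_mod (g - 1) a
  have h3 := Nat.mod_lt (g - 1) (show 0 < a by omega)
  rw [mul_comm] at h2
  omega

theorem cstep_ok (h : T.Valid P) {c : Ctx} (hc : T.CtxOK P c) (d : ℕ) :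
    T.CtxOK P (cstep P.p P.a (T.B P) (T.bb P) c d) := by
  obtain ⟨t, g, k, u, j, m⟩ := c
  obtain ⟨h1, h2, h3, h4, h5, h6, h7, h8, h9⟩ := hc
  simp only at h1 h2 h3 h4 h5 h6 h7 h8 h9
  have ha := h.a1
  have hpL : P.p ≤ T.L P := by unfold Tab.L; nlinarith [Nat.zero_le (T.B P)]
  have hBL : T.B P ≤ T.L P := by unfold Tab.L; omega
  have hr := Nat.mod_lt d (show 0 < P.a + 3 by omega)
  have dead_ok : T.CtxOK P (0, 0, 0, 0, 0, 0) := by simp [CtxOK]
  have haa : P.a + 1 ≤ (P.a + 1) * P.a := Nat.le_mul_of_pos_right _ ha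
  have hdiv : (g - 1) / P.a ≤ P.a + 1 := by
    apply Nat.div_le_of_le_mul
    rw [mul_comm]; omega
  have hdig : dig (T.B P) u j / T.bb P ≤ T.L P := by
    refine le_trans (Nat.div_le_self _ _) ?_
    rcases Nat.eq_zero_or_pos (T.B P) with h0 | h0
    · rw [h0] at h5
      simp only [ne_eq, Nat.add_eq_zero_iff, one_ne_zero, and_false, not_false_eq_true, zero_pow,
        Nat.le_zero] at h5
      simp [dig, shr, h5]
    · exact le_trans (dig_lt h0 _ _).le hBL
  unfold cstep
  simp only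
  split_ifs with c1 c2 c3 c4 c5 c6 c7 c8 c9 c10 c11 c12 c13 c14 c15 c16 c17 c18 c19 c20 c21 c22 c23
    <;> try exact dead_ok
  · exact ⟨h1, h2, h3, h4, h5, h6, h7, h8, h9⟩
  · simp [CtxOK, h4]
  · simp only [CtxOK]; simp; omega
  · simp only [CtxOK]; simp; omega
  · simp only [CtxOK]; simp
    have : (g - 1) * P.a ≤ P.a * P.a := Nat.mul_le_mul_right _ (by omega)
    rw [add_mul]; omega
  · simp [CtxOK]
  · simp only [CtxOK]; simp; omega
  · simp only [CtxOK]; simp; omega
  · have h6' := h6 c15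
    have e1 : u * T.B P + d < T.B P ^ (j + 1) := by
      calc _ < u * T.B P + T.B P := by omega
        _ = (u + 1) * T.B P := by ring
        _ ≤ T.B P ^ j * T.B P := Nat.mul_le_mul_right _ h6'
        _ = _ := by rw [pow_succ]
    have e2 : T.B P ^ (j + 1) ≤ T.B P ^ (P.a + 1) := Nat.pow_le_pow_right (by omega) (by omega)
    simp only [CtxOK]; simp; omega
  · simp only [CtxOK]; simp; omega
  · simp only [CtxOK]; simp; omega
  · have : t = 9 := by omega
    have := h8 (Or.inr this)
    simp only [CtxOK]; simp; omega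
  · simp only [CtxOK]; simp; omega

theorem ctx_clamp (h : T.Valid P) {c : Ctx} (hc : T.CtxOK P c) : clamp P.N c = c := by
  obtain ⟨t, g, k, u, j, m⟩ := c
  obtain ⟨h1, h2, h3, h4, h5, h6, h7, h8, h9⟩ := hc
  simp only at h1 h2 h3 h4 h5 h6 h7 h8 h9
  have ha := h.a1
  have h2p := h.prime.two_le
  have hL := h.L_le
  have hB := h.Bpow_le le_rfl
  have hd := h.d1
  have e1 : (P.a + 1) * P.a ≤ (P.a + 1) * P.ng := Nat.mul_le_mul_left _ h.a_le_ng
  have e2 : P.p * (P.a + 3) ≤ T.L P := by unfold Tab.L; omega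
  have e3 : P.a + 1 ≤ (P.a + 1) * P.a := Nat.le_mul_of_pos_right _ ha
  have e4 : 3 * 4 ≤ P.p * (P.a + 3) := Nat.mul_le_mul (by omega) (by omega)
  have e5 : P.p * 1 ≤ P.p * (P.a + 3) := Nat.mul_le_mul_left _ (by omega)
  simp only [clamp_prod]
  rw [clamp_of_le (by omega), clamp_of_le (by omega), clamp_of_le (by omega),
    clamp_of_le (by omega), clamp_of_le (by omega), clamp_of_le (by omega)]

theorem decode_spec (h : T.Valid P) (x : ℕ) :
    T.decode P x = lp P.D (7, (P.a + 1) * P.a, 0, 0, 0, 0)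
      (fun i c => cstep P.p P.a (T.B P) (T.bb P) c (dig (T.L P) x (P.D - 1 - i))) ∧
    T.CtxOK P (T.decode P x) := by
  have key : ∀ n, T.CtxOK P (lp n (7, (P.a + 1) * P.a, 0, 0, 0, 0)
      (fun i c => cstep P.p P.a (T.B P) (T.bb P) c (dig (T.L P) x (P.D - 1 - i)))) := by
    intro n
    induction n with
    | zero => simp [CtxOK]
    | succ n ih => rw [lp_succ]; exact cstep_ok h ih _
  have e := loop_eq_lp (B := P.N) (n := P.D) fun i _ => ctx_clamp h (key (i + 1))
  unfold decode
  rw [e]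
  exact ⟨rfl, key _⟩

variable [hp : Fact P.p.Prime]

theorem abs_zV (h : T.Valid P) (σ : ℕ × ℕ) (i : ℕ) :
    (T.sys w P).zV (T.abs P σ) i = fun l => (T.zVN P σ i l : ZMod P.p) := by
  funext l
  have := h.a_le_ng
  have := h.a1
  have h1 := Nat.mod_lt (i * P.a + l / P.ng) (show 0 < P.a + 1 by omega)
  have h2 := Nat.mod_lt l (show 0 < P.ng by omega)
  unfold Sys.zV zVN abs
  exact if_pos (Or.inr ⟨by omega, by dsimp only; omega, h2⟩)

theorem abs_zX (h : T.Valid P) (σ : ℕ × ℕ) (i : ℕ) :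
    (T.sys w P).zX (T.abs P σ) i = fun l => (T.zXN P σ i l : ZMod P.p) := by
  funext l
  unfold Sys.zX zXN
  rw [abs_zV w h]
  split_ifs with h1
  · exact if_pos (Or.inl ⟨by omega, h1⟩)
  · rfl

theorem val_out (h : T.Valid P) {c : Ctx} (hc : T.CtxOK P c) (s : (T.sys w P).St) (col : ℕ)
    (hcol : ¬ T.InR P (rowOf P.a c) col) : (T.sys w P).val c s col = 0 := by
  have hm := Nat.mod_lt c.2.1 (show 0 < P.a + 1 by omega)
  have hng := h.a_le_ng
  unfold InR rowOf at hcol
  unfold Sys.val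
  split_ifs with h1 h2 h3 h4 h5
  · simp only [h1] at hcol
    exact if_neg (by simp at hcol; (try dsimp only); omega)
  · simp only [h2] at hcol
    exact if_neg (by simp at hcol; (try dsimp only); omega)
  · simp only [h3] at hcol
    exact if_neg (by simp at hcol; (try dsimp only); omega)
  · simp only [h4] at hcol
    exact if_neg (by simp at hcol; (try dsimp only); omega)
  · simp only [h5] at hcol
    have := hc.2.2.2.2.2.2.2.1 (Or.inl h5)
    exact if_neg (by simp at hcol; (try dsimp only); omega)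
  · rfl

theorem val_in (h : T.Valid P) (c : Ctx) (σ : ℕ × ℕ) (col : ℕ)
    (hcol : T.InR P (rowOf P.a c) col) :
    (T.valN w P c σ col : ZMod P.p) = (T.sys w P).val c (T.abs P σ) col := by
  have hng := h.a_le_ng
  unfold InR rowOf at hcol
  unfold Sys.val valN
  split_ifs with h1 h2 h3 h4 h5
  · simp only [h1] at hcol
    have : col < T.nx P := by simp at hcol; omega
    rw [cast_dig_two, Sys.bits, if_pos this]
  · simp only [h2] at hcol
    have : col < T.nx P := by simp at hcol; omega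
    unfold valXN Sys.valX
    rw [if_pos this, abs_zX w h, Nat.cast_mul, Nat.cast_mul, cast_pred, cast_powm, cast_mleN h.n1,
      powm_eq (h.pow_le (by omega))]
    simp only [cast_dig_two, shr]
    ring
  · simp only [h3] at hcol
    have : col < P.ng := by simp at hcol; omega
    rw [cast_dig_two, Sys.bits, if_pos this]
  · simp only [h4] at hcol
    have : col < P.ng := by simp at hcol; omega
    unfold valEN Sys.valE
    rw [if_pos this, Nat.cast_mul, Nat.cast_mul, Nat.cast_mul, cast_powm, cast_powm, cast_dig_two,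
      cast_prodm]
    congr 2
    refine prod_congr rfl fun j hj => ?_
    have : j < P.a := mem_range.mp hj
    exact (if_pos (Or.inr ⟨by omega, by omega, by omega⟩)).symm
  · unfold valCN Sys.valC
    split_ifs with h6
    · have hg := Nat.mul_le_mul_right P.ng (gam_le h.a1 c.2.1)
      rw [abs_zV w h, Nat.cast_mul, Nat.cast_mul, cast_pred, cast_powm,
        cast_mleN (h.pow_le (by omega))]
      simp only [cast_mleN (h.pow_le (show (c.2.1 - (c.2.1 - 1) / P.a * P.a) * P.ng ≤ _ by
        rw [add_mul]; omega))]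
      rw [mle_congr (z' := T.abs P σ ((c.2.1 - 1) / P.a % 2))
        (fun l hl => (if_pos (Or.inl ⟨by omega, hl⟩)).symm)]
      simp only [Sys.cval, Sys.nv]
      ring
    · simp
  · simp

theorem leafN_spec (h : T.Valid P) {c : Ctx} (hc : T.CtxOK P c) (σ : ℕ × ℕ) (hσ : T.StOK P σ) :
    T.abs P (T.leafN w P c σ) = (T.sys w P).leaf c (T.abs P σ) ∧ T.StOK P (T.leafN w P c σ) := by
  have hp0 : 0 < P.p := h.prime.pos
  have hrow : rowOf P.a c < P.a + 4 := by
    have hm := Nat.mod_lt c.2.1 (show 0 < P.a + 1 by omega)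
    unfold rowOf; split_ifs <;> omega
  have hidx : ∀ {W r col : ℕ}, col < W → (r * W + col) / W = r ∧ (r * W + col) % W = col := by
    intro W r col hcol
    rw [mul_comm, Nat.mul_add_div (by omega), Nat.div_eq_of_lt hcol, Nat.mul_add_mod,
      Nat.mod_eq_of_lt hcol]
    exact ⟨rfl, rfl⟩
  have hlt : ∀ {W r n col : ℕ}, col < W → r < n → r * W + col < n * W := by
    intro W r n col hcol hr
    have : (r + 1) * W ≤ n * W := Nat.mul_le_mul_right _ hr
    rw [add_mul] at this; omega
  unfold leafN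
  split_ifs with hr
  · obtain ⟨b1, b2⟩ := build_spec (N := P.N) (B := P.p) (n := 2 * T.nx P)
      (f := fun l => (dig P.p σ.1 l + if l / T.nx P = rowOf P.a c then
        T.valN w P c σ (l % T.nx P) else 0) % P.p) (fun l _ => Nat.mod_lt _ hp0)
      (h.n2.trans (by omega))
    refine ⟨?_, b1, hσ.2⟩
    funext row col
    simp only [Sys.leaf, Pi.add_apply, Pi.single_apply]
    by_cases hin : T.InR P row col
    · simp only [abs, if_pos hin, get]
      by_cases h2 : row < 2
      · have hcol : col < T.nx P := by unfold InR at hin; omega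
        simp only [if_pos h2]
        rw [b2 _ (hlt hcol h2), (hidx hcol).1, (hidx hcol).2, ZMod.natCast_mod, Nat.cast_add]
        congr 1
        split_ifs with h3
        · subst h3; exact val_in w h c σ col hin
        · simp
      · simp only [if_neg h2]
        rw [if_neg (by omega)]; simp
    · simp only [abs, if_neg hin]
      split_ifs with h3
      · subst h3; rw [val_out w h hc _ col hin]; simp
      · simp
  · obtain ⟨b1, b2⟩ := build_spec (N := P.N) (B := P.p) (n := (P.a + 2) * P.ng)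
      (f := fun l => (dig P.p σ.2 l + if l / P.ng = rowOf P.a c - 2 then
        T.valN w P c σ (l % P.ng) else 0) % P.p) (fun l _ => Nat.mod_lt _ hp0)
      (h.n3.trans (by omega))
    refine ⟨?_, hσ.1, b1⟩
    funext row col
    simp only [Sys.leaf, Pi.add_apply, Pi.single_apply]
    by_cases hin : T.InR P row col
    · simp only [abs, if_pos hin, get]
      by_cases h2 : row < 2
      · simp only [if_pos h2]
        rw [if_neg (by omega)]; simp
      · have hcol : col < P.ng := by unfold InR at hin; omega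
        have hrw : row - 2 < P.a + 2 := by unfold InR at hin; omega
        simp only [if_neg h2]
        rw [b2 _ (hlt hcol hrw), (hidx hcol).1, (hidx hcol).2, ZMod.natCast_mod, Nat.cast_add]
        congr 1
        by_cases h3 : row = rowOf P.a c
        · rw [if_pos (by omega), if_pos h3]
          subst h3; exact val_in w h c σ col hin
        · rw [if_neg (by omega), if_neg h3]; simp
    · simp only [abs, if_neg hin]
      split_ifs with h3
      · subst h3; rw [val_out w h hc _ col hin]; simp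
      · simp

end Tab

theorem Sys.exec_flat (S : Sys) [Fact S.p.Prime] (d : ℕ) : ∀ (c : Ctx) (s : S.St),
    S.exec d c s = lp (S.L ^ d) s (fun x s => S.leaf
      (lp d c (fun i c' => cstep S.p S.G S.B S.bb c' (dig S.L x (d - 1 - i)))) s) := by
  induction d with
  | zero => intro c s; rfl
  | succ d ih =>
    intro c s
    rw [Sys.exec, pow_succ', lp_mul]
    refine lp_congr fun i hi s => ?_
    rw [ih]
    have key : ∀ r < S.L ^ d, lp (d + 1) c (fun t c' => cstep S.p S.G S.B S.bb c'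
        (dig S.L (i * S.L ^ d + r) (d + 1 - 1 - t))) = lp d (cstep S.p S.G S.B S.bb c i)
        (fun t c' => cstep S.p S.G S.B S.bb c' (dig S.L r (d - 1 - t))) := by
      intro r hr
      rw [lp_succ', show d + 1 - 1 - 0 = d by omega, dig_top hr hi]
      refine lp_congr fun t ht c' => ?_
      rw [show d + 1 - 1 - (t + 1) = d - 1 - t by omega, dig_low (by omega)]
    exact lp_congr fun r hr s => by rw [key r hr]

theorem Tab.outp_final {T : Tab A} (w : Inp A) {P : Par} [Fact P.p.Prime] (h : T.Valid P)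
    {X : ℕ → ℕ → ℕ} {E : ℕ → ℕ} (hOK : (T.sys w P).OK (P.a + 1) X E) :
    T.outp P (T.final w P) = T.tH (dig (T.B P) (E ((P.a + 1) * P.a)) (P.a - 1) % T.nq) := by
  have hp0 : 0 < P.p := h.prime.pos
  have h0 : T.StOK P (0, 0) := ⟨by positivity, by positivity⟩
  have key : ∀ n, T.abs P (lp n (0, 0) (fun x σ => T.leafN w P (T.decode P x) σ)) =
      lp n (T.abs P (0, 0)) (fun x s => (T.sys w P).leaf (T.decode P x) s) ∧
      T.StOK P (lp n (0, 0) (fun x σ => T.leafN w P (T.decode P x) σ)) := fun n =>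
    lp_map (T.abs P) (T.StOK P)
      (fun x _ σ hσ => Tab.leafN_spec w h (Tab.decode_spec h x).2 σ hσ) h0
  have e1 : T.final w P = lp (T.L P ^ P.D) (0, 0) (fun x σ => T.leafN w P (T.decode P x) σ) := by
    unfold Tab.final
    rw [powm_eq h.n4]
    apply loop_eq_lp
    intro i _
    obtain ⟨b1, b2⟩ := (key (i + 1)).2
    generalize lp (i + 1) (0, 0) (fun x σ => T.leafN w P (T.decode P x) σ) = y at b1 b2 ⊢
    obtain ⟨y1, y2⟩ := y
    have := h.n2
    have := h.n3
    simp only at b1 b2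
    rw [clamp_prod, clamp_of_le (by omega), clamp_of_le (by omega)]
  have e2 : T.abs P (T.final w P) = T.abs P (0, 0) + Pi.single (3 + (P.a + 1) * P.a % (P.a + 1))
      ((T.sys w P).bits P.ng (E ((P.a + 1) * P.a))) := by
    rw [e1, (key _).1]
    have := ((Sys.spec_all hOK (P.a + 1) le_rfl).2 P.D (T.abs P (0, 0)) le_rfl)
    rw [Sys.exec_flat] at this
    rw [← this]
    exact lp_congr fun x _ s => by rw [(Tab.decode_spec h x).1]
  have e3 : ∀ e < P.ng, T.get P (T.final w P) (3 + (P.a + 1) * P.a % (P.a + 1)) e =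
      dig 2 (E ((P.a + 1) * P.a)) e := by
    intro e he
    have hin : T.InR P (3 + (P.a + 1) * P.a % (P.a + 1)) e := Or.inr ⟨by omega, by simp, he⟩
    have := congrFun (congrFun e2 (3 + (P.a + 1) * P.a % (P.a + 1))) e
    simp only [Tab.abs, if_pos hin, Pi.add_apply, Pi.single_eq_same, Sys.bits, if_pos he] at this
    have hz : T.get P (0, 0) (3 + (P.a + 1) * P.a % (P.a + 1)) e = 0 := by
      unfold Tab.get; split_ifs <;> simp [dig, shr]
    rw [hz, Nat.cast_zero, zero_add, ← cast_dig_two, ZMod.natCast_eq_natCast_iff'] at this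
    have l1 : T.get P (T.final w P) (3 + (P.a + 1) * P.a % (P.a + 1)) e < P.p := by
      unfold Tab.get; split_ifs <;> exact dig_lt hp0 _ _
    have l2 := dig_lt (show 0 < 2 by norm_num) (E ((P.a + 1) * P.a)) e
    have l3 := h.prime.two_le
    rwa [Nat.mod_eq_of_lt l1, Nat.mod_eq_of_lt (lt_of_lt_of_le l2 l3)] at this
  obtain ⟨b1, b2⟩ := build_spec (N := P.N) (B := 2) (n := P.ng)
    (f := fun e => T.get P (T.final w P) (3 + (P.a + 1) * P.a % (P.a + 1)) e)
    (fun l hl => by rw [e3 l hl]; exact dig_lt (by norm_num) _ _)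
    ((h.pow_le (by rw [add_mul]; omega)).trans (by omega))
  unfold Tab.outp
  rw [eq_of_dig P.ng _ _ b1 (hOK.Elt _ le_rfl) (fun l hl => by rw [b2 l hl, e3 l hl])]

end Vale.Agent.P312
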