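import Vale.Agent.P312.Defs

/-!
Structured programs over registers holding natural numbers in bijective base two (stacks of digits)
with a two-way read-only input head, and their compilation to multitape Turing machines.
-/

namespace Vale.Agent.P312

open Function

variable {A : Type}

structure St where
  reg : ℕ → ℕ
  pos : ℕ

def St.set (s : St) (r v : ℕ) : St := ⟨update s.reg r v, s.pos⟩

inductive Test (A : Type)
  | zero (r : ℕ)
  | odd (r : ℕ)
  | sym (a : InSym A)
  | not (t : Test A)
  | or (t u : Test A)

def Test.holds (w : List A) (s : St) : Test A → Prop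
  | .zero r => s.reg r = 0
  | .odd r => s.reg r % 2 = 1
  | .sym a => inSym w s.pos = a
  | .not t => ¬ t.holds w s
  | .or t u => t.holds w s ∨ u.holds w s

def Test.bd : Test A → ℕ
  | .zero r => r + 1
  | .odd r => r + 1
  | .sym _ => 0
  | .not t => t.bd
  | .or t u => max t.bd u.bd

inductive Prog (A : Type)
  | push (r : ℕ) (b : Bool)
  | pop (r : ℕ)
  | mv (m : Move)
  | seq (p q : Prog A)
  | ite (t : Test A) (p q : Prog A)
  | loop (t : Test A) (p : Prog A)

def Prog.bd : Prog A → ℕ
  | .push r _ => r + 1
  | .pop r => r + 1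
  | .mv _ => 0
  | .seq p q => max p.bd q.bd
  | .ite t p q => max t.bd (max p.bd q.bd)
  | .loop t p => max t.bd p.bd

def pushVal (x : ℕ) (b : Bool) : ℕ := if b then 2 * x + 1 else 2 * x + 2

inductive Run (w : List A) (N : ℕ) : Prog A → St → St → Prop
  | push {r b s} : pushVal (s.reg r) b ≤ N → Run w N (.push r b) s (s.set r (pushVal (s.reg r) b))
  | pop {r s} : Run w N (.pop r) s (s.set r ((s.reg r - 1) / 2))
  | mv {m s} : Run w N (.mv m) s ⟨s.reg, inMove w.length s.pos m⟩
  | seq {p q s s' s''} : Run w N p s s' → Run w N q s' s'' → Run w N (.seq p q) s s''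
  | iteT {t p q s s'} : t.holds w s → Run w N p s s' → Run w N (.ite t p q) s s'
  | iteF {t p q s s'} : ¬ t.holds w s → Run w N q s s' → Run w N (.ite t p q) s s'
  | loopF {t p s} : ¬ t.holds w s → Run w N (.loop t p) s s
  | loopT {t p s s' s''} : t.holds w s → Run w N p s s' → Run w N (.loop t p) s' s'' →
      Run w N (.loop t p) s s''

/-! Tape representation of a number. -/

def len : ℕ → ℕ
  | 0 => 0
  | x + 1 => len (x / 2) + 1

def tapeOf : ℕ → ℤ → Option Bool
  | 0 => fun _ => none
  | x + 1 => update (tapeOf (x / 2)) ((len (x / 2) : ℤ) + 1) (some (decide (x % 2 = 0)))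

theorem len_zero : len 0 = 0 := by rw [len]
theorem len_succ (x : ℕ) : len (x + 1) = len (x / 2) + 1 := by rw [len]
theorem tapeOf_zero : tapeOf 0 = fun _ => none := by rw [tapeOf]
theorem tapeOf_succ (x : ℕ) : tapeOf (x + 1) =
    update (tapeOf (x / 2)) ((len (x / 2) : ℤ) + 1) (some (decide (x % 2 = 0))) := by rw [tapeOf]

theorem tapeOf_above (x : ℕ) : ∀ z : ℤ, (len x : ℤ) < z → tapeOf x z = none := by
  induction x using Nat.strong_induction_on with
  | _ x ih =>
    intro z hz
    rcases x with _ | x
    · simp [tapeOf_zero]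
    · rw [tapeOf_succ, update_of_ne]
      · apply ih _ (by omega)
        rw [len_succ] at hz; push_cast at hz; omega
      · rw [len_succ] at hz; push_cast at hz; omega

theorem two_pow_len_le (x : ℕ) : 2 ^ len x ≤ x + 1 := by
  induction x using Nat.strong_induction_on with
  | _ x ih =>
    rcases x with _ | x
    · simp [len_zero]
    · rw [len_succ, pow_succ]
      have := ih (x / 2) (by omega)
      omega

theorem len_le_log {x N : ℕ} (h : x ≤ N) : len x ≤ Nat.log 2 (N + 1) := by
  apply Nat.le_log_of_pow_le (by norm_num)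
  have := two_pow_len_le x
  omega

theorem len_push (x : ℕ) (b : Bool) : len (pushVal x b) = len x + 1 := by
  cases b
  · have : pushVal x false = (2 * x + 1) + 1 := by simp [pushVal]
    rw [this, len_succ]; congr 2; omega
  · have : pushVal x true = (2 * x) + 1 := by simp [pushVal]
    rw [this, len_succ]; congr 2; omega

theorem tapeOf_push (x : ℕ) (b : Bool) :
    tapeOf (pushVal x b) = update (tapeOf x) ((len x : ℤ) + 1) (some b) := by
  cases b
  · have : pushVal x false = (2 * x + 1) + 1 := by simp [pushVal]
    have h2 : (2 * x + 1) / 2 = x := by omega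
    rw [this, tapeOf_succ, h2]; congr 2; simp
  · have : pushVal x true = (2 * x) + 1 := by simp [pushVal]
    have h2 : (2 * x) / 2 = x := by omega
    rw [this, tapeOf_succ, h2]; congr 2; simp

theorem tapeOf_top (x : ℕ) :
    tapeOf x (len x) = if x = 0 then none else some (decide (x % 2 = 1)) := by
  rcases x with _ | x
  · simp [tapeOf_zero]
  · rw [tapeOf_succ, len_succ]
    push_cast
    rw [update_self]
    simp only [Option.some.injEq, decide_eq_decide]
    omega

theorem tapeOf_pop (x : ℕ) :
    update (tapeOf (x + 1)) (len (x + 1)) none = tapeOf (x / 2) := by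
  rw [tapeOf_succ, len_succ]
  push_cast
  rw [update_idem]
  apply update_eq_iff.mpr
  refine ⟨?_, fun _ _ => rfl⟩
  exact (tapeOf_above _ _ (by omega)).symm

/-! Tape-level configurations. -/

structure TC (k : ℕ) where
  pos : ℕ
  heads : Fin k → ℤ
  tapes : Fin k → ℤ → Option Bool

abbrev Act (k : ℕ) := Move × (Fin k → Option Bool × Move)

def TC.sc {k : ℕ} (c : TC k) : Fin k → Option Bool := fun j => c.tapes j (c.heads j)

def TC.app {k : ℕ} (w : List A) (c : TC k) (a : Act k) : TC k where
  pos := inMove w.length c.pos a.1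
  heads := fun j => c.heads j + (a.2 j).2.shift
  tapes := fun j => update (c.tapes j) (c.heads j) (a.2 j).1

def idle {k : ℕ} (sc : Fin k → Option Bool) : Act k := (.stay, fun j => (sc j, .stay))

theorem TC.app_idle {k : ℕ} (w : List A) (c : TC k) : c.app w (idle c.sc) = c := by
  cases c
  simp [TC.app, idle, inMove, Move.shift, TC.sc]

def cfgOf (k : ℕ) (s : St) : TC k where
  pos := s.pos
  heads := fun j => len (s.reg j)
  tapes := fun j => tapeOf (s.reg j)

def Test.scan {k : ℕ} (a : InSym A) (sc : Fin k → Option Bool) : Test A → Prop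
  | .zero r => ∀ h : r < k, sc ⟨r, h⟩ = none
  | .odd r => ∀ h : r < k, sc ⟨r, h⟩ = some true
  | .sym b => a = b
  | .not t => ¬ t.scan a sc
  | .or t u => t.scan a sc ∨ u.scan a sc

theorem Test.scan_iff {k : ℕ} (w : List A) (s : St) (t : Test A) (h : t.bd ≤ k) :
    t.scan (inSym w (cfgOf k s).pos) (cfgOf k s).sc ↔ t.holds w s := by
  induction t with
  | zero r =>
    have hr : r < k := by simpa [Test.bd] using h
    simp only [Test.scan, Test.holds, TC.sc, cfgOf, tapeOf_top]
    constructor
    · intro H
      by_contra hne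
      simpa [hne] using H hr
    · intro H _; simp [H]
  | odd r =>
    have hr : r < k := by simpa [Test.bd] using h
    simp only [Test.scan, Test.holds, TC.sc, cfgOf, tapeOf_top]
    constructor
    · intro H
      have := H hr
      split_ifs at this with h0
      simpa using this
    · intro H _
      have : s.reg r ≠ 0 := by omega
      simp [this, H]
  | sym a => simp [Test.scan, Test.holds, cfgOf]
  | not t ih => simp only [Test.scan, Test.holds]; rw [ih h]
  | or t u ih1 ih2 =>
    simp only [Test.scan, Test.holds]
    rw [ih1 (le_trans (le_max_left _ _) h), ih2 (le_trans (le_max_right _ _) h)]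

def Lab : Prog A → Type
  | .push _ _ => Bool
  | .pop _ => Unit
  | .mv _ => Unit
  | .seq p q => Lab p ⊕ Lab q
  | .ite _ p q => Option (Lab p ⊕ Lab q)
  | .loop _ p => Option (Lab p)

theorem Lab.finite : (p : Prog A) → Finite (Lab p)
  | .push _ _ => inferInstanceAs (Finite Bool)
  | .pop _ => inferInstanceAs (Finite Unit)
  | .mv _ => inferInstanceAs (Finite Unit)
  | .seq p q => by
      have := Lab.finite p; have := Lab.finite q
      exact inferInstanceAs (Finite (Lab p ⊕ Lab q))
  | .ite _ p q => by
      have := Lab.finite p; have := Lab.finite q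
      exact inferInstanceAs (Finite (Option (Lab p ⊕ Lab q)))
  | .loop _ p => by
      have := Lab.finite p
      exact inferInstanceAs (Finite (Option (Lab p)))

def entry : (p : Prog A) → Lab p
  | .push _ _ => false
  | .pop _ => ()
  | .mv _ => ()
  | .seq p _ => Sum.inl (entry p)
  | .ite _ _ _ => none
  | .loop _ _ => none

open Classical in
noncomputable def tr (k : ℕ) : (p : Prog A) → Lab p → InSym A → (Fin k → Option Bool) →
    Option (Lab p) × Act k
  | .push r _, false, _, sc =>
      (some true, (.stay, fun j => if j.val = r then (sc j, .right) else (sc j, .stay)))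
  | .push r b, true, _, sc =>
      (none, (.stay, fun j => if j.val = r then (some b, .stay) else (sc j, .stay)))
  | .pop r, _, _, sc =>
      (none, (.stay, fun j => if j.val = r ∧ sc j ≠ none then (none, .left) else (sc j, .stay)))
  | .mv m, _, _, sc => (none, (m, fun j => (sc j, .stay)))
  | .seq p q, Sum.inl l, a, sc =>
      (some (((tr k p l a sc).1.map Sum.inl).getD (Sum.inr (entry q))), (tr k p l a sc).2)
  | .seq _ q, Sum.inr l, a, sc => ((tr k q l a sc).1.map Sum.inr, (tr k q l a sc).2)
  | .ite t p q, none, a, sc =>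
      (some (some (if t.scan a sc then Sum.inl (entry p) else Sum.inr (entry q))), idle sc)
  | .ite _ p _, some (Sum.inl l), a, sc =>
      ((tr k p l a sc).1.map (fun x => some (Sum.inl x)), (tr k p l a sc).2)
  | .ite _ _ q, some (Sum.inr l), a, sc =>
      ((tr k q l a sc).1.map (fun x => some (Sum.inr x)), (tr k q l a sc).2)
  | .loop t p, none, a, sc => (if t.scan a sc then some (some (entry p)) else none, idle sc)
  | .loop _ p, some l, a, sc => (some (tr k p l a sc).1, (tr k p l a sc).2)

/-- Paths of a labelled transition system all of whose configurations satisfy `ok`. -/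
inductive Path {L C : Type} (step : L → C → Option L × C) (ok : C → Prop) :
    Option L → C → Option L → C → Prop
  | refl {o c} : Path step ok o c o c
  | step {l c o c'} : ok (step l c).2 → Path step ok (step l c).1 (step l c).2 o c' →
      Path step ok (some l) c o c'

theorem Path.trans {L C : Type} {step : L → C → Option L × C} {ok : C → Prop} {o c o' c' o'' c''}
    (h : Path step ok o c o' c') (h' : Path step ok o' c' o'' c'') : Path step ok o c o'' c'' := by
  induction h with
  | refl => exact h'
  | step h1 _ ih => exact Path.step h1 (ih h')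

theorem Path.one {L C : Type} {step : L → C → Option L × C} {ok : C → Prop} {l c o c'}
    (h : step l c = (o, c')) (hok : ok c') : Path step ok (some l) c o c' := by
  apply Path.step
  · rw [h]; exact hok
  · rw [h]; exact Path.refl

theorem Path.lift {L L' C : Type} {step : L → C → Option L × C} {step' : L' → C → Option L' × C}
    {ok : C → Prop} (φ : Option L → Option L') (ψ : L → L') (hφ : ∀ l, φ (some l) = some (ψ l))
    (hs : ∀ l c, step' (ψ l) c = (φ (step l c).1, (step l c).2)) {o c o' c'}
    (h : Path step ok o c o' c') : Path step' ok (φ o) c (φ o') c' := by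
  induction h with
  | refl => exact Path.refl
  | step h1 _ ih =>
    rw [hφ]
    apply Path.step
    · rw [hs]; exact h1
    · rw [hs]; exact ih

noncomputable def stp (k : ℕ) (w : List A) (p : Prog A) (l : Lab p) (c : TC k) :
    Option (Lab p) × TC k :=
  ((tr k p l (inSym w c.pos) c.sc).1, c.app w (tr k p l (inSym w c.pos) c.sc).2)

def okc {k : ℕ} (S : ℕ) (c : TC k) : Prop := ∀ j, 0 ≤ c.heads j ∧ c.heads j ≤ S

theorem okc_cfgOf {k N : ℕ} {s : St} (h : ∀ r, s.reg r ≤ N) :
    okc (Nat.log 2 (N + 1)) (cfgOf k s) := by
  intro j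
  refine ⟨by simp [cfgOf], ?_⟩
  simp only [cfgOf]
  exact_mod_cast len_le_log (h j)

theorem Run.bound {w : List A} {N : ℕ} {p s s'} (h : Run w N p s s') (hs : ∀ r, s.reg r ≤ N) :
    ∀ r, s'.reg r ≤ N := by
  induction h with
  | @push r b s hb =>
    intro r'
    by_cases e : r' = r
    · subst e; simpa [St.set] using hb
    · simpa [St.set, e] using hs r'
  | @pop r s =>
    intro r'
    by_cases e : r' = r
    · subst e; have := hs r'; simp only [St.set, update_self]; omega
    · simpa [St.set, e] using hs r'
  | mv => exact hs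
  | seq _ _ ih1 ih2 => exact ih2 (ih1 hs)
  | iteT _ _ ih => exact ih hs
  | iteF _ _ ih => exact ih hs
  | loopF => exact hs
  | loopT _ _ _ ih1 ih2 => exact ih2 (ih1 hs)

theorem TC.ext' {k : ℕ} {c c' : TC k} (h1 : c.pos = c'.pos) (h2 : ∀ j, c.heads j = c'.heads j)
    (h3 : ∀ j, c.tapes j = c'.tapes j) : c = c' := by
  cases c; cases c'
  simp only [TC.mk.injEq]
  exact ⟨h1, funext h2, funext h3⟩

theorem Run.path {w : List A} {N k : ℕ} {p s s'} (h : Run w N p s s') (hk : p.bd ≤ k)
    (hs : ∀ r, s.reg r ≤ N) :
    Path (stp k w p) (okc (Nat.log 2 (N + 1))) (some (entry p)) (cfgOf k s) none (cfgOf k s') := by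
  induction h with
  | @push r b s hb =>
    have hs' := Run.bound (Run.push (w := w) hb) hs
    let c1 : TC k := ⟨s.pos, fun j => if j.val = r then len (s.reg j) + 1 else len (s.reg j),
      fun j => tapeOf (s.reg j)⟩
    have e1 : stp k w (.push r b) (entry (.push r b)) (cfgOf k s) = (some true, c1) := by
      simp only [stp, tr, entry]
      congr 1
      apply TC.ext'
      · simp [TC.app, inMove, cfgOf, c1]
      · intro j
        by_cases e : j.val = r <;> simp [TC.app, cfgOf, c1, e, Move.shift]
      · intro j
        by_cases e : j.val = r <;> simp [TC.app, cfgOf, c1, e, TC.sc]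
    have e2 : stp k w (.push r b) true c1 = (none, cfgOf k (s.set r (pushVal (s.reg r) b))) := by
      simp only [stp, tr]
      congr 1
      apply TC.ext'
      · simp [TC.app, inMove, cfgOf, c1, St.set]
      · intro j
        by_cases e : j.val = r
        · simp [TC.app, cfgOf, c1, e, Move.shift, St.set, len_push]
        · simp [TC.app, cfgOf, c1, e, Move.shift, St.set]
      · intro j
        by_cases e : j.val = r
        · simp [TC.app, cfgOf, c1, e, St.set, tapeOf_push]
        · simp [TC.app, cfgOf, c1, e, St.set, TC.sc]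
    refine Path.trans (Path.one e1 ?_) (Path.one e2 (okc_cfgOf hs'))
    intro j
    have h1 := okc_cfgOf (k := k) hs' j
    have h2 := okc_cfgOf (k := k) hs j
    by_cases e : j.val = r
    · simpa [c1, e, cfgOf, St.set, len_push] using h1
    · simpa [c1, e, cfgOf] using h2
  | @pop r s =>
    have hs' := Run.bound (Run.pop (w := w) (r := r)) hs
    refine Path.one ?_ (okc_cfgOf hs')
    simp only [stp, tr]
    congr 1
    apply TC.ext'
    · simp [TC.app, inMove, cfgOf, St.set]
    · intro j
      by_cases e : j.val = r
      · subst e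
        rcases hx : s.reg j with _ | x
        · simp [TC.app, cfgOf, TC.sc, hx, tapeOf_zero, Move.shift, St.set]
        · have : tapeOf (x + 1) (len (x + 1)) ≠ none := by rw [tapeOf_top]; simp
          simp only [TC.app, cfgOf, TC.sc, hx, St.set, update_self, this, ne_eq, not_false_eq_true,
            and_self, if_true, Move.shift, Nat.add_sub_cancel]
          rw [len_succ]; push_cast; ring
      · simp [TC.app, cfgOf, e, Move.shift, St.set]
    · intro j
      by_cases e : j.val = r
      · subst e
        rcases hx : s.reg j with _ | x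
        · simp [TC.app, cfgOf, TC.sc, hx, tapeOf_zero, St.set]
        · have : tapeOf (x + 1) (len (x + 1)) ≠ none := by rw [tapeOf_top]; simp
          simp only [TC.app, cfgOf, TC.sc, hx, St.set, update_self, this, ne_eq, not_false_eq_true,
            and_self, if_true, Nat.add_sub_cancel]
          exact tapeOf_pop x
      · simp [TC.app, cfgOf, e, St.set, TC.sc]
  | @mv m s =>
    refine Path.one ?_ (okc_cfgOf (s := ⟨s.reg, inMove w.length s.pos m⟩) hs)
    simp only [stp, tr]
    congr 1
    apply TC.ext'
    · simp [TC.app, cfgOf]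
    · intro j; simp [TC.app, cfgOf, Move.shift]
    · intro j; simp [TC.app, cfgOf, TC.sc]
  | @seq p q s s' s'' h1 _ ih1 ih2 =>
    have hk1 : p.bd ≤ k := le_trans (le_max_left _ _) hk
    have hk2 : q.bd ≤ k := le_trans (le_max_right _ _) hk
    have a1 := Path.lift (step' := stp k w (.seq p q))
      (fun o => some ((o.map Sum.inl).getD (Sum.inr (entry q)))) Sum.inl (fun _ => rfl)
      (fun _ _ => rfl) (ih1 hk1 hs)
    have a2 := Path.lift (step' := stp k w (.seq p q))
      (fun o => o.map Sum.inr) Sum.inr (fun _ => rfl) (fun _ _ => rfl) (ih2 hk2 (h1.bound hs))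
    exact a1.trans a2
  | @iteT t p q s s' ht _ ih =>
    have hk0 : t.bd ≤ k := le_trans (le_max_left _ _) hk
    have hk1 : p.bd ≤ k := le_trans (le_trans (le_max_left _ _) (le_max_right _ _)) hk
    have a1 := Path.lift (step' := stp k w (.ite t p q))
      (fun o => o.map (fun x => some (Sum.inl x))) (fun x => some (Sum.inl x)) (fun _ => rfl)
      (fun _ _ => rfl) (ih hk1 hs)
    refine Path.trans (Path.one ?_ (okc_cfgOf hs)) a1
    simp only [stp, tr, entry, TC.app_idle]
    rw [if_pos ((Test.scan_iff w s t hk0).mpr ht)]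
    rfl
  | @iteF t p q s s' ht _ ih =>
    have hk0 : t.bd ≤ k := le_trans (le_max_left _ _) hk
    have hk1 : q.bd ≤ k := le_trans (le_trans (le_max_right _ _) (le_max_right _ _)) hk
    have a1 := Path.lift (step' := stp k w (.ite t p q))
      (fun o => o.map (fun x => some (Sum.inr x))) (fun x => some (Sum.inr x)) (fun _ => rfl)
      (fun _ _ => rfl) (ih hk1 hs)
    refine Path.trans (Path.one ?_ (okc_cfgOf hs)) a1
    simp only [stp, tr, entry, TC.app_idle]
    rw [if_neg (fun h => ht ((Test.scan_iff w s t hk0).mp h))]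
    rfl
  | @loopF t p s ht =>
    have hk0 : t.bd ≤ k := le_trans (le_max_left _ _) hk
    refine Path.one ?_ (okc_cfgOf hs)
    simp only [stp, tr, entry, TC.app_idle]
    rw [if_neg (fun h => ht ((Test.scan_iff w s t hk0).mp h))]
  | @loopT t p s s' s'' ht h1 _ ih1 ih2 =>
    have hk0 : t.bd ≤ k := le_trans (le_max_left _ _) hk
    have hk1 : p.bd ≤ k := le_trans (le_max_right _ _) hk
    have a1 := Path.lift (step' := stp k w (.loop t p))
      (fun o => some o) (fun x => some x) (fun _ => rfl) (fun _ _ => rfl) (ih1 hk1 hs)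
    refine Path.trans (Path.one ?_ (okc_cfgOf hs)) (a1.trans (ih2 hk (h1.bound hs)))
    simp only [stp, tr, entry, TC.app_idle]
    rw [if_pos ((Test.scan_iff w s t hk0).mpr ht)]

/-! The machine of a program. -/

open Classical in
noncomputable def machine (p : Prog A) (t : Test A) : MultiTape A where
  k := max p.bd t.bd
  Q := Option (Lab p) ⊕ Bool
  G := Option Bool
  finQ := by
    have := Lab.finite p
    exact Fintype.ofFinite _
  finG := inferInstance
  blank := none
  start := Sum.inl (some (entry p))
  acc := Sum.inr true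
  rej := Sum.inr false
  acc_ne := by simp
  trans := fun q a sc =>
    match q with
    | Sum.inl (some l) => (Sum.inl (tr _ p l a sc).1, (tr _ p l a sc).2)
    | Sum.inl none => (Sum.inr (decide (t.scan a sc)), idle sc)
    | Sum.inr b => (Sum.inr b, idle sc)

def toCfg (p : Prog A) (t : Test A) (q : Option (Lab p) ⊕ Bool) (c : TC (max p.bd t.bd)) :
    (machine p t).Cfg := ⟨q, c.pos, c.heads, c.tapes⟩

theorem step_toCfg (p : Prog A) (t : Test A) (w : List A) (l : Lab p) (c : TC (max p.bd t.bd)) :
    (machine p t).step w (toCfg p t (Sum.inl (some l)) c) =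
      toCfg p t (Sum.inl (stp _ w p l c).1) (stp _ w p l c).2 := rfl

open Classical in
theorem step_toCfg_none (p : Prog A) (t : Test A) (w : List A) (c : TC (max p.bd t.bd)) :
    (machine p t).step w (toCfg p t (Sum.inl none) c) =
      toCfg p t (Sum.inr (decide (t.scan (inSym w c.pos) c.sc))) (c.app w (idle c.sc)) := rfl

theorem path_iter (p : Prog A) (t : Test A) (w : List A) {ok : TC (max p.bd t.bd) → Prop}
    {o c o' c'} (h : Path (stp _ w p) ok o c o' c') (hc : ok c) :
    ∃ τ, ((machine p t).step w)^[τ] (toCfg p t (Sum.inl o) c) = toCfg p t (Sum.inl o') c' ∧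
      ∀ σ ≤ τ, ∃ o'' c'', ((machine p t).step w)^[σ] (toCfg p t (Sum.inl o) c) =
        toCfg p t (Sum.inl o'') c'' ∧ ok c'' := by
  induction h with
  | @refl o c =>
    refine ⟨0, rfl, fun σ hσ => ⟨o, c, ?_, hc⟩⟩
    obtain rfl : σ = 0 := by omega
    rfl
  | @step l c o c' h1 _ ih =>
    obtain ⟨τ, e, H⟩ := ih h1
    refine ⟨τ + 1, ?_, fun σ hσ => ?_⟩
    · rw [iterate_succ_apply, step_toCfg]; exact e
    · rcases σ with _ | σ
      · exact ⟨_, c, rfl, hc⟩
      · rw [iterate_succ_apply, step_toCfg]; exact H σ (by omega)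

def St.zero : St := ⟨fun _ => 0, 0⟩

theorem exists_machine (p : Prog A) (t : Test A) : ∃ M : MultiTape A, ∀ (w : List A) (N : ℕ) (s' : St),
    Run w N p St.zero s' → ∃ τ, M.HaltsAt w τ ∧ ((M.run w τ).q = M.acc ↔ t.holds w s') ∧
      M.cells w τ ≤ M.k * (Nat.log 2 (N + 1) + 1) := by
  classical
  refine ⟨machine p t, fun w N s' h => ?_⟩
  have hz : ∀ r, St.zero.reg r ≤ N := fun r => Nat.zero_le _
  have hp := h.path (k := max p.bd t.bd) (le_max_left _ _) hz
  obtain ⟨τ, e, H⟩ := path_iter p t w hp (okc_cfgOf hz)
  have hinit : (machine p t).init = toCfg p t (Sum.inl (some (entry p))) (cfgOf _ St.zero) := by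
    simp only [MultiTape.init, toCfg, cfgOf, St.zero, len_zero, tapeOf_zero]
    rfl
  have hrun : ∀ σ, (machine p t).run w σ = ((machine p t).step w)^[σ]
      (toCfg p t (Sum.inl (some (entry p))) (cfgOf _ St.zero)) := by
    intro σ; rw [MultiTape.run, hinit]
  have hlast : (machine p t).run w (τ + 1) = toCfg p t (Sum.inr (decide (t.holds w s')))
      (cfgOf _ s') := by
    rw [hrun, iterate_succ_apply', e, step_toCfg_none, TC.app_idle]
    congr 2
    exact decide_eq_decide.mpr (Test.scan_iff w s' t (le_max_right _ _))
  refine ⟨τ + 1, ⟨?_, ?_⟩, ?_, ?_⟩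
  · unfold MultiTape.Halted
    rw [hlast]
    by_cases ht : t.holds w s'
    · left; simp [toCfg, machine, ht]
    · right; simp [toCfg, machine, ht]
  · intro σ hσ
    obtain ⟨o'', c'', e'', _⟩ := H σ (by omega)
    unfold MultiTape.Halted
    rw [hrun, e'']
    simp [toCfg, machine]
  · rw [hlast]
    simp [toCfg, machine]
  · unfold MultiTape.cells
    have key : ∀ j : Fin (machine p t).k,
        ((Finset.range (τ + 1 + 1)).image fun σ => ((machine p t).run w σ).heads j).card ≤
          Nat.log 2 (N + 1) + 1 := by
      intro j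
      have hsub : ((Finset.range (τ + 1 + 1)).image fun σ => ((machine p t).run w σ).heads j) ⊆
          Finset.Icc (0 : ℤ) (Nat.log 2 (N + 1)) := by
        intro z hz'
        obtain ⟨σ, hσ, rfl⟩ := Finset.mem_image.mp hz'
        rw [Finset.mem_range] at hσ
        rw [Finset.mem_Icc]
        by_cases hs : σ ≤ τ
        · obtain ⟨o'', c'', e'', hok⟩ := H σ hs
          rw [hrun, e'']
          exact hok j
        · obtain rfl : σ = τ + 1 := by omega
          rw [hlast]
          exact okc_cfgOf (h.bound hz) j
      refine le_trans (Finset.card_le_card hsub) ?_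
      simp
    calc _ ≤ ∑ _j : Fin (machine p t).k, (Nat.log 2 (N + 1) + 1) :=
          Finset.sum_le_sum fun j _ => key j
      _ = _ := by simp

end Vale.Agent.P312
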